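import Crest.Agent.R232.Defs

-- ▼ part R232/T1Chain
section

/-! # T1, part 1: reversible chains, entropy decay -/

set_option autoImplicit false
open Finset

namespace Crest.Agent.R232.T1

open Crest.Agent.R232

variable {X : Type*} [Fintype X]

/-- generator: `L f x = (1/π x) ∑ y, c x y * (f x - f y)` -/
noncomputable def Lop (π : X → ℝ) (c : X → X → ℝ) : (X → ℝ) →ₗ[ℝ] (X → ℝ) where
  toFun f := fun x => (π x)⁻¹ * ∑ y, c x y * (f x - f y)
  map_add' f g := by
    funext x
    simp only [Pi.add_apply]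
    rw [← mul_add, ← Finset.sum_add_distrib]
    congr 1
    exact Finset.sum_congr rfl fun y _ => by ring
  map_smul' r f := by
    funext x
    simp only [Pi.smul_apply, smul_eq_mul, RingHom.id_apply]
    rw [mul_left_comm, Finset.mul_sum (a := r)]
    congr 1
    exact Finset.sum_congr rfl fun y _ => by ring

theorem Lop_apply (π : X → ℝ) (c : X → X → ℝ) (f : X → ℝ) (x : X) :
    Lop π c f x = (π x)⁻¹ * ∑ y, c x y * (f x - f y) := rfl

/-- the kernel `P = 1 - δ L` -/
noncomputable def Pop (π : X → ℝ) (c : X → X → ℝ) (δ : ℝ) : Module.End ℝ (X → ℝ) :=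
  1 - δ • Lop π c

theorem Pop_apply (π : X → ℝ) (c : X → X → ℝ) (δ : ℝ) (f : X → ℝ) (x : X) :
    Pop π c δ f x = f x - δ * Lop π c f x := by
  simp [Pop]

/-- `π`-inner product -/
def ip (π : X → ℝ) (f g : X → ℝ) : ℝ := ∑ x, π x * (f x * g x)

structure IsChain (π : X → ℝ) (c : X → X → ℝ) (δ : ℝ) : Prop where
  pos : ∀ x, 0 < π x
  sum_one : ∑ x, π x = 1
  symm : ∀ x y, c x y = c y x
  nonneg : ∀ x y, 0 ≤ c x y
  δpos : 0 < δ
  bound : ∀ x, δ * ∑ y, c x y ≤ π x / 2

theorem ip_comm (π f g : X → ℝ) : ip π f g = ip π g f := by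
  unfold ip
  exact Finset.sum_congr rfl fun x _ => by ring


theorem ip_Lop {π : X → ℝ} {c : X → X → ℝ} (hπ : ∀ x, 0 < π x) (hc : ∀ x y, c x y = c y x)
    (f g : X → ℝ) :
    ip π (Lop π c f) g = (1 / 2) * ∑ x, ∑ y, c x y * ((f x - f y) * (g x - g y)) := by
  have h1 : ip π (Lop π c f) g = ∑ x, ∑ y, c x y * (f x - f y) * g x := by
    unfold ip
    refine Finset.sum_congr rfl fun x _ => ?_
    rw [Lop_apply, ← Finset.sum_mul]
    have := (hπ x).ne'
    field_simp
  have h2 : ∑ x, ∑ y, c x y * (f x - f y) * g x = ∑ x, ∑ y, -(c x y * (f x - f y) * g y) := by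
    rw [Finset.sum_comm]
    refine Finset.sum_congr rfl fun x _ => Finset.sum_congr rfl fun y _ => ?_
    rw [hc y x]
    ring
  have h3 : ∑ x, ∑ y, c x y * ((f x - f y) * (g x - g y))
      = (∑ x, ∑ y, c x y * (f x - f y) * g x) + ∑ x, ∑ y, -(c x y * (f x - f y) * g y) := by
    rw [← Finset.sum_add_distrib]
    refine Finset.sum_congr rfl fun x _ => ?_
    rw [← Finset.sum_add_distrib]
    exact Finset.sum_congr rfl fun y _ => by ring
  rw [h3, ← h2, h1]
  ring

theorem ip_Lop_symm {π : X → ℝ} {c : X → X → ℝ} (hπ : ∀ x, 0 < π x)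
    (hc : ∀ x y, c x y = c y x) (f g : X → ℝ) :
    ip π (Lop π c f) g = ip π f (Lop π c g) := by
  rw [ip_Lop hπ hc, ip_comm, ip_Lop hπ hc]
  congr 1
  exact Finset.sum_congr rfl fun x _ => Finset.sum_congr rfl fun y _ => by ring

variable {π : X → ℝ} {c : X → X → ℝ} {δ : ℝ}

theorem ip_Pop_symm (h : IsChain π c δ) (f g : X → ℝ) :
    ip π (Pop π c δ f) g = ip π f (Pop π c δ g) := by
  have h1 : ∀ f g : X → ℝ, ip π (Pop π c δ f) g = ip π f g - δ * ip π (Lop π c f) g := by
    intro f g
    unfold ip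
    rw [Finset.mul_sum, ← Finset.sum_sub_distrib]
    refine Finset.sum_congr rfl fun x _ => ?_
    rw [Pop_apply]; ring
  rw [h1, ip_comm π f (Pop π c δ g), h1, ip_Lop_symm h.pos h.symm, ip_comm π g f,
    ip_comm π f (Lop π c g)]

theorem ip_Pop_pow (h : IsChain π c δ) (k : ℕ) (f g : X → ℝ) :
    ip π ((Pop π c δ ^ k) f) g = ip π f ((Pop π c δ ^ k) g) := by
  induction k generalizing f g with
  | zero => simp
  | succ k ih =>
    rw [pow_succ, Module.End.mul_apply, ih, ip_Pop_symm h]
    congr 1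
    rw [← Module.End.mul_apply, ← pow_succ', pow_succ]

theorem ip_one_Lop (h : IsChain π c δ) (f : X → ℝ) : ip π (Lop π c f) (fun _ => 1) = 0 := by
  rw [ip_Lop h.pos h.symm]; simp

theorem ip_one_Pop (h : IsChain π c δ) (f : X → ℝ) :
    ip π (Pop π c δ f) (fun _ => 1) = ip π f (fun _ => 1) := by
  rw [ip_Pop_symm h]
  congr 1
  funext x
  rw [Pop_apply, Lop_apply]; simp

theorem ip_one_Pop_pow (h : IsChain π c δ) (k : ℕ) (f : X → ℝ) :
    ip π ((Pop π c δ ^ k) f) (fun _ => 1) = ip π f (fun _ => 1) := by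
  induction k with
  | zero => simp
  | succ k ih => rw [pow_succ', Module.End.mul_apply, ip_one_Pop h, ih]

/-- `P` written as a convex combination -/
theorem Pop_apply' (h : IsChain π c δ) (f : X → ℝ) (x : X) :
    Pop π c δ f x = (1 - ∑ y, δ * c x y / π x) * f x + ∑ y, δ * c x y / π x * f y := by
  rw [Pop_apply, Lop_apply, Finset.mul_sum, Finset.mul_sum, sub_mul, Finset.sum_mul, sub_add,
    one_mul, ← Finset.sum_sub_distrib]
  congr 1
  refine Finset.sum_congr rfl fun y _ => ?_
  have := (h.pos x).ne'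
  field_simp

theorem sum_p_le (h : IsChain π c δ) (x : X) : ∑ y, δ * c x y / π x ≤ 1 / 2 := by
  rw [← Finset.sum_div, ← Finset.mul_sum, div_le_iff₀ (h.pos x)]
  have := h.bound x
  linarith

theorem p_nonneg (h : IsChain π c δ) (x y : X) : 0 ≤ δ * c x y / π x :=
  div_nonneg (mul_nonneg h.δpos.le (h.nonneg x y)) (h.pos x).le

theorem Pop_nonneg (h : IsChain π c δ) {f : X → ℝ} (hf : ∀ x, 0 ≤ f x) (x : X) :
    0 ≤ Pop π c δ f x := by
  rw [Pop_apply' h]
  have h1 := sum_p_le h x
  have h2 : 0 ≤ ∑ y, δ * c x y / π x * f y :=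
    Finset.sum_nonneg fun y _ => mul_nonneg (p_nonneg h x y) (hf y)
  have h3 : 0 ≤ (1 - ∑ y, δ * c x y / π x) * f x := mul_nonneg (by linarith) (hf x)
  linarith

theorem Pop_pow_nonneg (h : IsChain π c δ) (k : ℕ) {f : X → ℝ} (hf : ∀ x, 0 ≤ f x) (x : X) :
    0 ≤ (Pop π c δ ^ k) f x := by
  induction k generalizing x with
  | zero => simpa using hf x
  | succ k ih => rw [pow_succ', Module.End.mul_apply]; exact Pop_nonneg h ih x

/-- one-step energy inequality `|P g|² ≤ |g|² - ⟨(I-P) g, g⟩` -/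
theorem energy_step (h : IsChain π c δ) (g : X → ℝ) :
    ip π (Pop π c δ g) (Pop π c δ g) ≤ ip π g g - δ * ip π (Lop π c g) g := by
  have h1 : ip π (Pop π c δ g) (Pop π c δ g)
      = ip π g g - 2 * (δ * ip π (Lop π c g) g) + δ ^ 2 * ip π (Lop π c g) (Lop π c g) := by
    unfold ip
    rw [Finset.mul_sum, Finset.mul_sum, Finset.mul_sum, ← Finset.sum_sub_distrib,
      ← Finset.sum_add_distrib]
    refine Finset.sum_congr rfl fun x _ => ?_
    rw [Pop_apply]; ring
  have h2 : δ * ip π (Lop π c g) (Lop π c g) ≤ ip π (Lop π c g) g := by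
    rw [ip_Lop h.pos h.symm g g, Finset.mul_sum]
    unfold ip
    rw [Finset.mul_sum]
    refine Finset.sum_le_sum fun x _ => ?_
    rw [Lop_apply]
    have hcs : (∑ y, c x y * (g x - g y)) ^ 2
        ≤ (∑ y, c x y) * ∑ y, c x y * ((g x - g y) * (g x - g y)) := by
      refine Finset.sum_sq_le_sum_mul_sum_of_sq_le_mul _ (fun y _ => h.nonneg x y)
        (fun y _ => mul_nonneg (h.nonneg x y) (mul_self_nonneg _)) (fun y _ => le_of_eq (by ring))
    have hS : 0 ≤ ∑ y, c x y * ((g x - g y) * (g x - g y)) :=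
      Finset.sum_nonneg fun y _ => mul_nonneg (h.nonneg x y) (mul_self_nonneg _)
    have hb := h.bound x
    have hp := h.pos x
    set S := ∑ y, c x y * ((g x - g y) * (g x - g y)) with hSdef
    set T := ∑ y, c x y * (g x - g y) with hT
    have h5 : δ * T ^ 2 ≤ π x / 2 * S :=
      calc δ * T ^ 2 ≤ δ * ((∑ y, c x y) * S) := mul_le_mul_of_nonneg_left hcs h.δpos.le
        _ = (δ * ∑ y, c x y) * S := by ring
        _ ≤ π x / 2 * S := mul_le_mul_of_nonneg_right hb hS
    have h6 : δ * (π x * ((π x)⁻¹ * T * ((π x)⁻¹ * T))) = (δ * T ^ 2) / π x := by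
      field_simp
    rw [h6, div_le_iff₀ hp]
    linarith
  have h3 : δ ^ 2 * ip π (Lop π c g) (Lop π c g) ≤ δ * ip π (Lop π c g) g := by
    have := mul_le_mul_of_nonneg_left h2 h.δpos.le
    calc δ ^ 2 * ip π (Lop π c g) (Lop π c g) = δ * (δ * ip π (Lop π c g) (Lop π c g)) := by ring
      _ ≤ _ := this
  rw [h1]
  linarith

theorem ip_self_nonneg (h : IsChain π c δ) (g : X → ℝ) : 0 ≤ ip π g g :=
  Finset.sum_nonneg fun x _ => mul_nonneg (h.pos x).le (mul_self_nonneg _)

theorem ip_Lop_self_nonneg (h : IsChain π c δ) (g : X → ℝ) : 0 ≤ ip π (Lop π c g) g := by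
  rw [ip_Lop h.pos h.symm]
  refine mul_nonneg (by norm_num) (Finset.sum_nonneg fun x _ => Finset.sum_nonneg fun y _ =>
    mul_nonneg (h.nonneg x y) (mul_self_nonneg _))

theorem sum_energy_le (h : IsChain π c δ) (g : X → ℝ) (K : ℕ) :
    ∑ k ∈ range K, δ * ip π (Lop π c ((Pop π c δ ^ k) g)) ((Pop π c δ ^ k) g) ≤ ip π g g := by
  have key : ∑ k ∈ range K, δ * ip π (Lop π c ((Pop π c δ ^ k) g)) ((Pop π c δ ^ k) g)
      + ip π ((Pop π c δ ^ K) g) ((Pop π c δ ^ K) g) ≤ ip π g g := by
    induction K with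
    | zero => simp
    | succ K ih =>
      rw [Finset.sum_range_succ]
      have := energy_step h ((Pop π c δ ^ K) g)
      rw [← Module.End.mul_apply (Pop π c δ) (Pop π c δ ^ K) g, ← pow_succ'] at this
      linarith
  have := ip_self_nonneg h ((Pop π c δ ^ K) g)
  linarith

theorem energy_tendsto (h : IsChain π c δ) (g : X → ℝ) :
    Filter.Tendsto (fun k => ip π (Lop π c ((Pop π c δ ^ k) g)) ((Pop π c δ ^ k) g))
      Filter.atTop (nhds 0) := by
  have hs : Summable (fun k => δ * ip π (Lop π c ((Pop π c δ ^ k) g)) ((Pop π c δ ^ k) g)) :=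
    summable_of_sum_range_le (fun k => mul_nonneg h.δpos.le (ip_Lop_self_nonneg h _))
      (sum_energy_le h g)
  have h1 := hs.tendsto_atTop_zero
  have h2 := h1.const_mul δ⁻¹
  simpa [← mul_assoc, inv_mul_cancel₀ h.δpos.ne'] using h2

/-- differences of `P^k g` over pairs of positive conductance tend to zero -/
theorem diff_tendsto (h : IsChain π c δ) (g : X → ℝ) (x y : X) (hxy : 0 < c x y) :
    Filter.Tendsto (fun k => (Pop π c δ ^ k) g x - (Pop π c δ ^ k) g y)
      Filter.atTop (nhds 0) := by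
  have h1 := energy_tendsto h g
  have h2 : ∀ k, ((Pop π c δ ^ k) g x - (Pop π c δ ^ k) g y) ^ 2
      ≤ 2 / c x y * ip π (Lop π c ((Pop π c δ ^ k) g)) ((Pop π c δ ^ k) g) := by
    intro k
    rw [ip_Lop h.pos h.symm]
    set u := (Pop π c δ ^ k) g
    have h3 : c x y * ((u x - u y) * (u x - u y))
        ≤ ∑ x, ∑ y, c x y * ((u x - u y) * (u x - u y)) := by
      refine le_trans ?_ (Finset.single_le_sum (f := fun x => ∑ y, c x y * ((u x - u y) * (u x - u y)))
        (fun x _ => Finset.sum_nonneg fun y _ => mul_nonneg (h.nonneg x y) (mul_self_nonneg _))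
        (Finset.mem_univ x))
      exact Finset.single_le_sum (f := fun y => c x y * ((u x - u y) * (u x - u y)))
        (fun y _ => mul_nonneg (h.nonneg x y) (mul_self_nonneg _)) (Finset.mem_univ y)
    rw [div_mul_eq_mul_div, le_div_iff₀ hxy]
    nlinarith [h3]
  have h4 : Filter.Tendsto (fun k => ((Pop π c δ ^ k) g x - (Pop π c δ ^ k) g y) ^ 2)
      Filter.atTop (nhds 0) := by
    refine squeeze_zero (fun k => sq_nonneg _) h2 ?_
    simpa using h1.const_mul (2 / c x y)
  have h5 := (Real.continuous_sqrt.tendsto 0).comp h4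
  simp only [Real.sqrt_zero] at h5
  rw [tendsto_zero_iff_abs_tendsto_zero]
  refine h5.congr fun k => ?_
  simp only [Function.comp, Real.sqrt_sq_eq_abs]

end Crest.Agent.R232.T1
end

-- ▼ part R232/T1a
section

/-! T1a: two-point entropy inequality. -/

set_option autoImplicit false

open Finset

namespace Crest.Agent.R232

theorem two_mul_le_log_sub_log {s : ℝ} (h0 : 0 ≤ s) (h1 : s < 1) :
    2 * s ≤ Real.log (1 + s) - Real.log (1 - s) := by
  have hs := Real.hasSum_log_sub_log_of_abs_lt_one (x := s) (by rw [abs_of_nonneg h0]; exact h1)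
  have h := sum_le_hasSum {0} (fun k _ => by positivity) hs
  simpa using h

/-- the one-variable entropy inequality -/
theorem sq_le_entropy {s : ℝ} (h0 : 0 ≤ s) (h1 : s ≤ 1) :
    s ^ 2 ≤ (1 + s) * Real.log (1 + s) + (1 - s) * Real.log (1 - s) := by
  have hmono : MonotoneOn (fun s : ℝ => (1 + s) * Real.log (1 + s) + (1 - s) * Real.log (1 - s)
      - s ^ 2) (Set.Icc 0 1) := by
    have hd : ∀ x ∈ interior (Set.Icc (0 : ℝ) 1),
        HasDerivAt (fun s : ℝ => (1 + s) * Real.log (1 + s) + (1 - s) * Real.log (1 - s) - s ^ 2)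
          ((Real.log (1 + x) + 1) * 1 + (Real.log (1 - x) + 1) * (-1) - 2 * x) x := by
      intro x hx
      rw [interior_Icc] at hx
      have a1 : HasDerivAt (fun s : ℝ => 1 + s) 1 x := (hasDerivAt_id x).const_add 1
      have a2 : HasDerivAt (fun s : ℝ => 1 - s) (-1) x := (hasDerivAt_id x).const_sub 1
      have b1 := (Real.hasDerivAt_mul_log (x := 1 + x) (by linarith [hx.1])).comp x a1
      have b2 := (Real.hasDerivAt_mul_log (x := 1 - x) (by linarith [hx.2])).comp x a2
      have b3 : HasDerivAt (fun s : ℝ => s ^ 2) (2 * x) x := by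
        simpa using hasDerivAt_pow 2 x
      exact (b1.add b2).sub b3
    apply monotoneOn_of_deriv_nonneg (convex_Icc 0 1)
    · apply Continuous.continuousOn
      have c1 : Continuous fun s : ℝ => (1 + s) * Real.log (1 + s) :=
        Real.continuous_mul_log.comp (continuous_const.add continuous_id)
      have c2 : Continuous fun s : ℝ => (1 - s) * Real.log (1 - s) :=
        Real.continuous_mul_log.comp (continuous_const.sub continuous_id)
      exact (c1.add c2).sub (continuous_id.pow 2)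
    · intro x hx
      exact (hd x hx).differentiableAt.differentiableWithinAt
    · intro x hx
      rw [(hd x hx).deriv]
      rw [interior_Icc] at hx
      have := two_mul_le_log_sub_log hx.1.le hx.2
      linarith
  have h := hmono (Set.left_mem_Icc.2 zero_le_one) (Set.mem_Icc.2 ⟨h0, h1⟩) h0
  simp only [add_zero, sub_zero, Real.log_one, mul_zero, ne_eq, OfNat.ofNat_ne_zero,
    not_false_eq_true, zero_pow] at h
  linarith

theorem entropy_two_point_aux (a b : ℝ) (ha : 0 ≤ a) (hb : 0 ≤ b) (hab : b ≤ a) :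
    (a - b) ^ 2 / (2 * (a + b)) ≤
      a * Real.log a + b * Real.log b - 2 * ((a + b) / 2 * Real.log ((a + b) / 2)) := by
  rcases eq_or_lt_of_le (add_nonneg ha hb) with h | h
  · have ha0 : a = 0 := by linarith
    have hb0 : b = 0 := by linarith
    simp [ha0, hb0]
  · set c : ℝ := (a + b) / 2 with hc
    have hc0 : 0 < c := by positivity
    set s : ℝ := (a - b) / (a + b) with hs
    have hs0 : 0 ≤ s := div_nonneg (by linarith) h.le
    have hs1 : s ≤ 1 := by rw [hs, div_le_one h]; linarith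
    have ea : a = c * (1 + s) := by rw [hc, hs]; field_simp; ring
    have eb : b = c * (1 - s) := by rw [hc, hs]; field_simp; ring
    have key := sq_le_entropy hs0 hs1
    have e1 : a * Real.log a = c * ((1 + s) * Real.log c) + c * ((1 + s) * Real.log (1 + s)) := by
      rw [ea, Real.log_mul hc0.ne' (by linarith)]
      ring
    have e2 : b * Real.log b = c * ((1 - s) * Real.log c) + c * ((1 - s) * Real.log (1 - s)) := by
      rcases eq_or_lt_of_le hs1 with h1 | h1
      · have : b = 0 := by rw [eb, h1]; ring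
        rw [this, h1]
        simp
      · rw [eb, Real.log_mul hc0.ne' (by linarith)]
        ring
    have e3 : (a - b) ^ 2 / (2 * (a + b)) = c * s ^ 2 := by
      rw [hc, hs]
      field_simp
    rw [e1, e2, e3]
    have := mul_le_mul_of_nonneg_left key hc0.le
    linarith

/-- T1a: two-point entropy inequality (`0 log 0 = 0`, `0/0 = 0`). -/
theorem entropy_two_point (a b : ℝ) (ha : 0 ≤ a) (hb : 0 ≤ b) :
    (a - b) ^ 2 / (2 * (a + b)) ≤
      a * Real.log a + b * Real.log b - 2 * ((a + b) / 2 * Real.log ((a + b) / 2)) := by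
  rcases le_total b a with h | h
  · exact entropy_two_point_aux a b ha hb h
  · have := entropy_two_point_aux b a hb ha h
    have e : (a - b) ^ 2 / (2 * (a + b)) = (b - a) ^ 2 / (2 * (b + a)) := by
      rw [add_comm b a]; congr 1; ring
    rw [e, add_comm a b]
    linarith

end Crest.Agent.R232
end

-- ▼ part R232/T1Ent
section

/-! # T1, part 2: entropy decay and heat kernels -/

set_option autoImplicit false
open Finset

namespace Crest.Agent.R232.T1

open Crest.Agent.R232

variable {X : Type*} [Fintype X]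

noncomputable def psi (s : ℝ) : ℝ := s * Real.log s

noncomputable def Ent (π : X → ℝ) (q : X → ℝ) : ℝ := ∑ x, π x * psi (q x)

noncomputable def J (c : X → X → ℝ) (q : X → ℝ) : ℝ :=
  ∑ x, ∑ y, c x y * ((q x - q y) ^ 2 / (q x + q y))

variable {π : X → ℝ} {c : X → X → ℝ} {δ : ℝ}

theorem psi_Pop_le (h : IsChain π c δ) (q : X → ℝ) (hq : ∀ x, 0 ≤ q x) (y : X) :
    psi (Pop π c δ q y) ≤ (1 - 2 * ∑ z, δ * c y z / π y) * psi (q y)
      + ∑ z, 2 * (δ * c y z / π y) * psi ((q y + q z) / 2) := by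
  have hconv := Real.convexOn_mul_log
  have hs := sum_p_le h y
  have := hconv.map_sum_le (t := (Finset.univ : Finset (Option X)))
    (w := fun o => o.elim (1 - 2 * ∑ z, δ * c y z / π y) (fun z => 2 * (δ * c y z / π y)))
    (p := fun o => o.elim (q y) (fun z => (q y + q z) / 2))
    (by
      intro o _
      cases o with
      | none => simp only [Option.elim]; linarith
      | some z => simp only [Option.elim]; have := p_nonneg h y z; linarith)
    (by
      rw [Fintype.sum_option]
      simp only [Option.elim]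
      rw [← Finset.mul_sum]; ring)
    (by
      intro o _
      cases o with
      | none => simpa using hq y
      | some z => simp only [Option.elim, Set.mem_Ici]; have := hq y; have := hq z; linarith)
  rw [Fintype.sum_option, Fintype.sum_option] at this
  simp only [Option.elim, smul_eq_mul] at this
  have hP : Pop π c δ q y = (1 - 2 * ∑ z, δ * c y z / π y) * q y
      + ∑ z, 2 * (δ * c y z / π y) * ((q y + q z) / 2) := by
    rw [Pop_apply' h]
    have : ∑ z, 2 * (δ * c y z / π y) * ((q y + q z) / 2)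
        = (∑ z, δ * c y z / π y) * q y + ∑ z, δ * c y z / π y * q z := by
      rw [Finset.sum_mul, ← Finset.sum_add_distrib]
      exact Finset.sum_congr rfl fun z _ => by ring
    rw [this]; ring
  rw [hP]
  exact this

theorem ent_step (h : IsChain π c δ) (q : X → ℝ) (hq : ∀ x, 0 ≤ q x) :
    Ent π (Pop π c δ q) + δ / 2 * J c q ≤ Ent π q := by
  have h1 : Ent π (Pop π c δ q) ≤ ∑ y, π y * ((1 - 2 * ∑ z, δ * c y z / π y) * psi (q y)
      + ∑ z, 2 * (δ * c y z / π y) * psi ((q y + q z) / 2)) :=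
    Finset.sum_le_sum fun y _ => mul_le_mul_of_nonneg_left (psi_Pop_le h q hq y) (h.pos y).le
  have h2 : ∑ y, π y * ((1 - 2 * ∑ z, δ * c y z / π y) * psi (q y)
      + ∑ z, 2 * (δ * c y z / π y) * psi ((q y + q z) / 2))
      = Ent π q - ∑ y, ∑ z, 2 * (δ * c y z * psi (q y))
        + ∑ y, ∑ z, 2 * (δ * c y z * psi ((q y + q z) / 2)) := by
    unfold Ent
    rw [← Finset.sum_sub_distrib, ← Finset.sum_add_distrib]
    refine Finset.sum_congr rfl fun y _ => ?_
    have hp := (h.pos y).ne'
    have e1 : ∑ z, 2 * (δ * c y z * psi (q y)) = π y * (2 * (∑ z, δ * c y z / π y) * psi (q y)) := by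
      rw [Finset.mul_sum, Finset.sum_mul, Finset.mul_sum]
      refine Finset.sum_congr rfl fun z _ => ?_
      field_simp
    have e2 : ∑ z, 2 * (δ * c y z * psi ((q y + q z) / 2))
        = π y * ∑ z, 2 * (δ * c y z / π y) * psi ((q y + q z) / 2) := by
      rw [Finset.mul_sum]
      refine Finset.sum_congr rfl fun z _ => ?_
      field_simp
    rw [e1, e2]; ring
  have h3 : ∑ y, ∑ z, 2 * (δ * c y z * psi (q y))
      = ∑ y, ∑ z, δ * c y z * (psi (q y) + psi (q z)) := by
    have e : ∑ y, ∑ z, δ * c y z * psi (q z) = ∑ y, ∑ z, δ * c y z * psi (q y) := by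
      rw [Finset.sum_comm]
      refine Finset.sum_congr rfl fun y _ => Finset.sum_congr rfl fun z _ => ?_
      rw [h.symm z y]
    have e' : ∑ y, ∑ z, δ * c y z * (psi (q y) + psi (q z))
        = ∑ y, ∑ z, δ * c y z * psi (q y) + ∑ y, ∑ z, δ * c y z * psi (q z) := by
      rw [← Finset.sum_add_distrib]
      refine Finset.sum_congr rfl fun y _ => ?_
      rw [← Finset.sum_add_distrib]
      exact Finset.sum_congr rfl fun z _ => by ring
    rw [e', e, ← Finset.sum_add_distrib]
    refine Finset.sum_congr rfl fun y _ => ?_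
    rw [← Finset.sum_add_distrib]
    exact Finset.sum_congr rfl fun z _ => by ring
  have h4 : δ / 2 * J c q ≤ ∑ y, ∑ z, δ * c y z * (psi (q y) + psi (q z))
      - ∑ y, ∑ z, 2 * (δ * c y z * psi ((q y + q z) / 2)) := by
    unfold J
    rw [Finset.mul_sum, ← Finset.sum_sub_distrib]
    refine Finset.sum_le_sum fun y _ => ?_
    rw [Finset.mul_sum, ← Finset.sum_sub_distrib]
    refine Finset.sum_le_sum fun z _ => ?_
    have := entropy_two_point (q y) (q z) (hq y) (hq z)
    have h5 := mul_le_mul_of_nonneg_left this (mul_nonneg h.δpos.le (h.nonneg y z))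
    calc δ / 2 * (c y z * ((q y - q z) ^ 2 / (q y + q z)))
        = δ * c y z * ((q y - q z) ^ 2 / (2 * (q y + q z))) := by
          rw [mul_comm 2 (q y + q z), ← div_div]; ring
      _ ≤ _ := h5
      _ = _ := by unfold psi; ring
  rw [h2, h3] at h1
  linarith

theorem Ent_nonneg (hπ : ∀ x, 0 < π x) (hsum : ∑ x, π x = 1) (q : X → ℝ) (hq : ∀ x, 0 ≤ q x)
    (hq1 : ip π q (fun _ => 1) = 1) : 0 ≤ Ent π q := by
  have := Real.convexOn_mul_log.map_sum_le (t := (Finset.univ : Finset X)) (w := π) (p := q)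
    (fun x _ => (hπ x).le) hsum (fun x _ => hq x)
  have e : ∑ x, π x • q x = 1 := by
    rw [← hq1]; unfold ip; exact Finset.sum_congr rfl fun x _ => by simp
  rw [e] at this
  simpa [Ent, psi] using this

variable [DecidableEq X]

/-- heat kernel `q_k(a, ·) = P^k (1_a / π a)` -/
noncomputable def hk (π : X → ℝ) (c : X → X → ℝ) (δ : ℝ) (k : ℕ) (a : X) : X → ℝ :=
  (Pop π c δ ^ k) (Pi.single a (π a)⁻¹)

theorem ip_single (hπ : ∀ x, 0 < π x) (a : X) (g : X → ℝ) :
    ip π (Pi.single a (π a)⁻¹) g = g a := by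
  unfold ip
  rw [Finset.sum_eq_single a]
  · simp [(hπ a).ne']
  · intro b _ hb; simp [Pi.single_eq_of_ne hb]
  · intro h; exact absurd (Finset.mem_univ a) h

theorem hk_nonneg (h : IsChain π c δ) (k : ℕ) (a x : X) : 0 ≤ hk π c δ k a x := by
  refine Pop_pow_nonneg h k (fun y => ?_) x
  by_cases hy : y = a
  · subst hy; simp [inv_nonneg.2 (h.pos y).le]
  · simp [Pi.single_eq_of_ne hy]

theorem hk_mass (h : IsChain π c δ) (k : ℕ) (a : X) : ip π (hk π c δ k a) (fun _ => 1) = 1 := by
  unfold hk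
  rw [ip_one_Pop_pow h, ip_single h.pos]

theorem hk_symm (h : IsChain π c δ) (k : ℕ) (a x : X) : hk π c δ k a x = hk π c δ k x a := by
  rw [← ip_single h.pos x (hk π c δ k a), hk, ← ip_Pop_pow h, ip_comm, ip_single h.pos]
  rfl

theorem hk_add (h : IsChain π c δ) (i j : ℕ) (a x : X) :
    hk π c δ (i + j) a x = ∑ z, π z * (hk π c δ i z a * hk π c δ j z x) := by
  rw [← ip_single h.pos x (hk π c δ (i + j) a), hk, add_comm, pow_add, Module.End.mul_apply,
    ← ip_Pop_pow h]
  unfold ip
  refine Finset.sum_congr rfl fun z _ => ?_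
  rw [hk_symm h i z a, hk_symm h j z x, mul_comm (hk π c δ i a z)]
  rfl

theorem Ent_zero (h : IsChain π c δ) (a : X) : Ent π (hk π c δ 0 a) = - Real.log (π a) := by
  unfold Ent hk
  rw [Finset.sum_eq_single a]
  · have := (h.pos a).ne'
    simp [psi, this]
  · intro b _ hb; simp [psi, Pi.single_eq_of_ne hb]
  · intro h'; exact absurd (Finset.mem_univ a) h'

theorem sum_J_le (h : IsChain π c δ) (a : X) (K : ℕ) :
    δ * ∑ m ∈ range K, J c (hk π c δ m a) ≤ 2 * (- Real.log (π a)) := by
  have key : δ / 2 * ∑ m ∈ range K, J c (hk π c δ m a) + Ent π (hk π c δ K a)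
      ≤ Ent π (hk π c δ 0 a) := by
    induction K with
    | zero => simp
    | succ K ih =>
      rw [Finset.sum_range_succ, mul_add]
      have := ent_step h (hk π c δ K a) (hk_nonneg h K a)
      have e : Pop π c δ (hk π c δ K a) = hk π c δ (K + 1) a := by
        unfold hk; rw [← Module.End.mul_apply, ← pow_succ']
      rw [e] at this
      linarith
  have h0 := Ent_nonneg h.pos h.sum_one (hk π c δ K a) (hk_nonneg h K a) (hk_mass h K a)
  rw [Ent_zero h] at key
  linarith

omit [DecidableEq X] in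
theorem sum_entropy_le [Nonempty X] (hπ : ∀ x, 0 < π x) (hsum : ∑ x, π x = 1) :
    ∑ z, π z * (- Real.log (π z)) ≤ Real.log (Fintype.card X) := by
  have hn : (0 : ℝ) < Fintype.card X := by exact_mod_cast Fintype.card_pos
  have h1 : ∀ z, π z * (- Real.log (π z)) ≤ π z * Real.log (Fintype.card X)
      + ((Fintype.card X : ℝ)⁻¹ - π z) := by
    intro z
    have hz := hπ z
    have := Real.log_le_sub_one_of_pos (x := (Fintype.card X * π z)⁻¹) (by positivity)
    rw [Real.log_inv, Real.log_mul hn.ne' hz.ne'] at this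
    have h2 := mul_le_mul_of_nonneg_left this hz.le
    have h3 : π z * ((Fintype.card X * π z)⁻¹ - 1) = (Fintype.card X : ℝ)⁻¹ - π z := by
      field_simp
    rw [h3] at h2
    linarith
  calc ∑ z, π z * (- Real.log (π z))
      ≤ ∑ z, (π z * Real.log (Fintype.card X) + ((Fintype.card X : ℝ)⁻¹ - π z)) :=
        Finset.sum_le_sum fun z _ => h1 z
    _ = Real.log (Fintype.card X) := by
      rw [Finset.sum_add_distrib, Finset.sum_sub_distrib, ← Finset.sum_mul, hsum]
      simp [hn.ne']

end Crest.Agent.R232.T1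
end

-- ▼ part R232/T1

/-! # T1, part 3: the chain operator -/

set_option autoImplicit false
open Finset

namespace Crest.Agent.R232.T1

open Crest.Agent.R232

variable {X : Type*} [Fintype X]
variable {π : X → ℝ} {c : X → X → ℝ} {δ : ℝ}

noncomputable def alp (W : X × X → ℝ) (d : X → X → ℝ) (q : X → ℝ) : ℝ :=
  ∑ e, W e * |grad d q e|

omit [Fintype X] in
theorem grad_sum {ι : Type*} (s : Finset ι) (d : X → X → ℝ) (r : ι → ℝ) (f : ι → X → ℝ)
    (e : X × X) :
    grad d (fun x => ∑ z ∈ s, r z * f z x) e = ∑ z ∈ s, r z * grad d (f z) e := by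
  simp only [grad]
  rw [← Finset.sum_sub_distrib, Finset.sum_div]
  exact Finset.sum_congr rfl fun z _ => by ring

theorem alp_sq_le {d : X → X → ℝ} (hd : IsDist d) {W : X × X → ℝ} (hW0 : ∀ e, 0 ≤ W e)
    (hW_symm : ∀ x y, W (x, y) = W (y, x)) (hW_diag : ∀ x, W (x, x) = 0)
    (hπ : ∀ x, π x = ∑ y, W (x, y)) (hc : ∀ x y, c x y = W (x, y) / d x y ^ 2)
    (q : X → ℝ) (hq : ∀ x, 0 ≤ q x) (hq1 : ip π q (fun _ => 1) = 1) :
    alp W d q ^ 2 ≤ 2 * J c q := by
  have hcs := Finset.sum_sq_le_sum_mul_sum_of_sq_le_mul (Finset.univ : Finset (X × X))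
    (r := fun e => W e * |grad d q e|) (f := fun e => W e * (q e.1 + q e.2))
    (g := fun e => c e.1 e.2 * ((q e.1 - q e.2) ^ 2 / (q e.1 + q e.2)))
    (fun e _ => mul_nonneg (hW0 e) (add_nonneg (hq _) (hq _)))
    (fun e _ => mul_nonneg (by rw [hc]; exact div_nonneg (hW0 _) (sq_nonneg _))
      (div_nonneg (sq_nonneg _) (add_nonneg (hq _) (hq _))))
    (by
      rintro ⟨x, y⟩ _
      by_cases hxy : x = y
      · subst hxy; simp [hW_diag]
      · have hdp := hd.pos x y hxy
        simp only [hc, grad]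
        rw [mul_pow, sq_abs]
        rcases eq_or_lt_of_le (add_nonneg (hq x) (hq y)) with h0 | h0
        · have hx : q x = 0 := by have := hq x; have := hq y; linarith
          have hy : q y = 0 := by have := hq x; have := hq y; linarith
          simp [hx, hy]
        · refine le_of_eq ?_
          have := h0.ne'
          field_simp)
  have hf : ∑ e : X × X, W e * (q e.1 + q e.2) = 2 := by
    rw [Fintype.sum_prod_type]
    have e1 : ∑ x, ∑ y, W (x, y) * (q x + q y)
        = ∑ x, ∑ y, W (x, y) * q x + ∑ x, ∑ y, W (x, y) * q y := by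
      rw [← Finset.sum_add_distrib]
      refine Finset.sum_congr rfl fun x _ => ?_
      rw [← Finset.sum_add_distrib]
      exact Finset.sum_congr rfl fun y _ => by ring
    have e2 : ∑ x, ∑ y, W (x, y) * q y = ∑ x, ∑ y, W (x, y) * q x := by
      rw [Finset.sum_comm]
      refine Finset.sum_congr rfl fun x _ => Finset.sum_congr rfl fun y _ => ?_
      rw [hW_symm y x]
    have e3 : ∑ x, ∑ y, W (x, y) * q x = 1 := by
      rw [← hq1]; unfold ip
      refine Finset.sum_congr rfl fun x _ => ?_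
      rw [hπ x, ← Finset.sum_mul]; ring
    simp only
    rw [e1, e2, e3]; norm_num
  have hg : ∑ e : X × X, c e.1 e.2 * ((q e.1 - q e.2) ^ 2 / (q e.1 + q e.2)) = J c q := by
    rw [Fintype.sum_prod_type]; rfl
  rw [hf, hg] at hcs
  exact hcs

variable [DecidableEq X]

/-- mixed second difference of the heat kernel -/
noncomputable def HH (π : X → ℝ) (c : X → X → ℝ) (δ : ℝ) (d : X → X → ℝ) (k : ℕ)
    (e' e : X × X) : ℝ :=
  grad d (fun x => grad d (fun a => hk π c δ k a x) e') e

theorem HH_eq (h : IsChain π c δ) (d : X → X → ℝ) (i j : ℕ) (e' e : X × X) :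
    HH π c δ d (i + j) e' e
      = ∑ z, π z * (grad d (hk π c δ i z) e' * grad d (hk π c δ j z) e) := by
  have h1 : ∀ x, grad d (fun a => hk π c δ (i + j) a x) e'
      = ∑ z, (π z * grad d (hk π c δ i z) e') * hk π c δ j z x := by
    intro x
    have : (fun a => hk π c δ (i + j) a x)
        = fun a => ∑ z, (π z * hk π c δ j z x) * hk π c δ i z a := by
      funext a
      rw [hk_add h]
      exact Finset.sum_congr rfl fun z _ => by ring
    rw [this, grad_sum]
    exact Finset.sum_congr rfl fun z _ => by ring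
  unfold HH
  simp only [h1]
  rw [grad_sum]
  exact Finset.sum_congr rfl fun z _ => by ring

/-- row sums at level `k` -/
noncomputable def RR (π : X → ℝ) (c : X → X → ℝ) (δ : ℝ) (d : X → X → ℝ) (W : X × X → ℝ)
    (k : ℕ) : ℝ := ∑ e, ∑ e', W e * (W e' * |HH π c δ d k e' e|)

theorem RR_le (h : IsChain π c δ) (d : X → X → ℝ) {W : X × X → ℝ} (hW0 : ∀ e, 0 ≤ W e)
    (i j : ℕ) :
    RR π c δ d W (i + j)
      ≤ ∑ z, π z * (alp W d (hk π c δ i z) * alp W d (hk π c δ j z)) := by
  unfold RR
  have h1 : ∀ e e', W e * (W e' * |HH π c δ d (i + j) e' e|)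
      ≤ ∑ z, π z * ((W e' * |grad d (hk π c δ i z) e'|) * (W e * |grad d (hk π c δ j z) e|)) := by
    intro e e'
    rw [HH_eq h]
    have h2 : |∑ z, π z * (grad d (hk π c δ i z) e' * grad d (hk π c δ j z) e)|
        ≤ ∑ z, π z * (|grad d (hk π c δ i z) e'| * |grad d (hk π c δ j z) e|) := by
      refine (Finset.abs_sum_le_sum_abs _ _).trans (le_of_eq ?_)
      refine Finset.sum_congr rfl fun z _ => ?_
      rw [abs_mul, abs_mul, abs_of_pos (h.pos z)]
    refine (mul_le_mul_of_nonneg_left (mul_le_mul_of_nonneg_left h2 (hW0 e')) (hW0 e)).trans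
      (le_of_eq ?_)
    rw [Finset.mul_sum, Finset.mul_sum]
    exact Finset.sum_congr rfl fun z _ => by ring
  refine (Finset.sum_le_sum fun e _ => Finset.sum_le_sum fun e' _ => h1 e e').trans (le_of_eq ?_)
  calc ∑ e, ∑ e', ∑ z, π z *
        ((W e' * |grad d (hk π c δ i z) e'|) * (W e * |grad d (hk π c δ j z) e|))
      = ∑ z, ∑ e, ∑ e', π z *
        ((W e' * |grad d (hk π c δ i z) e'|) * (W e * |grad d (hk π c δ j z) e|)) := by
        rw [Finset.sum_comm]
        conv_rhs => rw [Finset.sum_comm]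
        rw [Finset.sum_comm]
        refine Finset.sum_congr rfl fun e _ => ?_
        rw [Finset.sum_comm]
    _ = _ := by
        refine Finset.sum_congr rfl fun z _ => ?_
        unfold alp
        rw [Finset.sum_mul_sum, Finset.mul_sum]
        rw [Finset.sum_comm]
        refine Finset.sum_congr rfl fun e _ => ?_
        rw [Finset.mul_sum]

/-- `A_m` -/
noncomputable def AA (π : X → ℝ) (c : X → X → ℝ) (δ : ℝ) (d : X → X → ℝ) (W : X × X → ℝ)
    (m : ℕ) : ℝ := ∑ z, π z * alp W d (hk π c δ m z) ^ 2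

theorem AA_nonneg (h : IsChain π c δ) (d : X → X → ℝ) (W : X × X → ℝ) (m : ℕ) :
    0 ≤ AA π c δ d W m :=
  Finset.sum_nonneg fun z _ => mul_nonneg (h.pos z).le (sq_nonneg _)

theorem RR_even (h : IsChain π c δ) (d : X → X → ℝ) {W : X × X → ℝ} (hW0 : ∀ e, 0 ≤ W e)
    (m : ℕ) : RR π c δ d W (2 * m) ≤ AA π c δ d W m := by
  rw [two_mul]
  refine (RR_le h d hW0 m m).trans (le_of_eq ?_)
  exact Finset.sum_congr rfl fun z _ => by ring

theorem RR_odd (h : IsChain π c δ) (d : X → X → ℝ) {W : X × X → ℝ} (hW0 : ∀ e, 0 ≤ W e)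
    (m : ℕ) : RR π c δ d W (2 * m + 1) ≤ 1 / 2 * (AA π c δ d W m + AA π c δ d W (m + 1)) := by
  have : 2 * m + 1 = m + (m + 1) := by ring
  rw [this]
  refine (RR_le h d hW0 m (m + 1)).trans ?_
  unfold AA
  rw [← Finset.sum_add_distrib, Finset.mul_sum]
  refine Finset.sum_le_sum fun z _ => ?_
  have hz := h.pos z
  set a := alp W d (hk π c δ m z)
  set b := alp W d (hk π c δ (m + 1) z)
  have : a * b ≤ (a ^ 2 + b ^ 2) / 2 := by nlinarith [sq_nonneg (a - b)]
  calc π z * (a * b) ≤ π z * ((a ^ 2 + b ^ 2) / 2) := mul_le_mul_of_nonneg_left this hz.le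
    _ = _ := by ring

theorem sum_RR_le (h : IsChain π c δ) (d : X → X → ℝ) {W : X × X → ℝ} (hW0 : ∀ e, 0 ≤ W e)
    (K : ℕ) : ∑ k ∈ range (2 * K), RR π c δ d W k + 3 / 2 * AA π c δ d W K
      ≤ 2 * ∑ m ∈ range (K + 1), AA π c δ d W m := by
  induction K with
  | zero => simp; have := AA_nonneg h d W 0; linarith
  | succ K ih =>
    have e : 2 * (K + 1) = 2 * K + 1 + 1 := by ring
    rw [e, Finset.sum_range_succ, Finset.sum_range_succ, Finset.sum_range_succ _ (K + 1)]
    have h1 := RR_even h d hW0 K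
    have h2 := RR_odd h d hW0 K
    linarith

/-- the entropy bound on the row sums -/
theorem sum_AA_le [Nonempty X] (h : IsChain π c δ) {d : X → X → ℝ} (hd : IsDist d)
    {W : X × X → ℝ} (hW0 : ∀ e, 0 ≤ W e)
    (hW_symm : ∀ x y, W (x, y) = W (y, x)) (hW_diag : ∀ x, W (x, x) = 0)
    (hπ : ∀ x, π x = ∑ y, W (x, y)) (hc : ∀ x y, c x y = W (x, y) / d x y ^ 2) (K : ℕ) :
    δ * ∑ m ∈ range K, AA π c δ d W m ≤ 4 * Real.log (Fintype.card X) := by
  have h1 : ∀ z, δ * ∑ m ∈ range K, alp W d (hk π c δ m z) ^ 2 ≤ 4 * (- Real.log (π z)) := by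
    intro z
    have h2 : ∑ m ∈ range K, alp W d (hk π c δ m z) ^ 2
        ≤ ∑ m ∈ range K, 2 * J c (hk π c δ m z) :=
      Finset.sum_le_sum fun m _ => alp_sq_le hd hW0 hW_symm hW_diag hπ hc _ (hk_nonneg h m z)
        (hk_mass h m z)
    rw [← Finset.mul_sum] at h2
    have h3 := sum_J_le h z K
    have h4 := mul_le_mul_of_nonneg_left h2 h.δpos.le
    linarith
  calc δ * ∑ m ∈ range K, AA π c δ d W m
      = ∑ z, π z * (δ * ∑ m ∈ range K, alp W d (hk π c δ m z) ^ 2) := by
        unfold AA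
        rw [Finset.sum_comm, Finset.mul_sum]
        refine Finset.sum_congr rfl fun z _ => ?_
        rw [← Finset.mul_sum]; ring
    _ ≤ ∑ z, π z * (4 * (- Real.log (π z))) :=
        Finset.sum_le_sum fun z _ => mul_le_mul_of_nonneg_left (h1 z) (h.pos z).le
    _ = 4 * ∑ z, π z * (- Real.log (π z)) := by
        rw [Finset.mul_sum]; exact Finset.sum_congr rfl fun z _ => by ring
    _ ≤ 4 * Real.log (Fintype.card X) :=
        mul_le_mul_of_nonneg_left (sum_entropy_le h.pos h.sum_one) (by norm_num)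

/-- `D*` as a linear map -/
noncomputable def Dst (π : X → ℝ) (W : X × X → ℝ) (d : X → X → ℝ) :
    (X × X → ℝ) →ₗ[ℝ] (X → ℝ) where
  toFun V := fun x => (π x)⁻¹ * ∑ y, W (x, y) / (2 * d x y) * (V (x, y) - V (y, x))
  map_add' V V' := by
    funext x
    simp only [Pi.add_apply]
    rw [← mul_add, ← Finset.sum_add_distrib]
    congr 1
    exact Finset.sum_congr rfl fun y _ => by ring
  map_smul' r V := by
    funext x
    simp only [Pi.smul_apply, smul_eq_mul, RingHom.id_apply]
    rw [mul_left_comm, Finset.mul_sum (a := r)]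
    congr 1
    exact Finset.sum_congr rfl fun y _ => by ring

omit [DecidableEq X] in
theorem Dst_apply (π : X → ℝ) (W : X × X → ℝ) (d : X → X → ℝ) (V : X × X → ℝ) (x : X) :
    Dst π W d V x = (π x)⁻¹ * ∑ y, W (x, y) / (2 * d x y) * (V (x, y) - V (y, x)) := rfl

omit [DecidableEq X] in
theorem ip_Dst (hπ : ∀ x, 0 < π x) {W : X × X → ℝ} {d : X → X → ℝ} (hd : IsDist d)
    (hW_symm : ∀ x y, W (x, y) = W (y, x)) (V : X × X → ℝ) (g : X → ℝ) :
    ip π (Dst π W d V) g = 1 / 2 * ∑ e, W e * (V e * grad d g e) := by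
  have h1 : ip π (Dst π W d V) g = ∑ x, ∑ y, W (x, y) / (2 * d x y) * (V (x, y) - V (y, x)) * g x := by
    unfold ip
    refine Finset.sum_congr rfl fun x _ => ?_
    rw [Dst_apply, ← Finset.sum_mul]
    have := (hπ x).ne'
    field_simp
  have h2 : ∑ x, ∑ y, W (x, y) / (2 * d x y) * (V (x, y) - V (y, x)) * g x
      = ∑ x, ∑ y, W (x, y) / (2 * d x y) * V (x, y) * g x
        - ∑ x, ∑ y, W (x, y) / (2 * d x y) * V (y, x) * g x := by
    rw [← Finset.sum_sub_distrib]
    refine Finset.sum_congr rfl fun x _ => ?_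
    rw [← Finset.sum_sub_distrib]
    exact Finset.sum_congr rfl fun y _ => by ring
  have h3 : ∑ x, ∑ y, W (x, y) / (2 * d x y) * V (y, x) * g x
      = ∑ x, ∑ y, W (x, y) / (2 * d x y) * V (x, y) * g y := by
    rw [Finset.sum_comm]
    refine Finset.sum_congr rfl fun x _ => Finset.sum_congr rfl fun y _ => ?_
    rw [hW_symm y x, hd.symm y x]
  rw [h1, h2, h3, ← Finset.sum_sub_distrib, Fintype.sum_prod_type, Finset.mul_sum]
  refine Finset.sum_congr rfl fun x _ => ?_
  rw [← Finset.sum_sub_distrib, Finset.mul_sum]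
  refine Finset.sum_congr rfl fun y _ => ?_
  simp only [grad]
  by_cases hxy : d x y = 0
  · simp [hxy]
  · field_simp

omit [DecidableEq X] in
theorem Dst_grad {W : X × X → ℝ} {d : X → X → ℝ} (hd : IsDist d)
    (hc : ∀ x y, c x y = W (x, y) / d x y ^ 2) (f : X → ℝ) :
    Dst π W d (grad d f) = Lop π c f := by
  funext x
  rw [Dst_apply, Lop_apply]
  congr 1
  refine Finset.sum_congr rfl fun y _ => ?_
  rw [grad_swap hd f x y, hc]
  simp only [grad]
  by_cases hxy : d x y = 0
  · simp [hxy]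
  · field_simp; ring

theorem Dst_single {W : X × X → ℝ} {d : X → X → ℝ} (hd : IsDist d)
    (hW_symm : ∀ x y, W (x, y) = W (y, x)) (e' : X × X) :
    Dst π W d (Pi.single e' 1)
      = (W e' / (2 * d e'.1 e'.2)) • (Pi.single e'.1 (π e'.1)⁻¹ - Pi.single e'.2 (π e'.2)⁻¹) := by
  obtain ⟨a, b⟩ := e'
  funext x
  rw [Dst_apply]
  have h1 : ∑ y, W (x, y) / (2 * d x y) * ((Pi.single (a, b) 1 : X × X → ℝ) (x, y) - (Pi.single (a, b) 1 : X × X → ℝ) (y, x))
      = (if x = a then W (a, b) / (2 * d a b) else 0) - (if x = b then W (a, b) / (2 * d a b) else 0) := by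
    have h2 : ∀ y, W (x, y) / (2 * d x y) * ((Pi.single (a, b) 1 : X × X → ℝ) (x, y) - (Pi.single (a, b) 1 : X × X → ℝ) (y, x))
        = (if y = b then (if x = a then W (a, b) / (2 * d a b) else 0) else 0)
          - (if y = a then (if x = b then W (a, b) / (2 * d a b) else 0) else 0) := by
      intro y
      simp only [Pi.single_apply, Prod.mk.injEq]
      by_cases hxa : x = a <;> by_cases hyb : y = b <;> by_cases hya : y = a <;>
        by_cases hxb : x = b <;> simp_all [hd.symm, hW_symm]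
    simp only [h2, Finset.sum_sub_distrib, Finset.sum_ite_eq', Finset.mem_univ, if_true]
  rw [h1]
  simp only [Pi.smul_apply, Pi.sub_apply, smul_eq_mul, Pi.single_apply]
  by_cases hxa : x = a
  · by_cases hxb : x = b
    · subst hxa; subst hxb; simp
    · subst hxa; simp [hxb]; ring
  · by_cases hxb : x = b
    · subst hxb; simp [hxa]; ring
    · simp [hxa, hxb]

omit [DecidableEq X] in
theorem telescope (f : X → ℝ) (K : ℕ) :
    f - (Pop π c δ ^ K) f = δ • ∑ k ∈ range K, (Pop π c δ ^ k) (Lop π c f) := by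
  induction K with
  | zero => simp
  | succ K ih =>
    rw [Finset.sum_range_succ, smul_add, ← ih]
    have e : (Pop π c δ ^ (K + 1)) f = (Pop π c δ ^ K) f - δ • (Pop π c δ ^ K) (Lop π c f) := by
      rw [pow_succ, Module.End.mul_apply]
      have : Pop π c δ f = f - δ • Lop π c f := by simp [Pop]
      rw [this, map_sub, map_smul]
    rw [e]; abel

omit [DecidableEq X] in
/-- kernel of the generator -/
theorem eq_of_Lop_eq_zero (h : IsChain π c δ) (hcpos : ∀ x y, x ≠ y → 0 < c x y) (g : X → ℝ)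
    (hg : Lop π c g = 0) (x y : X) : g x = g y := by
  by_contra hne
  have hxy : x ≠ y := fun e => hne (by rw [e])
  have h1 : ip π (Lop π c g) g = 0 := by rw [hg]; simp [ip]
  rw [ip_Lop h.pos h.symm] at h1
  have h2 : ∑ x, ∑ y, c x y * ((g x - g y) * (g x - g y)) = 0 := by linarith
  rw [Finset.sum_eq_zero_iff_of_nonneg (fun x _ => Finset.sum_nonneg fun y _ =>
    mul_nonneg (h.nonneg x y) (mul_self_nonneg _))] at h2
  have h3 := h2 x (Finset.mem_univ x)
  rw [Finset.sum_eq_zero_iff_of_nonneg (fun y _ =>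
    mul_nonneg (h.nonneg x y) (mul_self_nonneg _))] at h3
  have h4 := h3 y (Finset.mem_univ y)
  have h5 : g x - g y = 0 := by
    rcases mul_eq_zero.1 h4 with h | h
    · exact absurd h (hcpos x y hxy).ne'
    · simpa using h
  exact hne (sub_eq_zero.1 h5)

noncomputable def meanOp (π : X → ℝ) : (X → ℝ) →ₗ[ℝ] (X → ℝ) where
  toFun f := fun _ => ip π f (fun _ => 1)
  map_add' f g := by
    funext x
    simp only [Pi.add_apply, ip]
    rw [← Finset.sum_add_distrib]
    exact Finset.sum_congr rfl fun y _ => by ring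
  map_smul' r f := by
    funext x
    simp only [Pi.smul_apply, smul_eq_mul, RingHom.id_apply, ip]
    rw [Finset.mul_sum]
    exact Finset.sum_congr rfl fun y _ => by ring

omit [DecidableEq X] in
theorem ip_one_add_mean (h : IsChain π c δ) (f : X → ℝ) :
    ip π ((Lop π c + meanOp π) f) (fun _ => 1) = ip π f (fun _ => 1) := by
  have h0 := ip_one_Lop h f
  have h1 : ip π ((Lop π c + meanOp π) f) (fun _ => 1)
      = ip π (Lop π c f) (fun _ => 1) + ip π (fun _ => ip π f (fun _ => 1)) (fun _ => 1) := by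
    unfold ip
    rw [← Finset.sum_add_distrib]
    refine Finset.sum_congr rfl fun x _ => ?_
    simp only [LinearMap.add_apply, Pi.add_apply, meanOp, LinearMap.coe_mk, AddHom.coe_mk, ip]
    ring
  rw [h1, h0, zero_add]
  generalize ip π f (fun _ => 1) = r
  unfold ip
  rw [← Finset.sum_mul, h.sum_one]
  ring

end Crest.Agent.R232.T1

namespace Crest.Agent.R232

open T1

/-- T1: the chain lemma. -/
theorem chain_operator {X : Type*} [Fintype X] [DecidableEq X] (hn : 2 ≤ Fintype.card X)
    (d : X → X → ℝ) (hd : IsDist d) (W : X × X → ℝ)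
    (hW_symm : ∀ x y, W (x, y) = W (y, x)) (hW_diag : ∀ x, W (x, x) = 0)
    (hW_pos : ∀ x y, x ≠ y → 0 < W (x, y)) (hW_sum : ∑ e, W e = 1) :
    ∃ S : (X × X → ℝ) →ₗ[ℝ] (X → ℝ),
      (∀ (f : X → ℝ) (e : X × X), grad d (S (grad d f)) e = grad d f e) ∧
      (∀ V : X × X → ℝ, ∑ e, W e * (grad d (S V) e) ^ 2 ≤ ∑ e, W e * (V e) ^ 2) ∧
      (∑ e, W e * ∑ e', |grad d (S (Pi.single e' 1)) e| ≤ 4 * Real.log (Fintype.card X)) := by
  have : Nonempty X := Fintype.card_pos_iff.1 (by omega)
  have hW0 : ∀ e, 0 ≤ W e := by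
    rintro ⟨x, y⟩
    by_cases hxy : x = y
    · subst hxy; rw [hW_diag]
    · exact (hW_pos x y hxy).le
  set π : X → ℝ := fun x => ∑ y, W (x, y) with hπdef
  set c : X → X → ℝ := fun x y => W (x, y) / d x y ^ 2 with hcdef
  have hπ : ∀ x, 0 < π x := by
    intro x
    have : Nontrivial X := Fintype.one_lt_card_iff_nontrivial.1 (by omega)
    obtain ⟨y, hy⟩ := exists_ne x
    exact Finset.sum_pos' (fun z _ => hW0 _) ⟨y, Finset.mem_univ y, hW_pos x y hy.symm⟩
  have hc0 : ∀ x y, 0 ≤ c x y := fun x y => div_nonneg (hW0 _) (sq_nonneg _)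
  have hcs : ∀ x y, c x y = c y x := by
    intro x y; simp only [hcdef]; rw [hW_symm x y, hd.symm x y]
  have hcpos : ∀ x y, x ≠ y → 0 < c x y := fun x y hxy =>
    div_pos (hW_pos x y hxy) (pow_pos (hd.pos x y hxy) 2)
  set M : ℝ := ∑ x, (∑ y, c x y) / π x with hM
  have hM0 : 0 ≤ M := Finset.sum_nonneg fun x _ =>
    div_nonneg (Finset.sum_nonneg fun y _ => hc0 x y) (hπ x).le
  set δ : ℝ := 1 / (2 * (1 + M)) with hδ
  have h : IsChain π c δ := by
    refine ⟨hπ, ?_, hcs, hc0, by positivity, ?_⟩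
    · rw [← hW_sum, Fintype.sum_prod_type]
    · intro x
      have h1 : (∑ y, c x y) / π x ≤ M :=
        Finset.single_le_sum (f := fun x => (∑ y, c x y) / π x) (fun x _ =>
          div_nonneg (Finset.sum_nonneg fun y _ => hc0 x y) (hπ x).le) (Finset.mem_univ x)
      rw [div_le_iff₀ (hπ x)] at h1
      rw [hδ, div_mul_eq_mul_div, one_mul, div_le_div_iff₀ (by positivity) (by norm_num)]
      have := hπ x
      nlinarith
  -- the operator `S`
  have hQinj : Function.Injective (Lop π c + meanOp π) := by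
    rw [injective_iff_map_eq_zero]
    intro f hf
    have h1 := ip_one_add_mean h f
    rw [hf] at h1
    have h2 : ip π f (fun _ => 1) = 0 := by rw [← h1]; simp [ip]
    have h3 : Lop π c f = 0 := by
      have : (Lop π c + meanOp π) f = Lop π c f := by
        funext x
        simp [meanOp, h2]
      rw [← this, hf]
    have h4 := eq_of_Lop_eq_zero h hcpos f h3
    funext x
    have h5 : ip π f (fun _ => 1) = f x := by
      unfold ip
      calc ∑ y, π y * (f y * 1) = ∑ y, π y * f x :=
            Finset.sum_congr rfl fun y _ => by rw [h4 y x, mul_one]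
        _ = f x := by rw [← Finset.sum_mul, h.sum_one, one_mul]
    rw [← h5, h2]; rfl
  set Qe := LinearEquiv.ofInjectiveEndo (Lop π c + meanOp π) hQinj with hQe
  set S : (X × X → ℝ) →ₗ[ℝ] (X → ℝ) := Qe.symm.toLinearMap ∘ₗ Dst π W d with hSdef
  have hQS : ∀ V, (Lop π c + meanOp π) (S V) = Dst π W d V := by
    intro V
    have : (Lop π c + meanOp π) (S V) = Qe (S V) := by
      rw [hQe, LinearEquiv.coe_ofInjectiveEndo]
    rw [this, hSdef]
    simp
  have hmean : ∀ V, ip π (S V) (fun _ => 1) = 0 := by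
    intro V
    rw [← ip_one_add_mean h (S V), hQS, ip_Dst h.pos hd hW_symm]
    simp [grad]
  have hLS : ∀ V, Lop π c (S V) = Dst π W d V := by
    intro V
    rw [← hQS V]
    funext x
    simp [meanOp, hmean V]
  refine ⟨S, ?_, ?_, ?_⟩
  · intro f e
    have h1 : Lop π c (S (grad d f) - f) = 0 := by
      rw [map_sub, hLS, Dst_grad hd (fun _ _ => rfl), sub_self]
    have h2 := eq_of_Lop_eq_zero h hcpos _ h1 e.1 e.2
    simp only [Pi.sub_apply] at h2
    simp only [grad]
    congr 1
    linarith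
  · intro V
    have h1 : ip π (Lop π c (S V)) (S V) = 1 / 2 * ∑ e, W e * (grad d (S V) e) ^ 2 := by
      rw [ip_Lop h.pos h.symm, Fintype.sum_prod_type]
      congr 1
      refine Finset.sum_congr rfl fun x _ => Finset.sum_congr rfl fun y _ => ?_
      simp only [hcdef, grad]
      rw [div_pow]
      ring
    have h2 : ip π (Lop π c (S V)) (S V) = 1 / 2 * ∑ e, W e * (V e * grad d (S V) e) := by
      rw [hLS, ip_Dst h.pos hd hW_symm]
    have h3 : ∑ e, W e * (V e * grad d (S V) e)
        ≤ 1 / 2 * ∑ e, W e * (V e) ^ 2 + 1 / 2 * ∑ e, W e * (grad d (S V) e) ^ 2 := by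
      rw [Finset.mul_sum, Finset.mul_sum, ← Finset.sum_add_distrib]
      refine Finset.sum_le_sum fun e _ => ?_
      have := hW0 e
      nlinarith [mul_nonneg this (sq_nonneg (V e - grad d (S V) e))]
    linarith
  · -- finite horizon bound
    have hfin : ∀ K : ℕ, ∑ e, W e * ∑ e', |grad d (S (Pi.single e' 1)) e
        - grad d ((Pop π c δ ^ (2 * K)) (S (Pi.single e' 1))) e|
        ≤ 4 * Real.log (Fintype.card X) := by
      intro K
      have h1 : ∀ e e', grad d (S (Pi.single e' 1)) e
          - grad d ((Pop π c δ ^ (2 * K)) (S (Pi.single e' 1))) e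
          = δ / 2 * ∑ k ∈ range (2 * K), W e' * HH π c δ d k e' e := by
        intro e e'
        rw [← grad_sub, telescope, grad_smul, hLS, Dst_single hd hW_symm]
        have h2 : ∀ k, (Pop π c δ ^ k) ((W e' / (2 * d e'.1 e'.2)) •
            (Pi.single e'.1 (π e'.1)⁻¹ - Pi.single e'.2 (π e'.2)⁻¹))
            = fun x => (W e' / 2) * grad d (fun a => hk π c δ k a x) e' := by
          intro k
          rw [map_smul, map_sub]
          funext x
          simp only [Pi.smul_apply, Pi.sub_apply, smul_eq_mul, grad, hk]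
          by_cases hz : d e'.1 e'.2 = 0
          · simp [hz]
          · field_simp
        have h3 : ∑ k ∈ range (2 * K), (Pop π c δ ^ k) ((W e' / (2 * d e'.1 e'.2)) •
            (Pi.single e'.1 (π e'.1)⁻¹ - Pi.single e'.2 (π e'.2)⁻¹))
            = fun x => ∑ k ∈ range (2 * K),
                (W e' / 2) * grad d (fun a => hk π c δ k a x) e' := by
          rw [Finset.sum_congr rfl fun k _ => h2 k]
          funext x
          simp
        rw [h3, grad_sum, Finset.mul_sum, Finset.mul_sum]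
        refine Finset.sum_congr rfl fun k _ => ?_
        unfold HH
        ring
      have h4 : ∑ e, W e * ∑ e', |grad d (S (Pi.single e' 1)) e
          - grad d ((Pop π c δ ^ (2 * K)) (S (Pi.single e' 1))) e|
          ≤ δ / 2 * ∑ k ∈ range (2 * K), RR π c δ d W k := by
        have h5 : ∀ e e', |grad d (S (Pi.single e' 1)) e
          - grad d ((Pop π c δ ^ (2 * K)) (S (Pi.single e' 1))) e|
            ≤ δ / 2 * ∑ k ∈ range (2 * K), W e' * |HH π c δ d k e' e| := by
          intro e e'
          rw [h1, abs_mul, abs_of_pos (by have := h.δpos; positivity)]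
          refine mul_le_mul_of_nonneg_left ?_ (by have := h.δpos; positivity)
          refine (Finset.abs_sum_le_sum_abs _ _).trans (le_of_eq ?_)
          refine Finset.sum_congr rfl fun k _ => ?_
          rw [abs_mul, abs_of_nonneg (hW0 e')]
        calc _ ≤ ∑ e, W e * ∑ e', δ / 2 * ∑ k ∈ range (2 * K), W e' * |HH π c δ d k e' e| :=
              Finset.sum_le_sum fun e _ => mul_le_mul_of_nonneg_left
                (Finset.sum_le_sum fun e' _ => h5 e e') (hW0 e)
          _ = δ / 2 * ∑ k ∈ range (2 * K), RR π c δ d W k := by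
              have h11 : ∀ e, W e * ∑ e', δ / 2 * ∑ k ∈ range (2 * K), W e' * |HH π c δ d k e' e|
                  = δ / 2 * ∑ k ∈ range (2 * K), ∑ e', W e * (W e' * |HH π c δ d k e' e|) := by
                intro e
                rw [← Finset.mul_sum, Finset.sum_comm, ← mul_assoc, mul_comm (W e), mul_assoc,
                  Finset.mul_sum (a := W e)]
                congr 1
                exact Finset.sum_congr rfl fun k _ => by rw [Finset.mul_sum]
              rw [Finset.sum_congr rfl fun e _ => h11 e, ← Finset.mul_sum, Finset.sum_comm]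
              rfl
      have h6 := sum_RR_le h d hW0 K
      have h7 := AA_nonneg h d W K
      have h8 := sum_AA_le h hd hW0 hW_symm hW_diag (fun _ => rfl) (fun _ _ => rfl) (K + 1)
      have h9 := h.δpos
      have h10 : δ / 2 * ∑ k ∈ range (2 * K), RR π c δ d W k
          ≤ δ / 2 * (2 * ∑ m ∈ range (K + 1), AA π c δ d W m) :=
        mul_le_mul_of_nonneg_left (by linarith) (by positivity)
      linarith
    refine le_of_tendsto' (f := fun K : ℕ => ∑ e, W e * ∑ e', |grad d (S (Pi.single e' 1)) e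
        - grad d ((Pop π c δ ^ (2 * K)) (S (Pi.single e' 1))) e|) (x := Filter.atTop) ?_ hfin
    refine tendsto_finsetSum _ fun e _ => ?_
    refine Filter.Tendsto.const_mul _ ?_
    refine tendsto_finsetSum _ fun e' _ => ?_
    have h1 : Filter.Tendsto (fun K : ℕ =>
        grad d ((Pop π c δ ^ (2 * K)) (S (Pi.single e' 1))) e) Filter.atTop (nhds 0) := by
      obtain ⟨x, y⟩ := e
      by_cases hxy : x = y
      · subst hxy; simp [grad_diag]
      · have h2 := diff_tendsto h (S (Pi.single e' 1)) x y (hcpos x y hxy)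
        have h3 : Filter.Tendsto (fun K : ℕ => 2 * K) Filter.atTop Filter.atTop :=
          Filter.tendsto_id.const_mul_atTop' (by norm_num)
        have h4 := (h2.comp h3).div_const (d x y)
        simpa [grad] using h4
    have h2 := (tendsto_const_nhds (x := grad d (S (Pi.single e' 1)) e)).sub h1
    simpa using h2.abs

end Crest.Agent.R232
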