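import Crest.Agent.R232.Defs
import Mathlib

-- ▼ part R232/EEX
section

/-! # R232: basic facts on the expectation `EE` over independent sparse signs. -/

set_option autoImplicit false
set_option linter.unusedSectionVars false

open Finset

namespace Crest.Agent.R232.X

section
variable {V : Type*} [AddCommGroup V]

/-- standing assumption: all activation probabilities lie in `[0, 1]` -/
def IsProb (l : List (ℝ × V)) : Prop := ∀ x ∈ l, 0 ≤ x.1 ∧ x.1 ≤ 1

theorem IsProb.tail {x : ℝ × V} {l : List (ℝ × V)} (h : ∀ y ∈ x :: l, 0 ≤ y.1 ∧ y.1 ≤ 1) :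
    ∀ y ∈ l, 0 ≤ y.1 ∧ y.1 ≤ 1 := fun y hy => h y (List.mem_cons_of_mem _ hy)

theorem IsProb.head {x : ℝ × V} {l : List (ℝ × V)} (h : ∀ y ∈ x :: l, 0 ≤ y.1 ∧ y.1 ≤ 1) :
    0 ≤ x.1 ∧ x.1 ≤ 1 := h x (List.mem_cons_self)

@[simp] theorem EE_nil (g : V → ℝ) : EE ([] : List (ℝ × V)) g = g 0 := by
  rw [EE]

theorem EE_cons (x : ℝ × V) (l : List (ℝ × V)) (g : V → ℝ) :
    EE (x :: l) g = (1 - x.1) * EE l g + x.1 / 2 * EE l (fun s => g (s + x.2)) +
      x.1 / 2 * EE l (fun s => g (s - x.2)) := by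
  obtain ⟨q, a⟩ := x
  rw [EE]

theorem EE_add (l : List (ℝ × V)) (f g : V → ℝ) :
    EE l (fun s => f s + g s) = EE l f + EE l g := by
  induction l generalizing f g with
  | nil => simp
  | cons x l ih =>
    rw [EE_cons, EE_cons, EE_cons, ih, ih, ih]
    ring

theorem EE_const_mul (l : List (ℝ × V)) (c : ℝ) (g : V → ℝ) :
    EE l (fun s => c * g s) = c * EE l g := by
  induction l generalizing g with
  | nil => simp
  | cons x l ih =>
    rw [EE_cons, EE_cons, ih, ih, ih]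
    ring

theorem EE_mul_const (l : List (ℝ × V)) (c : ℝ) (g : V → ℝ) :
    EE l (fun s => g s * c) = EE l g * c := by
  have := EE_const_mul l c g
  simp only [mul_comm c] at this
  exact this



theorem EE_div_const (l : List (ℝ × V)) (c : ℝ) (g : V → ℝ) :
    EE l (fun s => g s / c) = EE l g / c := by
  simp only [div_eq_mul_inv]
  exact EE_mul_const l _ g

theorem EE_const (l : List (ℝ × V)) (c : ℝ) : EE l (fun _ => c) = c := by
  induction l with
  | nil => simp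
  | cons x l ih =>
    rw [EE_cons, ih]
    ring


theorem EE_mono {l : List (ℝ × V)} (hl : ∀ x ∈ l, 0 ≤ x.1 ∧ x.1 ≤ 1) {f g : V → ℝ}
    (h : ∀ s, f s ≤ g s) : EE l f ≤ EE l g := by
  induction l generalizing f g with
  | nil => simpa using h 0
  | cons x l ih =>
    have hx := IsProb.head hl
    have hl' := IsProb.tail hl
    rw [EE_cons, EE_cons]
    have h1 := mul_le_mul_of_nonneg_left (ih hl' h) (sub_nonneg.2 hx.2)
    have hq : 0 ≤ x.1 / 2 := by linarith [hx.1]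
    have h2 := mul_le_mul_of_nonneg_left (ih hl' (fun s => h (s + x.2))) hq
    have h3 := mul_le_mul_of_nonneg_left (ih hl' (fun s => h (s - x.2))) hq
    linarith

theorem EE_nonneg {l : List (ℝ × V)} (hl : ∀ x ∈ l, 0 ≤ x.1 ∧ x.1 ≤ 1) {g : V → ℝ}
    (h : ∀ s, 0 ≤ g s) : 0 ≤ EE l g := by
  have := EE_mono hl (f := fun _ => (0 : ℝ)) (g := g) h
  rwa [EE_const] at this


theorem const_le_EE {l : List (ℝ × V)} (hl : ∀ x ∈ l, 0 ≤ x.1 ∧ x.1 ≤ 1) {g : V → ℝ} {c : ℝ}
    (h : ∀ s, c ≤ g s) : c ≤ EE l g := by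
  have := EE_mono hl (f := fun _ => c) (g := g) h
  rwa [EE_const] at this




/-- pushing forward along an additive map -/
theorem EE_map {W : Type*} [AddCommGroup W] (A : V →+ W) (l : List (ℝ × V)) (g : W → ℝ) :
    EE (l.map fun x => (x.1, A x.2)) g = EE l (fun s => g (A s)) := by
  induction l generalizing g with
  | nil => simp
  | cons x l ih =>
    rw [List.map_cons, EE_cons, EE_cons, ih, ih, ih]
    simp only [map_add, map_sub]





end

end Crest.Agent.R232.X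
end

-- ▼ part R232/T7a
section

/-! # R232 T7, part 1: pointwise inequalities for `|·|^p`. -/

set_option autoImplicit false

open Finset

namespace Crest.Agent.R232.X

theorem conv2 {p u v a b : ℝ} (hp : 1 ≤ p) (hu : 0 ≤ u) (hv : 0 ≤ v) (ha : 0 ≤ a) (hb : 0 ≤ b)
    (hab : a + b = 1) : (a * u + b * v) ^ p ≤ a * u ^ p + b * v ^ p := by
  simpa using (convexOn_rpow hp).2 (Set.mem_Ici.2 hu) (Set.mem_Ici.2 hv) ha hb hab

theorem conc2 {p u v a b : ℝ} (hp0 : 0 ≤ p) (hp : p ≤ 1) (hu : 0 ≤ u) (hv : 0 ≤ v) (ha : 0 ≤ a)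
    (hb : 0 ≤ b) (hab : a + b = 1) : a * u ^ p + b * v ^ p ≤ (a * u + b * v) ^ p := by
  simpa using (Real.concaveOn_rpow hp0 hp).2 (Set.mem_Ici.2 hu) (Set.mem_Ici.2 hv) ha hb hab

/-- `(x + y)^p ≤ (1 + t)^(p-1) x^p + (1 + 1/t)^(p-1) y^p` -/
theorem add_rpow_le_weighted {p t x y : ℝ} (hp : 1 ≤ p) (ht : 0 < t) (hx : 0 ≤ x) (hy : 0 ≤ y) :
    (x + y) ^ p ≤ (1 + t) ^ (p - 1) * x ^ p + (1 + 1 / t) ^ (p - 1) * y ^ p := by
  have h1t : 0 < 1 + t := by linarith
  have h1t' : 0 < 1 + 1 / t := by positivity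
  have hconv := conv2 hp (u := (1 + t) * x) (v := (1 + 1 / t) * y)
    (by positivity) (by positivity)
    (a := 1 / (1 + t)) (b := t / (1 + t)) (by positivity) (by positivity)
    (by field_simp)
  have e1 : 1 / (1 + t) * ((1 + t) * x) + t / (1 + t) * ((1 + 1 / t) * y) = x + y := by
    field_simp
    ring
  rw [e1, Real.mul_rpow h1t.le hx, Real.mul_rpow h1t'.le hy] at hconv
  have e2 : 1 / (1 + t) * ((1 + t) ^ p * x ^ p) = (1 + t) ^ (p - 1) * x ^ p := by
    rw [Real.rpow_sub_one h1t.ne']; ring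
  have e3 : t / (1 + t) * ((1 + 1 / t) ^ p * y ^ p) = (1 + 1 / t) ^ (p - 1) * y ^ p := by
    rw [Real.rpow_sub_one h1t'.ne']
    have : 1 + 1 / t = (1 + t) / t := by field_simp; ring
    rw [this]
    field_simp
  rw [e2, e3] at hconv
  exact hconv

theorem abs_add_rpow_le_weighted {p t : ℝ} (x y : ℝ) (hp : 1 ≤ p) (ht : 0 < t) :
    |x + y| ^ p ≤ (1 + t) ^ (p - 1) * |x| ^ p + (1 + 1 / t) ^ (p - 1) * |y| ^ p :=
  (Real.rpow_le_rpow (abs_nonneg _) (abs_add_le x y) (by linarith)).trans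
    (add_rpow_le_weighted hp ht (abs_nonneg _) (abs_nonneg _))

/-- tangent line inequality -/
theorem rpow_sub_le_tangent {p x y : ℝ} (hp : 1 < p) (hx : 0 ≤ x) (hy : 0 ≤ y) :
    x ^ p - y ^ p ≤ p * x ^ (p - 1) * (x - y) := by
  rcases hx.eq_or_lt with h | h
  · subst h
    rw [Real.zero_rpow (by linarith), Real.zero_rpow (by linarith)]
    have := Real.rpow_nonneg hy p
    simp; exact this
  · have hB := one_add_mul_self_le_rpow_one_add (s := y / x - 1) (by
      have := div_nonneg hy h.le; linarith) hp.le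
    have e : 1 + (y / x - 1) = y / x := by ring
    rw [e, Real.div_rpow hy h.le] at hB
    have hxp : 0 < x ^ p := Real.rpow_pos_of_pos h p
    rw [le_div_iff₀ hxp] at hB
    rw [Real.rpow_sub_one h.ne']
    have e2 : p * (x ^ p / x) * (x - y) = - ((p * (y / x - 1)) * x ^ p) := by
      field_simp; ring
    rw [e2]
    nlinarith

/-- the two-point sum is symmetric in the signs -/
theorem abs_two_point (s a : ℝ) (p : ℝ) :
    |s + a| ^ p + |s - a| ^ p = (|s| + |a|) ^ p + |(|s| - |a|)| ^ p := by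
  have key : ∀ s a : ℝ, 0 ≤ s → |s + a| ^ p + |s - a| ^ p = (|s| + |a|) ^ p + |(|s| - |a|)| ^ p := by
    intro s a hs
    rcases le_total 0 a with ha | ha
    · rw [abs_of_nonneg hs, abs_of_nonneg ha, abs_of_nonneg (add_nonneg hs ha)]
    · rw [abs_of_nonneg hs, abs_of_nonpos ha, abs_of_nonneg (a := s - a) (by linarith)]
      have : s - -a = s + a := by ring
      rw [this, add_comm]
      congr 1
  rcases le_total 0 s with hs | hs
  · exact key s a hs
  · have h := key (-s) a (by linarith)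
    rw [abs_neg] at h
    rw [← h, add_comm]
    congr 1
    · rw [← abs_neg]; congr 2; ring
    · rw [← abs_neg]; congr 2; ring

/-- one step inequality (iii): `(|s+b|^p + |s-b|^p)/2 ≥ |b|^p`. -/
theorem two_point_lower {p : ℝ} (hp : 1 ≤ p) (s b : ℝ) :
    |b| ^ p ≤ (|s + b| ^ p + |s - b| ^ p) / 2 := by
  have hconv := conv2 hp (u := |s + b|) (v := |s - b|) (abs_nonneg _) (abs_nonneg _)
    (a := 1 / 2) (b := 1 / 2) (by norm_num) (by norm_num) (by norm_num)
  have h1 : |b| ≤ 1 / 2 * |s + b| + 1 / 2 * |s - b| := by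
    have h := abs_sub (s + b) (s - b)
    have e : s + b - (s - b) = 2 * b := by ring
    rw [e, abs_mul, abs_of_pos (by norm_num : (0:ℝ) < 2)] at h
    linarith
  have h2 := Real.rpow_le_rpow (abs_nonneg b) h1 (by linarith : (0:ℝ) ≤ p)
  linarith

/-- one step inequality (i) for `1 < p ≤ 2`. -/
theorem two_point_upper_le_two {p : ℝ} (hp : 1 < p) (hp2 : p ≤ 2) (s a : ℝ) :
    (|s + a| ^ p + |s - a| ^ p) / 2 ≤ |s| ^ p + |a| ^ p := by
  have hθ0 : 0 ≤ p / 2 := by linarith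
  have hθ1 : p / 2 ≤ 1 := by linarith
  have key : ∀ x : ℝ, |x| ^ p = (x ^ 2) ^ (p / 2) := by
    intro x
    rw [← sq_abs, ← Real.rpow_natCast, ← Real.rpow_mul (abs_nonneg x)]
    congr 1
    push_cast; ring
  have hconc := conc2 hθ0 hθ1 (u := (s + a) ^ 2) (v := (s - a) ^ 2) (sq_nonneg _) (sq_nonneg _)
    (a := 1 / 2) (b := 1 / 2) (by norm_num) (by norm_num) (by norm_num)
  have e : 1 / 2 * (s + a) ^ 2 + 1 / 2 * (s - a) ^ 2 = s ^ 2 + a ^ 2 := by ring
  rw [e] at hconc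
  have h2 := Real.rpow_add_le_add_rpow (sq_nonneg s) (sq_nonneg a) hθ0 hθ1
  rw [key, key, key, key]
  linarith

/-- one step inequality (ii) for `2 ≤ p`. -/
theorem two_point_upper_two_le {p : ℝ} (hp : 2 ≤ p) (s a : ℝ) :
    (|s + a| ^ p + |s - a| ^ p) / 2 ≤
      |s| ^ p + 2 ^ p * p ^ 2 * (|a| ^ p + a ^ 2 * |s| ^ (p - 2)) := by
  rw [abs_two_point, ← sq_abs a]
  generalize hx : |s| = x
  generalize hy : |a| = y
  have hx0 : 0 ≤ x := hx ▸ abs_nonneg s
  have hy0 : 0 ≤ y := hy ▸ abs_nonneg a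
  clear hx hy
  have hxp : 0 ≤ x ^ p := Real.rpow_nonneg hx0 p
  have hyp : 0 ≤ y ^ p := Real.rpow_nonneg hy0 p
  have hxp2 : 0 ≤ x ^ (p - 2) := Real.rpow_nonneg hx0 _
  have h2p : 1 ≤ (2 : ℝ) ^ p := Real.one_le_rpow (by norm_num) (by linarith)
  have hp2 : 1 ≤ p ^ 2 := by nlinarith
  rcases le_total y x with hyx | hyx
  · -- `y ≤ x`: tangent lines
    rw [abs_of_nonneg (sub_nonneg.2 hyx)]
    have hxy0 : 0 ≤ x + y := by linarith
    have hxy0' : 0 ≤ x - y := by linarith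
    have t1 := rpow_sub_le_tangent (p := p) (by linarith) hxy0 hx0
    have t2 := rpow_sub_le_tangent (p := p) (by linarith) hxy0' hx0
    have e1 : x + y - x = y := by ring
    have e2 : x - y - x = -y := by ring
    rw [e1] at t1
    rw [e2] at t2
    -- second tangent
    have t3 : (x + y) ^ (p - 1) - (x - y) ^ (p - 1) ≤ (p - 1) * (x + y) ^ (p - 2) * (2 * y) := by
      rcases eq_or_lt_of_le hp with h2 | h2
      · subst h2
        norm_num
        linarith
      · have := rpow_sub_le_tangent (p := p - 1) (by linarith) hxy0 hxy0'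
        have e3 : p - 1 - 1 = p - 2 := by ring
        have e4 : x + y - (x - y) = 2 * y := by ring
        rw [e3, e4] at this
        exact this
    have t4 : (x + y) ^ (p - 2) ≤ 2 ^ (p - 2) * x ^ (p - 2) := by
      rw [← Real.mul_rpow (by norm_num) hx0]
      exact Real.rpow_le_rpow hxy0 (by linarith) (by linarith)
    have h2p2 : (2 : ℝ) ^ (p - 2) = 2 ^ p / 4 := by
      rw [Real.rpow_sub (by norm_num)]
      norm_num
    have t5 : (x + y) ^ p + (x - y) ^ p - 2 * x ^ p ≤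
        p * y * ((x + y) ^ (p - 1) - (x - y) ^ (p - 1)) := by linarith
    have t6 : p * y * ((x + y) ^ (p - 1) - (x - y) ^ (p - 1)) ≤
        p * y * ((p - 1) * (2 ^ (p - 2) * x ^ (p - 2)) * (2 * y)) := by
      apply mul_le_mul_of_nonneg_left _ (by positivity)
      refine t3.trans ?_
      apply mul_le_mul_of_nonneg_right _ (by positivity)
      exact mul_le_mul_of_nonneg_left t4 (by linarith)
    have t7 : p * y * ((p - 1) * (2 ^ (p - 2) * x ^ (p - 2)) * (2 * y)) ≤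
        2 * (2 ^ p * p ^ 2 * (y ^ 2 * x ^ (p - 2))) := by
      rw [h2p2]
      have e : p * y * ((p - 1) * (2 ^ p / 4 * x ^ (p - 2)) * (2 * y)) =
        (p * (p - 1) / 2) * (2 ^ p * (y ^ 2 * x ^ (p - 2))) := by ring
      rw [e]
      have e' : 2 * (2 ^ p * p ^ 2 * (y ^ 2 * x ^ (p - 2))) =
        (2 * p ^ 2) * (2 ^ p * (y ^ 2 * x ^ (p - 2))) := by ring
      rw [e']
      apply mul_le_mul_of_nonneg_right _ (by positivity)
      nlinarith
    have h8 : 0 ≤ 2 ^ p * p ^ 2 * y ^ p := by positivity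
    nlinarith
  · -- `x ≤ y`
    have h1 : (x + y) ^ p ≤ 2 ^ p * y ^ p := by
      rw [← Real.mul_rpow (by norm_num) hy0]
      exact Real.rpow_le_rpow (by linarith) (by linarith) (by linarith)
    have h2 : |x - y| ^ p ≤ 2 ^ p * y ^ p := by
      rw [← Real.mul_rpow (by norm_num) hy0]
      refine Real.rpow_le_rpow (abs_nonneg _) ?_ (by linarith)
      rw [abs_of_nonpos (by linarith)]
      linarith
    have h3 : 2 ^ p * y ^ p ≤ 2 ^ p * p ^ 2 * y ^ p := by
      have : 0 ≤ (2 : ℝ) ^ p * y ^ p := by positivity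
      nlinarith
    have h4 : 0 ≤ 2 ^ p * p ^ 2 * (y ^ 2 * x ^ (p - 2)) := by positivity
    linarith

/-- one step inequality (iv): main part -/
theorem two_point_main {p t : ℝ} (hp : 1 ≤ p) (ht : 0 < t) (s b : ℝ) :
    (|s + b| ^ p + |s - b| ^ p) / 2 ≤
      (1 + t) ^ (p - 1) * |b| ^ p + (1 + 1 / t) ^ (p - 1) * |s| ^ p := by
  have h1 := abs_add_rpow_le_weighted b s hp ht
  have h2 := abs_add_rpow_le_weighted (-b) s hp ht
  rw [abs_neg] at h2
  rw [add_comm b s] at h1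
  have e : -b + s = s - b := by ring
  rw [e] at h2
  linarith

/-- interpolation: `x^(p-2) ≤ lam^(p-2) + lam^(-2) x^p` for `p ≥ 2` -/
theorem interp {p lam x : ℝ} (hp : 2 ≤ p) (hl : 0 < lam) (hx : 0 ≤ x) :
    x ^ (p - 2) ≤ lam ^ (p - 2) + x ^ p / lam ^ 2 := by
  rcases le_total x lam with h | h
  · have h1 : x ^ (p - 2) ≤ lam ^ (p - 2) := Real.rpow_le_rpow hx h (by linarith)
    have h2 : 0 ≤ x ^ p / lam ^ 2 := by positivity
    linarith
  · have hx' : 0 < x := lt_of_lt_of_le hl h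
    have h1 : x ^ (p - 2) = x ^ p / x ^ 2 := by
      rw [Real.rpow_sub hx']
      norm_num
    have h2 : x ^ p / x ^ 2 ≤ x ^ p / lam ^ 2 := by
      apply div_le_div_of_nonneg_left (by positivity) (by positivity)
      exact pow_le_pow_left₀ hl.le h 2
    have h3 : 0 ≤ lam ^ (p - 2) := by positivity
    linarith

end Crest.Agent.R232.X
end

-- ▼ part R232/T7b
section

/-! # R232 T7, part 2: moments of sums along a list. -/

set_option autoImplicit false

open Finset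

namespace Crest.Agent.R232.X

/-- activity -/
noncomputable def act (l : List (ℝ × ℝ)) : ℝ := ((l.filter fun x => x.2 ≠ 0).map fun x => x.1).sum

/-- `p`-mass -/
noncomputable def mass (p : ℝ) (l : List (ℝ × ℝ)) : ℝ := (l.map fun x => x.1 * |x.2| ^ p).sum

/-- quadratic mass -/
noncomputable def qmass (l : List (ℝ × ℝ)) : ℝ := (l.map fun x => x.1 * x.2 ^ 2).sum

theorem mass_cons (p : ℝ) (x : ℝ × ℝ) (l : List (ℝ × ℝ)) :
    mass p (x :: l) = x.1 * |x.2| ^ p + mass p l := by simp [mass]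

theorem qmass_cons (x : ℝ × ℝ) (l : List (ℝ × ℝ)) :
    qmass (x :: l) = x.1 * x.2 ^ 2 + qmass l := by simp [qmass]

theorem act_cons_zero (q : ℝ) (l : List (ℝ × ℝ)) : act ((q, 0) :: l) = act l := by
  simp [act]

theorem act_cons_ne (x : ℝ × ℝ) (hx : x.2 ≠ 0) (l : List (ℝ × ℝ)) :
    act (x :: l) = x.1 + act l := by
  simp [act, hx]

theorem act_nonneg {l : List (ℝ × ℝ)} (hl : ∀ x ∈ l, 0 ≤ x.1 ∧ x.1 ≤ 1) : 0 ≤ act l := by
  apply List.sum_nonneg
  intro y hy
  simp only [List.mem_map, List.mem_filter] at hy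
  obtain ⟨x, ⟨hx, _⟩, rfl⟩ := hy
  exact (hl x hx).1

theorem mass_nonneg (p : ℝ) {l : List (ℝ × ℝ)} (hl : ∀ x ∈ l, 0 ≤ x.1 ∧ x.1 ≤ 1) :
    0 ≤ mass p l := by
  apply List.sum_nonneg
  intro y hy
  simp only [List.mem_map] at hy
  obtain ⟨x, hx, rfl⟩ := hy
  exact mul_nonneg (hl x hx).1 (Real.rpow_nonneg (abs_nonneg _) _)

theorem qmass_nonneg {l : List (ℝ × ℝ)} (hl : ∀ x ∈ l, 0 ≤ x.1 ∧ x.1 ≤ 1) :
    0 ≤ qmass l := by
  apply List.sum_nonneg
  intro y hy
  simp only [List.mem_map] at hy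
  obtain ⟨x, hx, rfl⟩ := hy
  exact mul_nonneg (hl x hx).1 (sq_nonneg _)

theorem EE_abs_nonneg (p : ℝ) {l : List (ℝ × ℝ)} (hl : ∀ x ∈ l, 0 ≤ x.1 ∧ x.1 ≤ 1) :
    0 ≤ EE l (fun s => |s| ^ p) :=
  EE_nonneg hl (fun _ => Real.rpow_nonneg (abs_nonneg _) _)

/-- `EE` of `x :: l` in terms of the two-point average -/
theorem EE_cons_two (x : ℝ × ℝ) (l : List (ℝ × ℝ)) (g : ℝ → ℝ) :
    EE (x :: l) g =
      (1 - x.1) * EE l g + x.1 * EE l (fun s => (g (s + x.2) + g (s - x.2)) / 2) := by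
  rw [EE_cons, EE_div_const, EE_add]
  ring

theorem EE_cons_zero (q : ℝ) (l : List (ℝ × ℝ)) (g : ℝ → ℝ) :
    EE ((q, 0) :: l) g = EE l g := by
  rw [EE_cons]
  simp only [add_zero, sub_zero]
  ring

theorem lower {p : ℝ} (hp : 1 ≤ p) (l : List (ℝ × ℝ)) (hl : ∀ x ∈ l, 0 ≤ x.1 ∧ x.1 ≤ 1) :
    (1 - act l) * mass p l ≤ EE l (fun s => |s| ^ p) := by
  induction l with
  | nil => simp [act, mass, Real.zero_rpow (by linarith : p ≠ 0)]
  | cons x l ih =>
    have hl' := IsProb.tail hl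
    have hx := IsProb.head hl
    have ih' := ih hl'
    obtain ⟨q, b⟩ := x
    simp only at hx
    by_cases hb : b = 0
    · subst hb
      rw [act_cons_zero, EE_cons_zero, mass_cons]
      simp only [abs_zero, Real.zero_rpow (by linarith : p ≠ 0), mul_zero, zero_add]
      exact ih'
    · rw [act_cons_ne _ hb, EE_cons_two, mass_cons]
      simp only
      have h1 : |b| ^ p ≤ EE l (fun s => (|s + b| ^ p + |s - b| ^ p) / 2) :=
        const_le_EE hl' (fun s => two_point_lower hp s b)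
      have h2 := mul_le_mul_of_nonneg_left h1 hx.1
      have h3 := mul_le_mul_of_nonneg_left ih' (sub_nonneg.2 hx.2)
      have hA := act_nonneg hl'
      have hM := mass_nonneg p hl'
      have hbp : 0 ≤ |b| ^ p := Real.rpow_nonneg (abs_nonneg _) _
      have h4 : (1 - (q + act l)) * mass p l ≤ (1 - q) * ((1 - act l) * mass p l) := by
        have : 0 ≤ q * act l * mass p l := by
          have := hx.1; positivity
        nlinarith
      have h5 : (1 - (q + act l)) * (q * |b| ^ p) ≤ q * |b| ^ p := by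
        have hq := hx.1
        have : 0 ≤ (q + act l) * (q * |b| ^ p) := by positivity
        nlinarith
      nlinarith

theorem upper_main {p t : ℝ} (hp : 1 ≤ p) (ht : 0 < t) (l : List (ℝ × ℝ))
    (hl : ∀ x ∈ l, 0 ≤ x.1 ∧ x.1 ≤ 1) :
    EE l (fun s => |s| ^ p) ≤
      Real.exp ((1 + 1 / t) ^ (p - 1) * act l) * ((1 + t) ^ (p - 1) * mass p l) := by
  set M : ℝ := (1 + 1 / t) ^ (p - 1) with hM
  set T : ℝ := (1 + t) ^ (p - 1) with hT
  have hM0 : 0 ≤ M := by positivity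
  have hT0 : 0 ≤ T := by positivity
  induction l with
  | nil => simp [act, mass, Real.zero_rpow (by linarith : p ≠ 0)]
  | cons x l ih =>
    have hl' := IsProb.tail hl
    have hx := IsProb.head hl
    have ih' := ih hl'
    obtain ⟨q, b⟩ := x
    simp only at hx
    by_cases hb : b = 0
    · subst hb
      rw [act_cons_zero, EE_cons_zero, mass_cons]
      simp only [abs_zero, Real.zero_rpow (by linarith : p ≠ 0), mul_zero, zero_add]
      exact ih'
    · rw [act_cons_ne _ hb, EE_cons_two, mass_cons]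
      simp only
      have h1 : EE l (fun s => (|s + b| ^ p + |s - b| ^ p) / 2) ≤
          T * |b| ^ p + M * EE l (fun s => |s| ^ p) := by
        have h := EE_mono hl' (fun s => two_point_main hp ht s b)
        rw [EE_add, EE_const, EE_const_mul] at h
        exact h
      have h2 := mul_le_mul_of_nonneg_left h1 hx.1
      set Y := EE l (fun s => |s| ^ p) with hY
      have hY0 : 0 ≤ Y := EE_abs_nonneg p hl'
      have hq := hx.1
      have hA := act_nonneg hl'
      have hMa := mass_nonneg p hl'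
      have hbp : 0 ≤ |b| ^ p := Real.rpow_nonneg (abs_nonneg _) _
      have h3 : (1 + q * M) * Y ≤ Real.exp (M * q) * (Real.exp (M * act l) * (T * mass p l)) := by
        apply mul_le_mul _ ih' hY0 (Real.exp_pos _).le
        have := Real.add_one_le_exp (M * q)
        linarith
      have h4 : T * (q * |b| ^ p) ≤ Real.exp (M * (q + act l)) * (T * (q * |b| ^ p)) := by
        have : 1 ≤ Real.exp (M * (q + act l)) := Real.one_le_exp (by positivity)
        have h0 : 0 ≤ T * (q * |b| ^ p) := by positivity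
        nlinarith
      have h5 : Real.exp (M * (q + act l)) = Real.exp (M * q) * Real.exp (M * act l) := by
        rw [← Real.exp_add]; congr 1; ring
      have h6 : Real.exp (M * (q + act l)) * (T * (q * |b| ^ p + mass p l)) =
          Real.exp (M * (q + act l)) * (T * (q * |b| ^ p)) +
          Real.exp (M * q) * (Real.exp (M * act l) * (T * mass p l)) := by
        rw [h5]; ring
      rw [h6]
      have h7 : 0 ≤ q * Y := by positivity
      nlinarith

theorem upper_le_two {p : ℝ} (hp : 1 < p) (hp2 : p ≤ 2) (l : List (ℝ × ℝ))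
    (hl : ∀ x ∈ l, 0 ≤ x.1 ∧ x.1 ≤ 1) :
    EE l (fun s => |s| ^ p) ≤ mass p l := by
  induction l with
  | nil => simp [mass, Real.zero_rpow (by linarith : p ≠ 0)]
  | cons x l ih =>
    have hl' := IsProb.tail hl
    have hx := IsProb.head hl
    have ih' := ih hl'
    obtain ⟨q, b⟩ := x
    simp only at hx
    rw [EE_cons_two, mass_cons]
    simp only
    have h1 : EE l (fun s => (|s + b| ^ p + |s - b| ^ p) / 2) ≤
        EE l (fun s => |s| ^ p) + |b| ^ p := by
      have h := EE_mono hl' (fun s => two_point_upper_le_two hp hp2 s b)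
      rw [EE_add, EE_const] at h
      exact h
    have h2 := mul_le_mul_of_nonneg_left h1 hx.1
    linarith

theorem upper_two_le {p lam : ℝ} (hp : 2 ≤ p) (hlam : 0 < lam) (l : List (ℝ × ℝ))
    (hl : ∀ x ∈ l, 0 ≤ x.1 ∧ x.1 ≤ 1) :
    EE l (fun s => |s| ^ p) ≤
      Real.exp (2 ^ p * p ^ 2 * (qmass l / lam ^ 2)) *
        (2 ^ p * p ^ 2 * (mass p l + qmass l * lam ^ (p - 2))) := by
  set A : ℝ := 2 ^ p * p ^ 2 with hA
  have hA0 : 0 ≤ A := by positivity
  induction l with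
  | nil => simp [mass, qmass, Real.zero_rpow (by linarith : p ≠ 0)]
  | cons x l ih =>
    have hl' := IsProb.tail hl
    have hx := IsProb.head hl
    have ih' := ih hl'
    obtain ⟨q, b⟩ := x
    simp only at hx
    rw [EE_cons_two, mass_cons, qmass_cons]
    simp only
    set Y := EE l (fun s => |s| ^ p) with hY
    have hY0 : 0 ≤ Y := EE_abs_nonneg p hl'
    have hq := hx.1
    have hMa := mass_nonneg p hl'
    have hQ := qmass_nonneg hl'
    have hbp : 0 ≤ |b| ^ p := Real.rpow_nonneg (abs_nonneg _) _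
    have hlp : 0 ≤ lam ^ (p - 2) := Real.rpow_nonneg hlam.le _
    have h1 : EE l (fun s => (|s + b| ^ p + |s - b| ^ p) / 2) ≤
        Y + A * (|b| ^ p + b ^ 2 * (lam ^ (p - 2) + Y / lam ^ 2)) := by
      have hpt : ∀ s : ℝ, (|s + b| ^ p + |s - b| ^ p) / 2 ≤
          |s| ^ p + A * (|b| ^ p + b ^ 2 * (lam ^ (p - 2) + |s| ^ p / lam ^ 2)) := by
        intro s
        refine (two_point_upper_two_le hp s b).trans ?_
        have h := interp hp hlam (abs_nonneg s)
        have h' := mul_le_mul_of_nonneg_left h (sq_nonneg b)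
        have : A * (|b| ^ p + b ^ 2 * |s| ^ (p - 2)) ≤
            A * (|b| ^ p + b ^ 2 * (lam ^ (p - 2) + |s| ^ p / lam ^ 2)) :=
          mul_le_mul_of_nonneg_left (by linarith) hA0
        linarith
      have h := EE_mono hl' hpt
      refine h.trans (le_of_eq ?_)
      rw [EE_add, EE_const_mul, EE_add, EE_const, EE_const_mul, EE_add, EE_const, EE_div_const]
    have h2 := mul_le_mul_of_nonneg_left h1 hq
    -- abbreviations
    set v : ℝ := q * b ^ 2 / lam ^ 2 with hv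
    have hv0 : 0 ≤ v := by positivity
    have e1 : (q * b ^ 2 + qmass l) / lam ^ 2 = v + qmass l / lam ^ 2 := by
      rw [hv]; ring
    rw [e1]
    have h3 : (1 + A * v) * Y ≤ Real.exp (A * v) *
        (Real.exp (A * (qmass l / lam ^ 2)) * (A * (mass p l + qmass l * lam ^ (p - 2)))) := by
      apply mul_le_mul _ ih' hY0 (Real.exp_pos _).le
      have := Real.add_one_le_exp (A * v)
      linarith
    have h5 : Real.exp (A * (v + qmass l / lam ^ 2)) =
        Real.exp (A * v) * Real.exp (A * (qmass l / lam ^ 2)) := by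
      rw [← Real.exp_add]; congr 1; ring
    have h4 : A * (q * |b| ^ p + q * b ^ 2 * lam ^ (p - 2)) ≤
        Real.exp (A * (v + qmass l / lam ^ 2)) *
          (A * (q * |b| ^ p + q * b ^ 2 * lam ^ (p - 2))) := by
      have : 1 ≤ Real.exp (A * (v + qmass l / lam ^ 2)) := Real.one_le_exp (by positivity)
      have h0 : 0 ≤ A * (q * |b| ^ p + q * b ^ 2 * lam ^ (p - 2)) := by positivity
      nlinarith
    have h6 : Real.exp (A * (v + qmass l / lam ^ 2)) *
        (A * (q * |b| ^ p + mass p l + (q * b ^ 2 + qmass l) * lam ^ (p - 2))) =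
        Real.exp (A * (v + qmass l / lam ^ 2)) *
          (A * (q * |b| ^ p + q * b ^ 2 * lam ^ (p - 2))) +
        Real.exp (A * v) * (Real.exp (A * (qmass l / lam ^ 2)) *
          (A * (mass p l + qmass l * lam ^ (p - 2)))) := by
      rw [h5]; ring
    rw [h6]
    have h7 : q * (Y + A * (|b| ^ p + b ^ 2 * (lam ^ (p - 2) + Y / lam ^ 2))) =
        q * Y + A * (q * |b| ^ p + q * b ^ 2 * lam ^ (p - 2)) + A * v * Y := by
      rw [hv]; ring
    rw [h7] at h2
    linarith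

/-- monotonicity of the smallness condition -/
theorem small_mono {C C' Λ : ℝ} (hC : 1 ≤ C) (hCC : C ≤ C') (hΛ : 1 ≤ Λ) :
    (C' * Λ) ^ (-C') ≤ (C * Λ) ^ (-C) := by
  have h1 : 1 ≤ C' * Λ := by nlinarith
  calc (C' * Λ) ^ (-C') ≤ (C' * Λ) ^ (-C) := Real.rpow_le_rpow_of_exponent_le h1 (by linarith)
    _ ≤ (C * Λ) ^ (-C) := by
        apply Real.rpow_le_rpow_of_nonpos (by positivity) _ (by linarith)
        exact mul_le_mul_of_nonneg_right hCC (by linarith)

theorem small_mul {C Λ κ δ : ℝ} (hC : 1 ≤ C) (hδ : 0 < δ) (hCδ : 1 / δ ≤ C) (hΛ : 1 ≤ Λ)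
    (hκ : κ ≤ (C * Λ) ^ (-C)) : κ * Λ ≤ δ := by
  have hCΛ : 1 ≤ C * Λ := by nlinarith
  have h1 : (C * Λ) ^ (-C) ≤ (C * Λ) ^ (-1 : ℝ) :=
    Real.rpow_le_rpow_of_exponent_le hCΛ (by linarith)
  rw [Real.rpow_neg_one] at h1
  have h2 : κ * Λ ≤ (C * Λ)⁻¹ * Λ := mul_le_mul_of_nonneg_right (hκ.trans h1) (by linarith)
  have h3 : (C * Λ)⁻¹ * Λ = 1 / C := by
    have : Λ ≠ 0 := by linarith
    have : C ≠ 0 := by linarith
    field_simp
  have h4 : 1 / C ≤ δ := by
    rw [div_le_iff₀ hδ] at hCδ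
    rw [div_le_iff₀ (by linarith)]
    linarith
  linarith

end Crest.Agent.R232.X
end

-- ▼ part R232/T7
section

/-! # R232 T7: moments of sparse sums. -/

set_option autoImplicit false

open Finset

namespace Crest.Agent.R232.X

/-- the error part -/
theorem err_part (p : ℝ) (hp1 : 1 < p) :
    ∃ Cp : ℝ, 1 ≤ Cp ∧ ∀ ε : ℝ, 0 < ε → ∃ C : ℝ, 1 ≤ C ∧ ∀ (Λ : ℝ) (_ : 1 ≤ Λ) (κ : ℝ)
      (_ : 0 < κ) (_ : κ ≤ (C * Λ) ^ (-C)) (l : List (ℝ × ℝ)) (_ : ∀ x ∈ l, 0 ≤ x.1 ∧ x.1 ≤ 1)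
      (_ : mass p l ≤ κ * ε) (_ : qmass l ≤ κ * Λ),
      EE l (fun s => |s| ^ p) ≤ Cp * (κ * ε) := by
  rcases le_or_gt p 2 with hp2 | hp2
  · refine ⟨1, le_refl _, fun ε _ => ⟨1, le_refl _, ?_⟩⟩
    intro Λ _ κ _ _ l hl h1 _
    rw [one_mul]
    exact (upper_le_two hp1 hp2 l hl).trans h1
  · set A : ℝ := 2 ^ p * p ^ 2 with hA
    have hA1 : 1 ≤ A := by
      have h1 : 1 ≤ (2 : ℝ) ^ p := Real.one_le_rpow (by norm_num) (by linarith)
      have h2 : 1 ≤ p ^ 2 := by nlinarith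
      rw [hA]; nlinarith
    have hE1 : 1 ≤ Real.exp A := Real.one_le_exp (by linarith)
    refine ⟨Real.exp A * (A * 2), by nlinarith, fun ε hε => ?_⟩
    set θ : ℝ := (p - 2) / 2 with hθ
    have hθ0 : 0 < θ := by rw [hθ]; linarith
    refine ⟨max (1 + 1 / θ) (1 / ε), le_trans ?_ (le_max_left _ _), ?_⟩
    · have : 0 < 1 / θ := by positivity
      linarith
    intro Λ hΛ κ hκ hκC l hl h1 h2
    set C : ℝ := max (1 + 1 / θ) (1 / ε) with hC
    have hCθ : 1 + 1 / θ ≤ C := le_max_left _ _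
    have hCε : 1 / ε ≤ C := le_max_right _ _
    have hθi : 0 < 1 / θ := by positivity
    have hC1 : 1 ≤ C := by linarith
    have hΛ0 : 0 < Λ := by linarith
    have hCΛ : 1 ≤ C * Λ := by nlinarith
    have hCΛ0 : 0 < C * Λ := by linarith
    have hκΛ0 : 0 < κ * Λ := by positivity
    -- `κ Λ ≤ (C Λ)^(-1/θ)`
    have k1 : κ ≤ (C * Λ)⁻¹ * (C * Λ) ^ (-(1 / θ)) := by
      calc κ ≤ (C * Λ) ^ (-C) := hκC
        _ ≤ (C * Λ) ^ (-1 + -(1 / θ)) :=
            Real.rpow_le_rpow_of_exponent_le hCΛ (by linarith)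
        _ = (C * Λ)⁻¹ * (C * Λ) ^ (-(1 / θ)) := by
            rw [Real.rpow_add hCΛ0, Real.rpow_neg_one]
    have k2 : κ * Λ ≤ (C * Λ) ^ (-(1 / θ)) := by
      have hpos : 0 ≤ (C * Λ) ^ (-(1 / θ)) := Real.rpow_nonneg hCΛ0.le _
      calc κ * Λ ≤ ((C * Λ)⁻¹ * (C * Λ) ^ (-(1 / θ))) * Λ :=
            mul_le_mul_of_nonneg_right k1 hΛ0.le
        _ = (1 / C) * (C * Λ) ^ (-(1 / θ)) := by
            have : C ≠ 0 := by linarith
            field_simp
        _ ≤ 1 * (C * Λ) ^ (-(1 / θ)) := by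
            apply mul_le_mul_of_nonneg_right _ hpos
            rw [div_le_one (by linarith)]
            exact hC1
        _ = (C * Λ) ^ (-(1 / θ)) := one_mul _
    have k3 : (κ * Λ) ^ θ ≤ (C * Λ)⁻¹ := by
      calc (κ * Λ) ^ θ ≤ ((C * Λ) ^ (-(1 / θ))) ^ θ := Real.rpow_le_rpow hκΛ0.le k2 hθ0.le
        _ = (C * Λ) ^ (-(1 / θ) * θ) := by rw [← Real.rpow_mul hCΛ0.le]
        _ = (C * Λ)⁻¹ := by
            have : -(1 / θ) * θ = -1 := by field_simp
            rw [this, Real.rpow_neg_one]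
    have k4 : Λ * (κ * Λ) ^ θ ≤ ε := by
      calc Λ * (κ * Λ) ^ θ ≤ Λ * (C * Λ)⁻¹ := mul_le_mul_of_nonneg_left k3 hΛ0.le
        _ = 1 / C := by
            have : C ≠ 0 := by linarith
            field_simp
        _ ≤ ε := by
            rw [div_le_iff₀ hε] at hCε
            rw [div_le_iff₀ (by linarith)]
            linarith
    -- apply the Rosenthal-type bound with `lam = √(κ Λ)`
    have hlam : 0 < Real.sqrt (κ * Λ) := Real.sqrt_pos.2 hκΛ0
    have hlam2 : Real.sqrt (κ * Λ) ^ 2 = κ * Λ := Real.sq_sqrt hκΛ0.le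
    have hlamp : Real.sqrt (κ * Λ) ^ (p - 2) = (κ * Λ) ^ θ := by
      rw [Real.sqrt_eq_rpow, ← Real.rpow_mul hκΛ0.le]
      congr 1
      rw [hθ]; ring
    have hmain := upper_two_le hp2.le hlam l hl
    rw [hlam2, hlamp, ← hA] at hmain
    have hQ := qmass_nonneg hl
    have hM := mass_nonneg p hl
    have hp0 : 0 ≤ (κ * Λ) ^ θ := Real.rpow_nonneg hκΛ0.le _
    have g1 : A * (qmass l / (κ * Λ)) ≤ A := by
      have : qmass l / (κ * Λ) ≤ 1 := by
        rw [div_le_one hκΛ0]; exact h2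
      nlinarith
    have g2 : Real.exp (A * (qmass l / (κ * Λ))) ≤ Real.exp A := Real.exp_le_exp.2 g1
    have g3 : qmass l * (κ * Λ) ^ θ ≤ κ * ε := by
      calc qmass l * (κ * Λ) ^ θ ≤ (κ * Λ) * (κ * Λ) ^ θ := mul_le_mul_of_nonneg_right h2 hp0
        _ = κ * (Λ * (κ * Λ) ^ θ) := by ring
        _ ≤ κ * ε := mul_le_mul_of_nonneg_left k4 hκ.le
    have g4 : A * (mass p l + qmass l * (κ * Λ) ^ θ) ≤ A * 2 * (κ * ε) := by
      have : mass p l + qmass l * (κ * Λ) ^ θ ≤ 2 * (κ * ε) := by linarith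
      nlinarith
    have g5 : 0 ≤ A * (mass p l + qmass l * (κ * Λ) ^ θ) := by positivity
    calc EE l (fun s => |s| ^ p)
        ≤ Real.exp (A * (qmass l / (κ * Λ))) * (A * (mass p l + qmass l * (κ * Λ) ^ θ)) := hmain
      _ ≤ Real.exp A * (A * 2 * (κ * ε)) := mul_le_mul g2 g4 g5 (Real.exp_pos _).le
      _ = Real.exp A * (A * 2) * (κ * ε) := by ring

theorem final_arith {x κ U B MR : ℝ} (hx0 : 0 < x) (hx1 : x < 1 / 8) (hκ : 0 < κ)
    (hMR : MR ≤ x * κ) (c1 : U ≤ (1 + x) * B + MR) (c2 : B ≤ (1 + x) * U + MR)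
    (hBup : B ≤ (1 + x) * ((1 + x) * κ)) (hBlow : (1 - x) * κ ≤ B) :
    (1 - 8 * x) * κ ≤ U ∧ U ≤ (1 + 8 * x) * κ := by
  have hx2 : x ^ 2 ≤ x / 8 := by nlinarith
  have hx3 : x ^ 3 ≤ x / 64 := by
    have : x ^ 3 = x * x ^ 2 := by ring
    rw [this]; nlinarith
  have h5 : 0 < x * κ := by positivity
  constructor
  · by_contra hcon
    push Not at hcon
    have h1 : (1 + x) * U ≤ (1 + x) * ((1 - 8 * x) * κ) :=
      mul_le_mul_of_nonneg_left hcon.le (by linarith)
    have h2 : (1 + x) * ((1 - 8 * x) * κ) = κ - 7 * (x * κ) - 8 * (x ^ 2 * κ) := by ring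
    have h3 : 0 ≤ x ^ 2 * κ := by positivity
    have h4 : (1 - x) * κ = κ - x * κ := by ring
    linarith
  · have h1 : (1 + x) * B ≤ (1 + x) * ((1 + x) * ((1 + x) * κ)) :=
      mul_le_mul_of_nonneg_left hBup (by linarith)
    have h2 : (1 + x) * ((1 + x) * ((1 + x) * κ)) =
        κ + 3 * (x * κ) + 3 * (x ^ 2 * κ) + x ^ 3 * κ := by ring
    have h3 : x ^ 2 * κ ≤ x / 8 * κ := mul_le_mul_of_nonneg_right hx2 hκ.le
    have h4 : x ^ 3 * κ ≤ x / 64 * κ := mul_le_mul_of_nonneg_right hx3 hκ.le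
    have h6 : (1 + 8 * x) * κ = κ + 8 * (x * κ) := by ring
    have h7 : x / 8 * κ = (x * κ) / 8 := by ring
    have h8 : x / 64 * κ = (x * κ) / 64 := by ring
    linarith

end Crest.Agent.R232.X

namespace Crest.Agent.R232

set_option maxHeartbeats 1000000 in
open X in
/-- T7: moments of sparse sums: list entries `(q, (b, a))`, `b` main part, `a` true value. -/
theorem moment (p : ℝ) (hp1 : 1 < p) (η : ℝ) (hη : 0 < η) (hη1 : η < 1) :
    ∃ ε : ℝ, 0 < ε ∧ ∃ C : ℝ, 1 ≤ C ∧ ∀ (Λ : ℝ) (_ : 1 ≤ Λ) (κ : ℝ) (_ : 0 < κ)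
      (_ : κ ≤ (C * Λ) ^ (-C)) (l : List (ℝ × (ℝ × ℝ))) (_ : ∀ x ∈ l, 0 ≤ x.1 ∧ x.1 ≤ 1)
      (_ : (l.map fun x => x.1 * |x.2.1| ^ p).sum = κ)
      (_ : ((l.filter fun x => x.2.1 ≠ 0).map fun x => x.1).sum ≤ κ * Λ)
      (_ : (l.map fun x => x.1 * |x.2.2 - x.2.1| ^ p).sum ≤ κ * ε)
      (_ : (l.map fun x => x.1 * (x.2.2 - x.2.1) ^ 2).sum ≤ κ * Λ),
      (1 - η) * κ ≤ EE l (fun s => |s.2| ^ p) ∧ EE l (fun s => |s.2| ^ p) ≤ (1 + η) * κ := by
  obtain ⟨Cp, hCp, herr⟩ := err_part p hp1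
  set x : ℝ := η / 8 with hx
  have hx0 : 0 < x := by rw [hx]; linarith
  have hx1 : x < 1 / 8 := by rw [hx]; linarith
  set t : ℝ := (1 + x) ^ (1 / (p - 1)) - 1 with ht
  have ht0 : 0 < t := by
    have : 1 < (1 + x) ^ (1 / (p - 1)) :=
      Real.one_lt_rpow (by linarith) (by
        have : 0 < p - 1 := by linarith
        positivity)
    rw [ht]; linarith
  have hT : (1 + t) ^ (p - 1) = 1 + x := by
    have e : 1 + t = (1 + x) ^ (1 / (p - 1)) := by rw [ht]; ring
    rw [e, ← Real.rpow_mul (by linarith)]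
    have : 1 / (p - 1) * (p - 1) = 1 := by
      have : p - 1 ≠ 0 := by linarith
      field_simp
    rw [this, Real.rpow_one]
  set M : ℝ := (1 + 1 / t) ^ (p - 1) with hM
  have hM1 : 1 ≤ M := by
    rw [hM]
    apply Real.one_le_rpow _ (by linarith)
    have : 0 < 1 / t := by positivity
    linarith
  have hM0 : 0 < M := by linarith
  have hCp0 : 0 < Cp := by linarith
  set ε : ℝ := x / (M * Cp) with hε
  have hε0 : 0 < ε := by positivity
  obtain ⟨C₁, hC₁, hC₁'⟩ := herr ε hε0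
  have hlog : 0 < Real.log (1 + x) := Real.log_pos (by linarith)
  set δ : ℝ := Real.log (1 + x) / M with hδ
  have hδ0 : 0 < δ := by positivity
  refine ⟨ε, hε0, max C₁ (max (1 / x) (1 / δ)), hC₁.trans (le_max_left _ _), ?_⟩
  intro Λ hΛ κ hκ hκC l hl hmass hact herrp herr2
  set C : ℝ := max C₁ (max (1 / x) (1 / δ)) with hC
  have hCC₁ : C₁ ≤ C := le_max_left _ _
  have hCx : 1 / x ≤ C := (le_max_left _ _).trans (le_max_right _ _)
  have hCδ : 1 / δ ≤ C := (le_max_right _ _).trans (le_max_right _ _)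
  have hC1 : 1 ≤ C := hC₁.trans hCC₁
  have hκ₁ : κ ≤ (C₁ * Λ) ^ (-C₁) := hκC.trans (small_mono hC₁ hCC₁ hΛ)
  have s1 : κ * Λ ≤ x := small_mul hC1 hx0 hCx hΛ hκC
  have s2 : κ * Λ ≤ δ := small_mul hC1 hδ0 hCδ hΛ hκC
  -- the three lists
  set lb : List (ℝ × ℝ) := l.map fun y => (y.1, AddMonoidHom.fst ℝ ℝ y.2) with hlb
  set lr : List (ℝ × ℝ) :=
    l.map fun y => (y.1, (AddMonoidHom.snd ℝ ℝ - AddMonoidHom.fst ℝ ℝ) y.2) with hlr
  have hlb' : ∀ y ∈ lb, 0 ≤ y.1 ∧ y.1 ≤ 1 := by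
    intro y hy
    rw [hlb, List.mem_map] at hy
    obtain ⟨z, hz, rfl⟩ := hy
    exact hl z hz
  have hlr' : ∀ y ∈ lr, 0 ≤ y.1 ∧ y.1 ≤ 1 := by
    intro y hy
    rw [hlr, List.mem_map] at hy
    obtain ⟨z, hz, rfl⟩ := hy
    exact hl z hz
  have hB : EE lb (fun s => |s| ^ p) = EE l (fun s => |s.1| ^ p) := by
    rw [hlb, EE_map]; rfl
  have hR : EE lr (fun s => |s| ^ p) = EE l (fun s => |s.2 - s.1| ^ p) := by
    rw [hlr, EE_map]; rfl
  have hmb : mass p lb = κ := by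
    rw [← hmass, mass, hlb, List.map_map]; rfl
  have hab : act lb ≤ κ * Λ := by
    refine le_trans (le_of_eq ?_) hact
    rw [act, hlb, List.filter_map, List.map_map]; rfl
  have hmr : mass p lr ≤ κ * ε := by
    refine le_trans (le_of_eq ?_) herrp
    rw [mass, hlr, List.map_map]; rfl
  have hqr : qmass lr ≤ κ * Λ := by
    refine le_trans (le_of_eq ?_) herr2
    rw [qmass, hlr, List.map_map]; rfl
  have hRle := hC₁' Λ hΛ κ hκ hκ₁ lr hlr' hmr hqr
  rw [hR] at hRle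
  have hBlow := lower hp1.le lb hlb'
  rw [hmb, hB] at hBlow
  have hBup := upper_main hp1.le ht0 lb hlb'
  rw [hmb, hB, hT, ← hM] at hBup
  set U := EE l (fun s => |s.2| ^ p) with hU
  set B := EE l (fun s => |s.1| ^ p) with hBdef
  set R := EE l (fun s => |s.2 - s.1| ^ p) with hRdef
  have hU0 : 0 ≤ U := EE_nonneg hl (fun s => Real.rpow_nonneg (abs_nonneg _) _)
  have hMR : M * R ≤ x * κ := by
    calc M * R ≤ M * (Cp * (κ * ε)) := mul_le_mul_of_nonneg_left hRle hM0.le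
      _ = x * κ := by rw [hε]; field_simp
  have c1 : U ≤ (1 + x) * B + M * R := by
    have h := EE_mono hl (fun s : ℝ × ℝ => abs_add_rpow_le_weighted s.1 (s.2 - s.1) hp1.le ht0)
    rw [EE_add, EE_const_mul, EE_const_mul, hT, ← hM] at h
    have e : ∀ s : ℝ × ℝ, s.1 + (s.2 - s.1) = s.2 := fun s => by ring
    simp only [e] at h
    exact h
  have c2 : B ≤ (1 + x) * U + M * R := by
    have h := EE_mono hl (fun s : ℝ × ℝ => abs_add_rpow_le_weighted s.2 (-(s.2 - s.1)) hp1.le ht0)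
    rw [EE_add, EE_const_mul, EE_const_mul, hT, ← hM] at h
    have e : ∀ s : ℝ × ℝ, s.2 + -(s.2 - s.1) = s.1 := fun s => by ring
    simp only [e, abs_neg] at h
    exact h
  have hexp : Real.exp (M * act lb) ≤ 1 + x := by
    have h1 : M * act lb ≤ Real.log (1 + x) := by
      calc M * act lb ≤ M * (κ * Λ) := mul_le_mul_of_nonneg_left hab hM0.le
        _ ≤ M * δ := mul_le_mul_of_nonneg_left s2 hM0.le
        _ = Real.log (1 + x) := by rw [hδ]; field_simp
    calc Real.exp (M * act lb) ≤ Real.exp (Real.log (1 + x)) := Real.exp_le_exp.2 h1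
      _ = 1 + x := Real.exp_log (by linarith)
  have hBup' : B ≤ (1 + x) * ((1 + x) * κ) :=
    hBup.trans (mul_le_mul_of_nonneg_right hexp (by positivity))
  have hBlow' : (1 - x) * κ ≤ B := by
    refine le_trans ?_ hBlow
    apply mul_le_mul_of_nonneg_right _ hκ.le
    linarith
  have hηx : η = 8 * x := by rw [hx]; ring
  rw [hηx]
  exact final_arith hx0 hx1 hκ hMR c1 c2 hBup' hBlow'

end Crest.Agent.R232
end

-- ▼ part R232/T7c
section

/-! R232 T7c: exponential moments (helper507). -/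

set_option autoImplicit false

namespace Crest.Agent.R232

theorem EE_add' {V : Type*} [AddCommGroup V] (l : List (ℝ × V)) (f g : V → ℝ) :
    EE l (fun s => f s + g s) = EE l f + EE l g := by
  induction l generalizing f g with
  | nil => rfl
  | cons x l ih =>
    obtain ⟨q, a⟩ := x
    simp only [EE]
    rw [ih, ih, ih]
    ring

theorem EE_const_mul' {V : Type*} [AddCommGroup V] (l : List (ℝ × V)) (c : ℝ) (f : V → ℝ) :
    EE l (fun s => c * f s) = c * EE l f := by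
  induction l generalizing f with
  | nil => rfl
  | cons x l ih =>
    obtain ⟨q, a⟩ := x
    simp only [EE]
    rw [ih, ih, ih]
    ring

theorem cosh_le_one_add_sq {x : ℝ} (hx : |x| ≤ 1) : Real.cosh x ≤ 1 + x ^ 2 := by
  have h1 := Real.cosh_le_exp_half_sq x
  have h2 : |x ^ 2 / 2| ≤ 1 := by
    rw [abs_of_nonneg (by positivity)]
    have : x ^ 2 ≤ 1 := by
      rw [← sq_abs]
      exact pow_le_one₀ (abs_nonneg x) hx
    linarith
  have h3 := Real.abs_exp_sub_one_le h2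
  rw [abs_of_nonneg (by positivity : (0:ℝ) ≤ x ^ 2 / 2)] at h3
  have h4 := le_abs_self (Real.exp (x ^ 2 / 2) - 1)
  linarith

/-- T7c: exponential moments. -/
theorem cosh_moment (l : List (ℝ × ℝ)) (hl : ∀ x ∈ l, 0 ≤ x.1 ∧ x.1 ≤ 1) (t : ℝ)
    (ht : ∀ x ∈ l, |t * x.2| ≤ 1) :
    EE l (fun s => Real.cosh (t * s)) ≤ Real.exp (t ^ 2 * (l.map fun x => x.1 * x.2 ^ 2).sum) := by
  induction l with
  | nil => simp [EE]
  | cons x l ih =>
    obtain ⟨q, a⟩ := x
    have ih' := ih (fun x hx => hl x (List.mem_cons_of_mem _ hx))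
      (fun x hx => ht x (List.mem_cons_of_mem _ hx))
    have hq := hl (q, a) (by simp)
    have ha := ht (q, a) (by simp)
    simp only at hq ha
    have key : EE ((q, a) :: l) (fun s => Real.cosh (t * s)) =
        (1 - q + q * Real.cosh (t * a)) * EE l (fun s => Real.cosh (t * s)) := by
      simp only [EE]
      have h1 : EE l (fun s => Real.cosh (t * (s + a))) + EE l (fun s => Real.cosh (t * (s - a))) =
          2 * Real.cosh (t * a) * EE l (fun s => Real.cosh (t * s)) := by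
        rw [← EE_add', ← EE_const_mul']
        congr 1
        funext s
        rw [mul_add, mul_sub, Real.cosh_add, Real.cosh_sub]
        ring
      linear_combination (q / 2) * h1
    have h0 : 0 ≤ 1 - q + q * Real.cosh (t * a) := by
      have := Real.cosh_pos (t * a)
      have := mul_nonneg hq.1 this.le
      linarith [hq.2]
    have h2 : 1 - q + q * Real.cosh (t * a) ≤ Real.exp (t ^ 2 * (q * a ^ 2)) := by
      have h3 := cosh_le_one_add_sq ha
      have h4 := Real.add_one_le_exp (t ^ 2 * (q * a ^ 2))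
      have h5 := mul_le_mul_of_nonneg_left h3 hq.1
      nlinarith
    rw [key]
    simp only [List.map_cons, List.sum_cons]
    rw [mul_add, Real.exp_add]
    exact (mul_le_mul_of_nonneg_left ih' h0).trans (mul_le_mul_of_nonneg_right h2 (Real.exp_pos _).le)

end Crest.Agent.R232
end

-- ▼ part R232/EE
section

/-! Basic facts on the expectation `EE l g` (R232). -/

set_option autoImplicit false

open Finset

namespace Crest.Agent.R232

variable {V : Type*} [AddCommGroup V]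

@[simp] theorem EE_nil (g : V → ℝ) : EE ([] : List (ℝ × V)) g = g 0 := rfl

theorem EE_cons (q : ℝ) (a : V) (l : List (ℝ × V)) (g : V → ℝ) :
    EE ((q, a) :: l) g =
      (1 - q) * EE l g + q / 2 * EE l (fun s => g (s + a)) + q / 2 * EE l (fun s => g (s - a)) :=
  rfl

theorem EE_const (l : List (ℝ × V)) (c : ℝ) : EE l (fun _ => c) = c := by
  induction l with
  | nil => rfl
  | cons x l ih =>
    obtain ⟨q, a⟩ := x
    rw [EE_cons, ih]; ring

theorem EE_add (l : List (ℝ × V)) : ∀ (g h : V → ℝ),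
    EE l (fun s => g s + h s) = EE l g + EE l h := by
  induction l with
  | nil => intro g h; rfl
  | cons x l ih =>
    intro g h
    obtain ⟨q, a⟩ := x
    rw [EE_cons, EE_cons, EE_cons, ih g h, ih (fun s => g (s + a)) (fun s => h (s + a)),
      ih (fun s => g (s - a)) (fun s => h (s - a))]
    ring

theorem EE_smul (l : List (ℝ × V)) (c : ℝ) : ∀ (g : V → ℝ),
    EE l (fun s => c * g s) = c * EE l g := by
  induction l with
  | nil => intro g; rfl
  | cons x l ih =>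
    intro g
    obtain ⟨q, a⟩ := x
    rw [EE_cons, EE_cons, ih g, ih (fun s => g (s + a)), ih (fun s => g (s - a))]
    ring

theorem EE_mul_const (l : List (ℝ × V)) (c : ℝ) (g : V → ℝ) :
    EE l (fun s => g s * c) = EE l g * c := by
  have := EE_smul l c g
  simp only [mul_comm] at this ⊢
  exact this

theorem EE_neg (l : List (ℝ × V)) (g : V → ℝ) : EE l (fun s => - g s) = - EE l g := by
  have := EE_smul l (-1) g
  simpa using this

theorem EE_sub (l : List (ℝ × V)) (g h : V → ℝ) :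
    EE l (fun s => g s - h s) = EE l g - EE l h := by
  have h1 := EE_add l g (fun s => - h s)
  rw [EE_neg] at h1
  simpa [sub_eq_add_neg] using h1

theorem EE_sum (l : List (ℝ × V)) {E : Type*} (t : Finset E) (g : E → V → ℝ) :
    EE l (fun s => ∑ e ∈ t, g e s) = ∑ e ∈ t, EE l (g e) := by
  classical
  induction t using Finset.induction_on with
  | empty => simpa using EE_const l 0
  | insert e t he ih =>
    rw [Finset.sum_insert he, ← ih, ← EE_add]
    congr 1
    funext s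
    rw [Finset.sum_insert he]

theorem EE_mono (l : List (ℝ × V)) (hl : ∀ x ∈ l, 0 ≤ x.1 ∧ x.1 ≤ 1) : ∀ (g h : V → ℝ),
    (∀ s, g s ≤ h s) → EE l g ≤ EE l h := by
  induction l with
  | nil => intro g h hgh; exact hgh 0
  | cons x l ih =>
    intro g h hgh
    obtain ⟨q, a⟩ := x
    have hq := hl (q, a) (by simp)
    have ih' := ih (fun y hy => hl y (by simp [hy]))
    rw [EE_cons, EE_cons]
    have h1 := ih' g h hgh
    have h2 := ih' (fun s => g (s + a)) (fun s => h (s + a)) (fun s => hgh _)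
    have h3 := ih' (fun s => g (s - a)) (fun s => h (s - a)) (fun s => hgh _)
    have e1 := mul_le_mul_of_nonneg_left h1 (by linarith [hq.2] : (0:ℝ) ≤ 1 - q)
    have e2 := mul_le_mul_of_nonneg_left h2 (by linarith [hq.1] : (0:ℝ) ≤ q / 2)
    have e3 := mul_le_mul_of_nonneg_left h3 (by linarith [hq.1] : (0:ℝ) ≤ q / 2)
    linarith

theorem EE_nonneg (l : List (ℝ × V)) (hl : ∀ x ∈ l, 0 ≤ x.1 ∧ x.1 ≤ 1) (g : V → ℝ)
    (hg : ∀ s, 0 ≤ g s) : 0 ≤ EE l g := by
  have := EE_mono l hl (fun _ => 0) g hg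
  rwa [EE_const] at this

theorem EE_exists_le (l : List (ℝ × V)) (hl : ∀ x ∈ l, 0 ≤ x.1 ∧ x.1 ≤ 1) (g : V → ℝ) :
    ∃ s, g s ≤ EE l g := by
  revert g
  induction l with
  | nil => intro g; exact ⟨0, le_refl _⟩
  | cons x l ih =>
    intro g
    obtain ⟨q, a⟩ := x
    have hq := hl (q, a) (by simp)
    have ih' := ih (fun y hy => hl y (by simp [hy]))
    obtain ⟨s1, h1⟩ := ih' g
    obtain ⟨s2, h2⟩ := ih' (fun s => g (s + a))
    obtain ⟨s3, h3⟩ := ih' (fun s => g (s - a))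
    by_contra hcon
    push Not at hcon
    have k1 := hcon s1
    have k2 := hcon (s2 + a)
    have k3 := hcon (s3 - a)
    rw [EE_cons] at k1 k2 k3 hcon
    set A := EE l g
    set B := EE l (fun s => g (s + a))
    set C := EE l (fun s => g (s - a))
    have hA : (1 - q) * A + q / 2 * B + q / 2 * C < A := lt_of_lt_of_le k1 h1
    have hB : (1 - q) * A + q / 2 * B + q / 2 * C < B := lt_of_lt_of_le k2 h2
    have hC : (1 - q) * A + q / 2 * B + q / 2 * C < C := lt_of_lt_of_le k3 h3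
    have e1 := mul_le_mul_of_nonneg_left hA.le (by linarith [hq.2] : (0:ℝ) ≤ 1 - q)
    have e2 := mul_le_mul_of_nonneg_left hB.le (by linarith [hq.1] : (0:ℝ) ≤ q / 2)
    have e3 := mul_le_mul_of_nonneg_left hC.le (by linarith [hq.1] : (0:ℝ) ≤ q / 2)
    rcases lt_or_eq_of_le hq.2 with hlt | heq
    · have e1' := mul_lt_mul_of_pos_left hA (by linarith : (0:ℝ) < 1 - q)
      nlinarith
    · simp only at heq
      subst heq
      have e2' := mul_lt_mul_of_pos_left hB (by norm_num : (0:ℝ) < 1 / 2)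
      nlinarith

theorem EE_map {W : Type*} [AddCommGroup W] (A : V →+ W) (l : List (ℝ × V)) : ∀ (g : W → ℝ),
    EE (l.map fun x => (x.1, A x.2)) g = EE l (fun s => g (A s)) := by
  induction l with
  | nil => intro g; simp
  | cons x l ih =>
    intro g
    obtain ⟨q, a⟩ := x
    rw [List.map_cons, EE_cons, EE_cons, ih, ih, ih]
    simp only [map_add, map_sub]

end Crest.Agent.R232
end

-- ▼ part R232/T8
section

/-! T8: sampling by a potential function (R232). -/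

set_option autoImplicit false

open Finset

namespace Crest.Agent.R232

section

variable {V : Type*} [AddCommGroup V] {E : Type*} [Fintype E]

/-- the potential -/
noncomputable def pot (t : ℝ) (Y : E → V → ℝ) (me : E → ℝ) (j : ℕ) (s : Fin j → V) : ℝ :=
  ∑ e, ((∏ i, (1 + t * Y e (s i))) * Real.exp (-(t * me e * j)) +
    (∏ i, (1 - t * Y e (s i))) * Real.exp (t * me e * j))

omit [AddCommGroup V] in
theorem pot_zero (t : ℝ) (Y : E → V → ℝ) (me : E → ℝ) (s : Fin 0 → V) :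
    pot t Y me 0 s = 2 * Fintype.card E := by
  simp only [pot, Finset.univ_eq_empty, Finset.prod_empty, Nat.cast_zero, mul_zero, neg_zero,
    Real.exp_zero, mul_one, Finset.sum_const, Finset.card_univ, nsmul_eq_mul]
  ring

omit [AddCommGroup V] in
theorem pot_pos (t : ℝ) (ht0 : 0 < t) (ht : t ≤ 1 / 2) (Y : E → V → ℝ) [Nonempty E]
    (hY0 : ∀ e s, 0 ≤ Y e s) (hY1 : ∀ e s, Y e s ≤ 1) (me : E → ℝ) (j : ℕ) (s : Fin j → V) :
    0 < pot t Y me j s := by
  apply Finset.sum_pos _ Finset.univ_nonempty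
  intro e _
  apply add_pos
  · apply mul_pos _ (Real.exp_pos _)
    apply Finset.prod_pos
    intro i _
    have := mul_nonneg ht0.le (hY0 e (s i))
    linarith
  · apply mul_pos _ (Real.exp_pos _)
    apply Finset.prod_pos
    intro i _
    have := mul_le_mul_of_nonneg_left (hY1 e (s i)) ht0.le
    linarith

theorem sampling_step (l : List (ℝ × V))
    (hl : ∀ x ∈ l, 0 ≤ x.1 ∧ x.1 ≤ 1) [Nonempty E] (Y : E → V → ℝ)
    (hY0 : ∀ e s, 0 ≤ Y e s) (hY1 : ∀ e s, Y e s ≤ 1) (b : V → ℝ) (hb : ∀ s, 0 ≤ b s)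
    (t : ℝ) (ht0 : 0 < t) (ht : t ≤ 1 / 2) (hβ : EE l b ≤ 1 / 4)
    (j : ℕ) (s : Fin j → V) :
    ∃ x : V, b x < 1 ∧
      pot t Y (fun e => EE l (Y e)) (j + 1) (Fin.snoc (α := fun _ => V) s x) ≤
        (1 + 2 * EE l b) * pot t Y (fun e => EE l (Y e)) j s := by
  set me : E → ℝ := fun e => EE l (Y e) with hme
  set P := pot t Y me j s with hP
  have hPpos : 0 < P := pot_pos t ht0 ht Y hY0 hY1 me j s
  set u : E → ℝ := fun e => (∏ i, (1 + t * Y e (s i))) * Real.exp (-(t * me e * j)) with hu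
  set w : E → ℝ := fun e => (∏ i, (1 - t * Y e (s i))) * Real.exp (t * me e * j) with hw
  have hu0 : ∀ e, 0 ≤ u e := by
    intro e
    apply mul_nonneg _ (Real.exp_pos _).le
    apply Finset.prod_nonneg
    intro i _
    have := mul_nonneg ht0.le (hY0 e (s i))
    linarith
  have hw0 : ∀ e, 0 ≤ w e := by
    intro e
    apply mul_nonneg _ (Real.exp_pos _).le
    apply Finset.prod_nonneg
    intro i _
    have := mul_le_mul_of_nonneg_left (hY1 e (s i)) ht0.le
    linarith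
  have hsnoc : ∀ x, pot t Y me (j + 1) (Fin.snoc (α := fun _ => V) s x) =
      ∑ e, (u e * Real.exp (-(t * me e)) * (1 + t * Y e x) +
        w e * Real.exp (t * me e) * (1 - t * Y e x)) := by
    intro x
    unfold pot
    apply Finset.sum_congr rfl
    intro e _
    rw [Fin.prod_univ_castSucc, Fin.prod_univ_castSucc]
    simp only [Fin.snoc_castSucc, Fin.snoc_last]
    have e1 : Real.exp (-(t * me e * ((j + 1 : ℕ) : ℝ))) =
        Real.exp (-(t * me e * j)) * Real.exp (-(t * me e)) := by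
      rw [← Real.exp_add]; congr 1; push_cast; ring
    have e2 : Real.exp (t * me e * ((j + 1 : ℕ) : ℝ)) =
        Real.exp (t * me e * j) * Real.exp (t * me e) := by
      rw [← Real.exp_add]; congr 1; push_cast; ring
    rw [e1, e2]
    simp only [hu, hw]
    ring
  have hexp : EE l (fun x => pot t Y me (j + 1) (Fin.snoc (α := fun _ => V) s x)) ≤ P := by
    simp only [hsnoc]
    rw [EE_sum]
    have hPsum : P = ∑ e, (u e + w e) := by rw [hP]; rfl
    rw [hPsum]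
    apply Finset.sum_le_sum
    intro e _
    rw [EE_add, EE_smul, EE_smul, EE_add, EE_sub, EE_const, EE_smul]
    have h1 : 1 + t * me e ≤ Real.exp (t * me e) := by
      have := Real.add_one_le_exp (t * me e); linarith
    have h2 : 1 - t * me e ≤ Real.exp (-(t * me e)) := by
      have := Real.add_one_le_exp (-(t * me e)); linarith
    have hpos1 : 0 < Real.exp (-(t * me e)) := Real.exp_pos _
    have hpos2 : 0 < Real.exp (t * me e) := Real.exp_pos _
    have hmul : Real.exp (-(t * me e)) * Real.exp (t * me e) = 1 := by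
      rw [← Real.exp_add]; simp
    have k1 : u e * Real.exp (-(t * me e)) * (1 + t * me e) ≤ u e := by
      calc u e * Real.exp (-(t * me e)) * (1 + t * me e)
          ≤ u e * Real.exp (-(t * me e)) * Real.exp (t * me e) :=
            mul_le_mul_of_nonneg_left h1 (mul_nonneg (hu0 e) hpos1.le)
        _ = u e := by rw [mul_assoc, hmul, mul_one]
    have k2 : w e * Real.exp (t * me e) * (1 - t * me e) ≤ w e := by
      calc w e * Real.exp (t * me e) * (1 - t * me e)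
          ≤ w e * Real.exp (t * me e) * Real.exp (-(t * me e)) :=
            mul_le_mul_of_nonneg_left h2 (mul_nonneg (hw0 e) hpos2.le)
        _ = w e := by rw [mul_assoc, mul_comm (Real.exp (t * me e)), hmul, mul_one]
    exact add_le_add k1 k2
  obtain ⟨x, hx⟩ := EE_exists_le l hl
    (fun x => pot t Y me (j + 1) (Fin.snoc (α := fun _ => V) s x) * P⁻¹ + 2 * b x)
  rw [EE_add, EE_mul_const, EE_smul] at hx
  have hle : EE l (fun x => pot t Y me (j + 1) (Fin.snoc (α := fun _ => V) s x)) * P⁻¹ ≤ 1 := by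
    rw [← div_eq_mul_inv, div_le_one hPpos]; exact hexp
  have hx2 : pot t Y me (j + 1) (Fin.snoc (α := fun _ => V) s x) * P⁻¹ + 2 * b x ≤
      1 + 2 * EE l b := by linarith
  have hpp : 0 < pot t Y me (j + 1) (Fin.snoc (α := fun _ => V) s x) * P⁻¹ :=
    mul_pos (pot_pos t ht0 ht Y hY0 hY1 me _ _) (inv_pos.mpr hPpos)
  refine ⟨x, by linarith, ?_⟩
  have hbx := hb x
  have h3 : pot t Y me (j + 1) (Fin.snoc (α := fun _ => V) s x) * P⁻¹ ≤ 1 + 2 * EE l b := by
    linarith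
  rwa [← div_eq_mul_inv, div_le_iff₀ hPpos] at h3

theorem sampling_iter (l : List (ℝ × V))
    (hl : ∀ x ∈ l, 0 ≤ x.1 ∧ x.1 ≤ 1) [Nonempty E] (Y : E → V → ℝ)
    (hY0 : ∀ e s, 0 ≤ Y e s) (hY1 : ∀ e s, Y e s ≤ 1) (b : V → ℝ) (hb : ∀ s, 0 ≤ b s)
    (t : ℝ) (ht0 : 0 < t) (ht : t ≤ 1 / 2) (hβ : EE l b ≤ 1 / 4) (j : ℕ) :
    ∃ s : Fin j → V, (∀ i, b (s i) < 1) ∧
      pot t Y (fun e => EE l (Y e)) j s ≤ (1 + 2 * EE l b) ^ j * (2 * Fintype.card E) := by
  induction j with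
  | zero => exact ⟨Fin.elim0, fun i => i.elim0, by rw [pot_zero]; simp⟩
  | succ j ih =>
    obtain ⟨s, hs1, hs2⟩ := ih
    obtain ⟨x, hx1, hx2⟩ := sampling_step l hl Y hY0 hY1 b hb t ht0 ht hβ j s
    refine ⟨Fin.snoc (α := fun _ => V) s x, ?_, ?_⟩
    · intro i
      refine Fin.lastCases ?_ (fun i => ?_) i
      · simpa using hx1
      · simpa using hs1 i
    · refine hx2.trans ?_
      have h0 : 0 ≤ 1 + 2 * EE l b := by
        have := EE_nonneg l hl b hb
        linarith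
      calc (1 + 2 * EE l b) * pot t Y (fun e => EE l (Y e)) j s
          ≤ (1 + 2 * EE l b) * ((1 + 2 * EE l b) ^ j * (2 * Fintype.card E)) :=
            mul_le_mul_of_nonneg_left hs2 h0
        _ = (1 + 2 * EE l b) ^ (j + 1) * (2 * Fintype.card E) := by ring

end

theorem log_one_add_ge {x : ℝ} (hx : 0 ≤ x) : x - x ^ 2 / 2 ≤ Real.log (1 + x) := by
  rw [Real.le_log_iff_exp_le (by linarith)]
  -- exp (x - x²/2) ≤ 1 + x
  have hmono : MonotoneOn (fun y : ℝ => (1 + y) * Real.exp (-(y - y ^ 2 / 2))) (Set.Ici 0) := by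
    apply monotoneOn_of_deriv_nonneg (convex_Ici 0)
    · fun_prop
    · fun_prop
    · intro y hy
      rw [interior_Ici] at hy
      have hd : HasDerivAt (fun y : ℝ => (1 + y) * Real.exp (-(y - y ^ 2 / 2)))
          (1 * Real.exp (-(y - y ^ 2 / 2)) +
            (1 + y) * (Real.exp (-(y - y ^ 2 / 2)) * (-(1 - (2 * y) / 2)))) y := by
        have h1 : HasDerivAt (fun y : ℝ => 1 + y) 1 y := by
          simpa using (hasDerivAt_id y).const_add 1
        have h2 : HasDerivAt (fun y : ℝ => -(y - y ^ 2 / 2)) (-(1 - (2 * y) / 2)) y := by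
          have h3 : HasDerivAt (fun y : ℝ => y ^ 2 / 2) ((2 * y) / 2) y := by
            have := (hasDerivAt_pow 2 y).div_const 2
            simpa using this
          exact ((hasDerivAt_id y).sub h3).neg
        exact h1.mul h2.exp
      rw [hd.deriv]
      have hy0 : (0:ℝ) < y := hy
      have : 1 * Real.exp (-(y - y ^ 2 / 2)) +
            (1 + y) * (Real.exp (-(y - y ^ 2 / 2)) * (-(1 - (2 * y) / 2))) =
          Real.exp (-(y - y ^ 2 / 2)) * y ^ 2 := by ring
      rw [this]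
      positivity
  have h := hmono (Set.mem_Ici.mpr le_rfl) (Set.mem_Ici.mpr hx) hx
  simp only [add_zero, one_mul] at h
  have h0 : Real.exp (-((0:ℝ) - 0 ^ 2 / 2)) = 1 := by norm_num
  rw [h0] at h
  have hpos : 0 < Real.exp (x - x ^ 2 / 2) := Real.exp_pos _
  have hmul : Real.exp (-(x - x ^ 2 / 2)) * Real.exp (x - x ^ 2 / 2) = 1 := by
    rw [← Real.exp_add]; simp
  calc Real.exp (x - x ^ 2 / 2) = 1 * Real.exp (x - x ^ 2 / 2) := by ring
    _ ≤ ((1 + x) * Real.exp (-(x - x ^ 2 / 2))) * Real.exp (x - x ^ 2 / 2) :=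
        mul_le_mul_of_nonneg_right h hpos.le
    _ = 1 + x := by rw [mul_assoc, hmul, mul_one]

theorem neg_log_one_sub_le {x : ℝ} (hx : 0 ≤ x) (hx2 : x ≤ 1 / 2) :
    - Real.log (1 - x) ≤ x + x ^ 2 := by
  have h1 : 0 < 1 - x := by linarith
  rw [neg_le, Real.le_log_iff_exp_le h1]
  -- exp (-(x + x²)) ≤ 1 - x
  have h2 : Real.exp (-(x + x ^ 2)) = (Real.exp (x + x ^ 2))⁻¹ := Real.exp_neg _
  rw [h2, inv_le_comm₀ (Real.exp_pos _) h1]
  have hq := Real.quadratic_le_exp_of_nonneg (x := x + x ^ 2) (by positivity)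
  refine le_trans ?_ hq
  rw [inv_le_iff_one_le_mul₀ h1]
  have : (1 + (x + x ^ 2) + (x + x ^ 2) ^ 2 / 2) * (1 - x) - 1 =
    x ^ 2 * (1 / 2 - (1/2) * x ^ 1 - (1/2) * x ^ 2 - (1/2) * x ^ 3) := by ring
  have h3 : 0 ≤ x ^ 2 * (1 / 2 - (1/2) * x ^ 1 - (1/2) * x ^ 2 - (1/2) * x ^ 3) := by
    apply mul_nonneg (sq_nonneg x)
    nlinarith [mul_nonneg hx hx, mul_nonneg (mul_nonneg hx hx) hx, mul_nonneg hx (sub_nonneg.mpr hx2),
      mul_nonneg (mul_nonneg hx hx) (sub_nonneg.mpr hx2)]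
  linarith

set_option maxHeartbeats 1000000 in
/-- T8: sampling (derandomised Chernoff bound by a potential function). -/
theorem sampling {V : Type*} [AddCommGroup V] (l : List (ℝ × V))
    (hl : ∀ x ∈ l, 0 ≤ x.1 ∧ x.1 ≤ 1) {E : Type*} [Fintype E] [Nonempty E] (Y : E → V → ℝ)
    (hY0 : ∀ e s, 0 ≤ Y e s) (hY1 : ∀ e s, Y e s ≤ 1) (b : V → ℝ) (hb : ∀ s, 0 ≤ b s)
    (η : ℝ) (hη : 0 < η) (hη1 : η ≤ 1) (m : ℝ) (hm : 0 < m) (hmY : ∀ e, m ≤ EE l (Y e))
    (D : ℕ) (hD0 : 0 < D) (hD : 4 * Real.log (4 * Fintype.card E) / (η ^ 2 * m) ≤ D)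
    (hbD : EE l b ≤ 1 / (4 * D)) :
    ∃ s : Fin D → V, (∀ j, b (s j) < 1) ∧ ∀ e,
      (1 - η) * (D * EE l (Y e)) ≤ ∑ j, Y e (s j) ∧
        ∑ j, Y e (s j) ≤ (1 + η) * (D * EE l (Y e)) := by
  have hD1 : (1:ℝ) ≤ D := by exact_mod_cast hD0
  have hDpos : (0:ℝ) < D := by linarith
  have hb0 : 0 ≤ EE l b := EE_nonneg l hl b hb
  have hβ : EE l b ≤ 1 / 4 := by
    refine hbD.trans ?_
    apply one_div_le_one_div_of_le (by norm_num)
    linarith
  set t := η / 2 with ht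
  have ht0 : 0 < t := by positivity
  have ht2 : t ≤ 1 / 2 := by rw [ht]; linarith
  obtain ⟨s, hs1, hs2⟩ := sampling_iter l hl Y hY0 hY1 b hb t ht0 ht2 hβ D
  refine ⟨s, hs1, ?_⟩
  have hcard : (1:ℝ) ≤ Fintype.card E := by exact_mod_cast Fintype.card_pos
  -- bound of the final potential
  have hpot : pot t Y (fun e => EE l (Y e)) D s ≤ 4 * Fintype.card E := by
    refine hs2.trans ?_
    have h1 : (1 + 2 * EE l b) ^ D ≤ 2 := by
      have h2 : (1 + 2 * EE l b) ^ D ≤ Real.exp (1 / 2) := by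
        calc (1 + 2 * EE l b) ^ D ≤ (Real.exp (2 * EE l b)) ^ D := by
              apply pow_le_pow_left₀ (by linarith)
              have := Real.add_one_le_exp (2 * EE l b); linarith
          _ = Real.exp (D * (2 * EE l b)) := by rw [← Real.exp_nat_mul]
          _ ≤ Real.exp (1 / 2) := by
              apply Real.exp_le_exp.mpr
              have h3 : (D:ℝ) * EE l b ≤ D * (1 / (4 * D)) := mul_le_mul_of_nonneg_left hbD hDpos.le
              have h4 : (D:ℝ) * (1 / (4 * D)) = 1 / 4 := by field_simp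
              linarith
      have h5 : Real.exp (1 / 2) ≤ 2 := by
        have h6 : Real.exp (1 / 2) ^ 2 = Real.exp 1 := by
          rw [← Real.exp_nat_mul]; norm_num
        have h7 := Real.exp_one_lt_d9
        have h8 : Real.exp (1/2) ^ 2 ≤ 2 ^ 2 := by rw [h6]; linarith
        exact le_of_sq_le_sq h8 (by norm_num)
      linarith
    calc (1 + 2 * EE l b) ^ D * (2 * (Fintype.card E : ℝ)) ≤ 2 * (2 * Fintype.card E) := by
          apply mul_le_mul_of_nonneg_right h1; positivity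
      _ = 4 * Fintype.card E := by ring
  intro e
  set me := EE l (Y e) with hme
  have hme0 : 0 < me := lt_of_lt_of_le hm (hmY e)
  set Lg := Real.log (4 * Fintype.card E) with hLg
  have hLg0 : 0 < 4 * (Fintype.card E : ℝ) := by positivity
  -- each of the two products is bounded
  have hterm : (∏ i, (1 + t * Y e (s i))) * Real.exp (-(t * me * D)) +
      (∏ i, (1 - t * Y e (s i))) * Real.exp (t * me * D) ≤ 4 * Fintype.card E := by
    refine le_trans ?_ hpot
    unfold pot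
    refine Finset.single_le_sum (f := fun e => ((∏ i, (1 + t * Y e (s i))) *
      Real.exp (-(t * EE l (Y e) * D)) + (∏ i, (1 - t * Y e (s i))) *
      Real.exp (t * EE l (Y e) * D))) ?_ (Finset.mem_univ e)
    intro e' _
    apply add_nonneg
    · apply mul_nonneg _ (Real.exp_pos _).le
      apply Finset.prod_nonneg
      intro i _
      have := mul_nonneg ht0.le (hY0 e' (s i))
      linarith
    · apply mul_nonneg _ (Real.exp_pos _).le
      apply Finset.prod_nonneg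
      intro i _
      have := mul_le_mul_of_nonneg_left (hY1 e' (s i)) ht0.le
      linarith
  have hA0 : 0 < ∏ i, (1 + t * Y e (s i)) := by
    apply Finset.prod_pos
    intro i _
    have := mul_nonneg ht0.le (hY0 e (s i))
    linarith
  have hB0 : 0 < ∏ i, (1 - t * Y e (s i)) := by
    apply Finset.prod_pos
    intro i _
    have := mul_le_mul_of_nonneg_left (hY1 e (s i)) ht0.le
    linarith
  have hA : (∏ i, (1 + t * Y e (s i))) * Real.exp (-(t * me * D)) ≤ 4 * Fintype.card E := by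
    have := mul_pos hB0 (Real.exp_pos (t * me * D))
    linarith
  have hB : (∏ i, (1 - t * Y e (s i))) * Real.exp (t * me * D) ≤ 4 * Fintype.card E := by
    have := mul_pos hA0 (Real.exp_pos (-(t * me * D)))
    linarith
  have hA' : ∑ i, Real.log (1 + t * Y e (s i)) ≤ t * me * D + Lg := by
    have h1 := Real.log_le_log (mul_pos hA0 (Real.exp_pos _)) hA
    rw [Real.log_mul hA0.ne' (Real.exp_pos _).ne', Real.log_exp, Real.log_prod] at h1
    · linarith
    · intro i _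
      have := mul_nonneg ht0.le (hY0 e (s i))
      linarith
  have hB' : ∑ i, Real.log (1 - t * Y e (s i)) ≤ - (t * me * D) + Lg := by
    have h1 := Real.log_le_log (mul_pos hB0 (Real.exp_pos _)) hB
    rw [Real.log_mul hB0.ne' (Real.exp_pos _).ne', Real.log_exp, Real.log_prod] at h1
    · linarith
    · intro i _
      have := mul_le_mul_of_nonneg_left (hY1 e (s i)) ht0.le
      have h2 : 0 < 1 - t * Y e (s i) := by linarith
      exact h2.ne'
  -- the size of `log` with respect to `η`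
  have hLgD : Lg ≤ η ^ 2 * me * D / 4 := by
    have h1 : 4 * Lg ≤ D * (η ^ 2 * m) := by
      rwa [div_le_iff₀ (by positivity)] at hD
    have h2 : (D:ℝ) * (η ^ 2 * m) ≤ D * (η ^ 2 * me) := by
      apply mul_le_mul_of_nonneg_left _ hDpos.le
      apply mul_le_mul_of_nonneg_left (hmY e) (by positivity)
    linarith
  set S := ∑ j, Y e (s j) with hS
  have hS0 : 0 ≤ S := Finset.sum_nonneg fun i _ => hY0 e (s i)
  have hlow : t * (1 - t / 2) * S ≤ ∑ i, Real.log (1 + t * Y e (s i)) := by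
    rw [hS, Finset.mul_sum]
    apply Finset.sum_le_sum
    intro i _
    have hy0 := hY0 e (s i)
    have hy1 := hY1 e (s i)
    have h1 := log_one_add_ge (x := t * Y e (s i)) (by positivity)
    refine le_trans ?_ h1
    nlinarith [mul_nonneg hy0 (sub_nonneg.mpr hy1), mul_pos ht0 ht0]
  have hup : - ∑ i, Real.log (1 - t * Y e (s i)) ≤ t * (1 + t) * S := by
    rw [hS, Finset.mul_sum, ← Finset.sum_neg_distrib]
    apply Finset.sum_le_sum
    intro i _
    have hy0 := hY0 e (s i)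
    have hy1 := hY1 e (s i)
    have hxt : t * Y e (s i) ≤ 1 / 2 := by
      have := mul_le_mul_of_nonneg_left hy1 ht0.le
      linarith
    have h1 := neg_log_one_sub_le (x := t * Y e (s i)) (by positivity) hxt
    refine le_trans h1 ?_
    nlinarith [mul_nonneg hy0 (sub_nonneg.mpr hy1), mul_pos ht0 ht0]
  have hDm : 0 < D * me := by positivity
  constructor
  · -- lower bound
    have h1 : t * me * D - Lg ≤ t * (1 + t) * S := by linarith
    have h2 : t * me * D - η ^ 2 * me * D / 4 ≤ t * (1 + t) * S := by linarith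
    have hηt : η = 2 * t := by rw [ht]; ring
    have h3 : t * ((1 - t) * (D * me)) ≤ t * ((1 + t) * S) := by
      rw [hηt] at h2
      have e1 : t * ((1 - t) * (D * me)) = t * me * D - (2 * t) ^ 2 * me * D / 4 := by ring
      have e2 : t * ((1 + t) * S) = t * (1 + t) * S := by ring
      rw [e1, e2]; exact h2
    have h4 : (1 - t) * (D * me) ≤ (1 + t) * S := le_of_mul_le_mul_left h3 ht0
    rw [hηt]
    by_contra hcon
    push Not at hcon
    have h5 : (1 + t) * S < (1 + t) * ((1 - 2 * t) * (D * me)) :=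
      mul_lt_mul_of_pos_left hcon (by linarith)
    have h6 : (1 - t) * (D * me) < (1 + t) * ((1 - 2 * t) * (D * me)) := lt_of_le_of_lt h4 h5
    have h7 : (1 + t) * ((1 - 2 * t) * (D * me)) = (1 - t - 2 * t ^ 2) * (D * me) := by ring
    rw [h7] at h6
    have h8 := lt_of_mul_lt_mul_right h6 hDm.le
    nlinarith [mul_pos ht0 ht0]
  · -- upper bound
    have h1 : t * (1 - t / 2) * S ≤ t * me * D + Lg := by linarith
    have h2 : t * (1 - t / 2) * S ≤ t * me * D + η ^ 2 * me * D / 4 := by linarith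
    have hηt : η = 2 * t := by rw [ht]; ring
    have h3 : t * ((1 - t / 2) * S) ≤ t * ((1 + t) * (D * me)) := by
      rw [hηt] at h2
      have e1 : t * ((1 - t / 2) * S) = t * (1 - t / 2) * S := by ring
      have e2 : t * ((1 + t) * (D * me)) = t * me * D + (2 * t) ^ 2 * me * D / 4 := by ring
      rw [e1, e2]; exact h2
    have h4 : (1 - t / 2) * S ≤ (1 + t) * (D * me) := le_of_mul_le_mul_left h3 ht0
    rw [hηt]
    by_contra hcon
    push Not at hcon
    have h5 : (1 - t / 2) * ((1 + 2 * t) * (D * me)) < (1 - t / 2) * S :=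
      mul_lt_mul_of_pos_left hcon (by linarith)
    have h6 := lt_of_lt_of_le h5 h4
    have h7 : (1 - t / 2) * ((1 + 2 * t) * (D * me)) = (1 + (3/2) * t - t ^ 2) * (D * me) := by ring
    rw [h7] at h6
    have h8 := lt_of_mul_lt_mul_right h6 hDm.le
    nlinarith [mul_pos ht0 ht0]

end Crest.Agent.R232
end

-- ▼ part R232/T9
section

/-! T9 (task 688): from the data of T6 to a map into `ℓ_p^D`. -/

set_option autoImplicit false

open Finset

namespace Crest.Agent.R232.T9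

open Crest.Agent.R232

/-! ### Basic facts on `EE` -/

section EE

variable {V : Type*} [AddCommGroup V]

theorem EE_mono (l : List (ℝ × V)) (hl : ∀ x ∈ l, 0 ≤ x.1 ∧ x.1 ≤ 1) {g g' : V → ℝ} (h : ∀ s, g s ≤ g' s) :
    EE l g ≤ EE l g' := by
  induction l generalizing g g' with
  | nil => exact h 0
  | cons x l ih =>
    obtain ⟨q, a⟩ := x
    have hq := hl (q, a) (List.mem_cons_self)
    have hl' : ∀ x ∈ l, 0 ≤ x.1 ∧ x.1 ≤ 1 := fun x hx => hl x (List.mem_cons_of_mem _ hx)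
    simp only [EE]
    simp only at hq
    have h1 := ih hl' h
    have h2 := ih hl' (g := fun s => g (s + a)) (g' := fun s => g' (s + a)) (fun s => h _)
    have h3 := ih hl' (g := fun s => g (s - a)) (g' := fun s => g' (s - a)) (fun s => h _)
    have h4 := mul_le_mul_of_nonneg_left h1 (sub_nonneg.2 hq.2)
    have h5 := mul_le_mul_of_nonneg_left h2 (half_pos_nonneg hq.1)
    have h6 := mul_le_mul_of_nonneg_left h3 (half_pos_nonneg hq.1)
    linarith
where
  half_pos_nonneg {q : ℝ} (h : 0 ≤ q) : 0 ≤ q / 2 := by linarith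

theorem EE_add (l : List (ℝ × V)) (g g' : V → ℝ) : EE l (fun s => g s + g' s) = EE l g + EE l g' := by
  induction l generalizing g g' with
  | nil => rfl
  | cons x l ih =>
    obtain ⟨q, a⟩ := x
    simp only [EE]
    rw [ih g g', ih (fun s => g (s + a)) (fun s => g' (s + a)), ih (fun s => g (s - a)) (fun s => g' (s - a))]
    ring

theorem EE_mul (l : List (ℝ × V)) (c : ℝ) (g : V → ℝ) : EE l (fun s => c * g s) = c * EE l g := by
  induction l generalizing g with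
  | nil => rfl
  | cons x l ih =>
    obtain ⟨q, a⟩ := x
    simp only [EE]
    rw [ih g, ih (fun s => g (s + a)), ih (fun s => g (s - a))]
    ring

theorem EE_zero (l : List (ℝ × V)) : EE l (fun _ => (0 : ℝ)) = 0 := by
  have := EE_mul l 0 (fun _ => (0 : ℝ))
  simpa using this

theorem EE_sum {ι : Type*} (l : List (ℝ × V)) (t : Finset ι) (g : ι → V → ℝ) :
    EE l (fun s => ∑ i ∈ t, g i s) = ∑ i ∈ t, EE l (g i) := by
  classical
  induction t using Finset.induction_on with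
  | empty => simpa using EE_zero l
  | insert a t ha ih =>
    rw [Finset.sum_insert ha, ← ih, ← EE_add]
    congr 1
    funext s
    rw [Finset.sum_insert ha]

theorem EE_map {W : Type*} [AddCommGroup W] (A : V →+ W) (l : List (ℝ × V)) (g : W → ℝ) :
    EE (l.map (fun x => (x.1, A x.2))) g = EE l (fun s => g (A s)) := by
  induction l generalizing g with
  | nil => simp [EE]
  | cons x l ih =>
    obtain ⟨q, a⟩ := x
    simp only [EE, List.map_cons]
    rw [ih g, ih (fun s => g (s + A a)), ih (fun s => g (s - A a))]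
    simp only [map_add, map_sub]

end EE

/-! ### Real inequalities -/

theorem rpow_le_exp {a s x : ℝ} (ha : 0 < a) (hs : 0 < s) (hx : 0 ≤ x) :
    x ^ a ≤ (a / s) ^ a * Real.exp (s * x) := by
  have h1 : s * x / a ≤ Real.exp (s * x / a) := by
    have := Real.add_one_le_exp (s * x / a)
    linarith
  have h2 : x ≤ (a / s) * Real.exp (s * x / a) := by
    have h3 : x = (a / s) * (s * x / a) := by field_simp
    calc x = (a / s) * (s * x / a) := h3
      _ ≤ _ := mul_le_mul_of_nonneg_left h1 (by positivity)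
  calc x ^ a ≤ ((a / s) * Real.exp (s * x / a)) ^ a := Real.rpow_le_rpow hx h2 ha.le
    _ = (a / s) ^ a * Real.exp (s * x) := by
      rw [Real.mul_rpow (by positivity) (Real.exp_pos _).le, ← Real.exp_mul]
      congr 2
      field_simp

theorem exp_abs_le_two_cosh (x : ℝ) : Real.exp |x| ≤ 2 * Real.cosh x := by
  rw [Real.cosh_eq]
  rcases abs_cases x with ⟨h, _⟩ | ⟨h, _⟩
  · rw [h]; have := Real.exp_pos (-x); linarith
  · rw [h]; have := Real.exp_pos x; linarith

/-- truncation costs an exponentially small multiple of `cosh` -/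
theorem trunc_ge {p Λ R g : ℝ} (hp : 0 < p) (hΛ : 0 < Λ) (hR : 0 ≤ R) :
    |g| ^ p - 2 * (2 * p) ^ p * Λ ^ p * Real.exp (-(R / (2 * Λ))) * Real.cosh (g / Λ) ≤ (min |g| R) ^ p := by
  have hcosh : 0 < Real.cosh (g / Λ) := Real.cosh_pos _
  rcases le_or_gt |g| R with h | h
  · rw [min_eq_left h]
    have : 0 ≤ 2 * (2 * p) ^ p * Λ ^ p * Real.exp (-(R / (2 * Λ))) * Real.cosh (g / Λ) := by positivity
    linarith
  · have h1 : |g| ^ p ≤ 2 * (2 * p) ^ p * Λ ^ p * Real.exp (-(R / (2 * Λ))) * Real.cosh (g / Λ) := by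
      have h2 := rpow_le_exp (a := p) (s := 1 / 2) (x := |g| / Λ) hp (by norm_num) (by positivity)
      have h3 : |g| ^ p = Λ ^ p * (|g| / Λ) ^ p := by
        rw [← Real.mul_rpow hΛ.le (by positivity)]
        congr 1; field_simp
      have h4 : p / (1 / 2) = 2 * p := by ring
      rw [h4] at h2
      have h5 : Real.exp (1 / 2 * (|g| / Λ)) ≤ Real.exp (-(R / (2 * Λ))) * Real.exp (|g| / Λ) := by
        rw [← Real.exp_add]
        apply Real.exp_le_exp.2
        have h6 : R / (2 * Λ) ≤ |g| / (2 * Λ) := by gcongr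
        have h7 : |g| / (2 * Λ) = 1 / 2 * (|g| / Λ) := by field_simp
        have h8 : |g| / Λ = 1 / 2 * (|g| / Λ) + 1 / 2 * (|g| / Λ) := by ring
        linarith
      have h6 : Real.exp (|g| / Λ) ≤ 2 * Real.cosh (g / Λ) := by
        have := exp_abs_le_two_cosh (g / Λ)
        rwa [abs_div, abs_of_pos hΛ] at this
      calc |g| ^ p = Λ ^ p * (|g| / Λ) ^ p := h3
        _ ≤ Λ ^ p * ((2 * p) ^ p * (Real.exp (-(R / (2 * Λ))) * (2 * Real.cosh (g / Λ)))) := by
          gcongr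
          refine h2.trans ?_
          gcongr
          refine h5.trans ?_
          gcongr
        _ = _ := by ring
    have h2 : 0 ≤ (min |g| R) ^ p := by
      apply Real.rpow_nonneg
      exact le_min (abs_nonneg g) hR
    linarith

/-- choice of the constant `c` in `R = c Λ²` -/
theorem consts (p C h : ℝ) (hp : 1 < p) (hC : 1 ≤ C) (h0 : 0 < h) (K : ℝ) (hK : 1 ≤ K) :
    ∃ c : ℝ, 6 ≤ c ∧
      (∀ Λ : ℝ, 1 ≤ Λ → 2 * (2 * p) ^ p * Λ ^ p * Real.exp (-(c * Λ ^ 2 / (2 * Λ))) * Real.exp 1 ≤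
        h * (C * Λ) ^ (-C)) ∧
      (∀ Λ : ℝ, 1 ≤ Λ → ∀ D : ℝ, D ≤ K * c ^ p * Λ ^ (1 + 2 * p + C) →
        8 * Real.exp 1 * Real.exp (2 * Λ) * D ≤ Real.exp (c * Λ)) := by
  have hp0 : 0 < p := by linarith
  have hC0 : 0 < C := by linarith
  set a : ℝ := p + C with ha
  set a2 : ℝ := 1 + 2 * p + C with ha2
  have ha0 : 0 < a := by positivity
  have ha20 : 0 < a2 := by positivity
  set K1 : ℝ := 2 * Real.exp 1 * (2 * p) ^ p * C ^ C * a ^ a / h with hK1
  set K4 : ℝ := 8 * Real.exp 1 * K * a2 ^ a2 * (2 * p) ^ p with hK4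
  have hK10 : 0 < K1 := by positivity
  have hK40 : 0 < K4 := by positivity
  set c : ℝ := 6 + 2 * Real.log (K1 + K4 + 1) with hc
  have hexp : Real.exp (c / 2 - 3) = K1 + K4 + 1 := by
    have : c / 2 - 3 = Real.log (K1 + K4 + 1) := by rw [hc]; ring
    rw [this, Real.exp_log (by positivity)]
  have hc6 : 6 ≤ c := by
    have : 0 ≤ Real.log (K1 + K4 + 1) := Real.log_nonneg (by linarith)
    linarith
  refine ⟨c, hc6, ?_, ?_⟩
  · intro Λ hΛ
    have hΛ0 : 0 < Λ := by linarith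
    have h1 : Λ ^ a ≤ a ^ a * Real.exp Λ := by
      have := rpow_le_exp (a := a) (s := 1) (x := Λ) ha0 one_pos hΛ0.le
      simpa using this
    have h2 : (C * Λ) ^ (-C) = (C ^ C * Λ ^ C)⁻¹ := by
      rw [Real.rpow_neg (by positivity), Real.mul_rpow hC0.le hΛ0.le]
    have h3 : c * Λ ^ 2 / (2 * Λ) = c / 2 * Λ := by field_simp
    have h4 : K1 ≤ Real.exp ((c / 2 - 1) * Λ) := by
      calc K1 ≤ K1 + K4 + 1 := by linarith
        _ = Real.exp (c / 2 - 3) := hexp.symm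
        _ ≤ Real.exp ((c / 2 - 1) * Λ) := by
          apply Real.exp_le_exp.2
          nlinarith
    rw [h2, h3]
    rw [← div_eq_mul_inv, le_div_iff₀ (by positivity)]
    have h5 : Λ ^ p * Λ ^ C = Λ ^ a := by rw [ha, Real.rpow_add hΛ0]
    calc 2 * (2 * p) ^ p * Λ ^ p * Real.exp (-(c / 2 * Λ)) * Real.exp 1 * (C ^ C * Λ ^ C)
        = (2 * Real.exp 1 * (2 * p) ^ p * C ^ C) * (Λ ^ p * Λ ^ C) * Real.exp (-(c / 2 * Λ)) := by ring
      _ ≤ (2 * Real.exp 1 * (2 * p) ^ p * C ^ C) * (a ^ a * Real.exp Λ) * Real.exp (-(c / 2 * Λ)) := by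
          rw [h5]; gcongr
      _ = h * (K1 * (Real.exp Λ * Real.exp (-(c / 2 * Λ)))) := by rw [hK1]; field_simp
      _ ≤ h * (Real.exp ((c / 2 - 1) * Λ) * (Real.exp Λ * Real.exp (-(c / 2 * Λ)))) := by gcongr
      _ = h := by
          rw [← Real.exp_add, ← Real.exp_add]
          have : (c / 2 - 1) * Λ + (Λ + -(c / 2 * Λ)) = 0 := by ring
          rw [this, Real.exp_zero, mul_one]
  · intro Λ hΛ D hD
    have hΛ0 : 0 < Λ := by linarith
    have hc0 : 0 < c := by linarith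
    have h1 : Λ ^ a2 ≤ a2 ^ a2 * Real.exp Λ := by
      have := rpow_le_exp (a := a2) (s := 1) (x := Λ) ha20 one_pos hΛ0.le
      simpa using this
    have h2 : c ^ p ≤ (2 * p) ^ p * Real.exp (c / 2) := by
      have := rpow_le_exp (a := p) (s := 1 / 2) (x := c) hp0 (by norm_num) hc0.le
      have h4 : p / (1 / 2) = 2 * p := by ring
      rw [h4] at this
      have h5 : 1 / 2 * c = c / 2 := by ring
      rwa [h5] at this
    have h3 : D ≤ K * ((2 * p) ^ p * Real.exp (c / 2)) * (a2 ^ a2 * Real.exp Λ) := by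
      refine hD.trans ?_
      gcongr
    calc 8 * Real.exp 1 * Real.exp (2 * Λ) * D ≤
        8 * Real.exp 1 * Real.exp (2 * Λ) * (K * ((2 * p) ^ p * Real.exp (c / 2)) * (a2 ^ a2 * Real.exp Λ)) := by
          gcongr
      _ = K4 * (Real.exp (2 * Λ) * Real.exp Λ * Real.exp (c / 2)) := by rw [hK4]; ring
      _ ≤ Real.exp (c / 2 - 3) * (Real.exp (2 * Λ) * Real.exp Λ * Real.exp (c / 2)) := by
          gcongr
          rw [hexp]; linarith
      _ = Real.exp (c - 3 + 3 * Λ) := by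
          rw [← Real.exp_add, ← Real.exp_add, ← Real.exp_add]
          congr 1; ring
      _ ≤ Real.exp (c * Λ) := by
          apply Real.exp_le_exp.2
          nlinarith

/-! ### The list of indices -/

/-- `M` copies of `Ω` -/
noncomputable def idx (Ω : Type) [Fintype Ω] : ℕ → List Ω
  | 0 => []
  | M + 1 => (univ : Finset Ω).toList ++ idx Ω M

theorem idx_sum {Ω : Type} [Fintype Ω] (M : ℕ) (f : Ω → ℝ) : ((idx Ω M).map f).sum = M * ∑ ω, f ω := by
  induction M with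
  | zero => simp [idx]
  | succ M ih =>
    rw [idx, List.map_append, List.sum_append, ih, Finset.sum_map_toList]
    push_cast; ring

theorem list_sum_filter {α : Type*} (l : List α) (P : α → Prop) [DecidablePred P] (f : α → ℝ) :
    ((l.filter P).map f).sum = (l.map (fun x => if P x then f x else 0)).sum := by
  induction l with
  | nil => simp
  | cons x l ih =>
    by_cases h : P x
    · simp [h, ih]
    · simp [h, ih]

/-! ### One pair -/

section Pair

variable {X : Type} {Ω : Type} [Fintype Ω] (d : X → X → ℝ)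

/-- the gradient at `e` as an additive map -/
noncomputable def gradHom (e : X × X) : (X → ℝ) →+ ℝ where
  toFun s := grad d s e
  map_zero' := by simp [grad]
  map_add' s t := grad_add d s t e

/-- the list of random summands -/
noncomputable def lst (κ : ℝ) (μ : Ω → ℝ) (F : Ω → X → ℝ) (M : ℕ) : List (ℝ × (X → ℝ)) :=
  (idx Ω M).map (fun ω => (κ * μ ω / M, F ω))

theorem lst_mem {κ : ℝ} {μ : Ω → ℝ} {F : Ω → X → ℝ} {M : ℕ} (hκ : 0 ≤ κ) (hμ : ∀ ω, 0 ≤ μ ω)
    (hM : ∀ ω, κ * μ ω / M ≤ 1) : ∀ x ∈ lst κ μ F M, 0 ≤ x.1 ∧ x.1 ≤ 1 := by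
  intro x hx
  unfold lst at hx
  obtain ⟨ω, _, rfl⟩ := List.mem_map.1 hx
  exact ⟨div_nonneg (mul_nonneg hκ (hμ ω)) (Nat.cast_nonneg M), hM ω⟩

theorem EE_lst {κ : ℝ} {μ : Ω → ℝ} {F : Ω → X → ℝ} {M : ℕ} (e : X × X) (B : Ω → ℝ) (g : ℝ → ℝ) :
    EE (lst κ μ F M) (fun s => g (grad d s e)) =
      EE ((idx Ω M).map (fun ω => (κ * μ ω / M, (B ω, grad d (F ω) e)))) (fun s => g s.2) := by
  have h1 := EE_map (gradHom d e) (lst κ μ F M) g
  have h2 := EE_map (AddMonoidHom.snd ℝ ℝ)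
    ((idx Ω M).map (fun ω => (κ * μ ω / M, (B ω, grad d (F ω) e)))) g
  have h3 : (lst κ μ F M).map (fun x => (x.1, gradHom d e x.2)) =
      ((idx Ω M).map (fun ω => (κ * μ ω / M, (B ω, grad d (F ω) e)))).map
        (fun x => (x.1, AddMonoidHom.snd ℝ ℝ x.2)) := by
    unfold lst
    rw [List.map_map, List.map_map]
    rfl
  rw [h3] at h1
  exact h1.symm.trans h2

theorem scaled_sum {κ : ℝ} {μ : Ω → ℝ} {M : ℕ} (hM : 0 < M) (φ : Ω → ℝ) :
    ((idx Ω M).map (fun ω => κ * μ ω / M * φ ω)).sum = κ * ∑ ω, μ ω * φ ω := by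
  rw [idx_sum, Finset.mul_sum, Finset.mul_sum]
  apply Finset.sum_congr rfl
  intro ω _
  have : (M : ℝ) ≠ 0 := by exact_mod_cast hM.ne'
  field_simp

theorem cosh_bound {κ Λ : ℝ} {μ : Ω → ℝ} {F : Ω → X → ℝ} {M : ℕ} (hκ : 0 ≤ κ) (hκ1 : κ ≤ 1) (hΛ : 1 ≤ Λ)
    (hμ : ∀ ω, 0 ≤ μ ω) (hM0 : 0 < M) (hM : ∀ ω, κ * μ ω / M ≤ 1) (e : X × X)
    (h5 : ∑ ω, μ ω * (grad d (F ω) e) ^ 2 ≤ Λ) (h6 : ∀ ω, |grad d (F ω) e| ≤ Λ) :
    EE (lst κ μ F M) (fun s => Real.cosh (grad d s e / Λ)) ≤ Real.exp 1 := by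
  have hΛ0 : 0 < Λ := by linarith
  have h1 := EE_map (gradHom d e) (lst κ μ F M) (fun x => Real.cosh (x / Λ))
  have h2 : EE (lst κ μ F M) (fun s => Real.cosh (grad d s e / Λ)) =
      EE ((lst κ μ F M).map (fun x => (x.1, gradHom d e x.2))) (fun x => Real.cosh (Λ⁻¹ * x)) := by
    have h3 : (fun x : ℝ => Real.cosh (Λ⁻¹ * x)) = (fun x => Real.cosh (x / Λ)) := by
      funext x; congr 1; field_simp
    rw [h3, h1]
    rfl
  rw [h2]
  refine (Crest.Agent.R232.cosh_moment _ ?_ Λ⁻¹ ?_).trans ?_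
  · intro x hx
    obtain ⟨y, hy, rfl⟩ := List.mem_map.1 hx
    exact lst_mem hκ hμ hM y hy
  · intro x hx
    obtain ⟨y, hy, rfl⟩ := List.mem_map.1 hx
    unfold lst at hy
    obtain ⟨ω, _, rfl⟩ := List.mem_map.1 hy
    show |Λ⁻¹ * grad d (F ω) e| ≤ 1
    rw [abs_mul, abs_of_pos (inv_pos.2 hΛ0)]
    calc Λ⁻¹ * |grad d (F ω) e| ≤ Λ⁻¹ * Λ := by gcongr; exact h6 ω
      _ = 1 := inv_mul_cancel₀ hΛ0.ne'
  · apply Real.exp_le_exp.2
    have h4 : (((lst κ μ F M).map (fun x => (x.1, gradHom d e x.2))).map fun x => x.1 * x.2 ^ 2).sum =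
        κ * ∑ ω, μ ω * (grad d (F ω) e) ^ 2 := by
      rw [← scaled_sum hM0]
      unfold lst
      rw [List.map_map, List.map_map]
      rfl
    rw [h4]
    calc Λ⁻¹ ^ 2 * (κ * ∑ ω, μ ω * (grad d (F ω) e) ^ 2) ≤ Λ⁻¹ ^ 2 * (1 * Λ) := by
          gcongr
          exact Finset.sum_nonneg fun ω _ => mul_nonneg (hμ ω) (sq_nonneg _)
      _ = Λ⁻¹ := by field_simp
      _ ≤ 1 := inv_le_one_of_one_le₀ hΛ

theorem moment_bound {p η ε C κ Λ : ℝ}
    (hmom : ∀ (Λ : ℝ) (_ : 1 ≤ Λ) (κ : ℝ) (_ : 0 < κ)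
      (_ : κ ≤ (C * Λ) ^ (-C)) (l : List (ℝ × (ℝ × ℝ))) (_ : ∀ x ∈ l, 0 ≤ x.1 ∧ x.1 ≤ 1)
      (_ : (l.map fun x => x.1 * |x.2.1| ^ p).sum = κ)
      (_ : ((l.filter fun x => x.2.1 ≠ 0).map fun x => x.1).sum ≤ κ * Λ)
      (_ : (l.map fun x => x.1 * |x.2.2 - x.2.1| ^ p).sum ≤ κ * ε)
      (_ : (l.map fun x => x.1 * (x.2.2 - x.2.1) ^ 2).sum ≤ κ * Λ),
      (1 - η) * κ ≤ EE l (fun s => |s.2| ^ p) ∧ EE l (fun s => |s.2| ^ p) ≤ (1 + η) * κ)
    {μ : Ω → ℝ} {F : Ω → X → ℝ} {M : ℕ} (hκ : 0 < κ) (hκ1 : κ ≤ (C * Λ) ^ (-C)) (hΛ : 1 ≤ Λ)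
    (hμ : ∀ ω, 0 ≤ μ ω) (hM0 : 0 < M) (hM : ∀ ω, κ * μ ω / M ≤ 1) (e : X × X) (B : Ω → ℝ)
    (h1 : ∑ ω, μ ω * |B ω| ^ p = 1)
    (h2 : ∑ ω ∈ univ.filter (fun ω => B ω ≠ 0), μ ω ≤ Λ)
    (h3 : ∑ ω, μ ω * |grad d (F ω) e - B ω| ^ p ≤ ε)
    (h4 : ∑ ω, μ ω * (grad d (F ω) e - B ω) ^ 2 ≤ Λ) :
    (1 - η) * κ ≤ EE (lst κ μ F M) (fun s => |grad d s e| ^ p) ∧
      EE (lst κ μ F M) (fun s => |grad d s e| ^ p) ≤ (1 + η) * κ := by
  have hE := EE_lst d (κ := κ) (μ := μ) (F := F) (M := M) e B (fun x => |x| ^ p)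
  rw [hE]
  apply hmom Λ hΛ κ hκ hκ1
  · intro x hx
    obtain ⟨ω, _, rfl⟩ := List.mem_map.1 hx
    exact ⟨div_nonneg (mul_nonneg hκ.le (hμ ω)) (Nat.cast_nonneg M), hM ω⟩
  · rw [List.map_map]
    have := scaled_sum (κ := κ) (μ := μ) hM0 (fun ω => |B ω| ^ p)
    rw [h1, mul_one] at this
    exact this
  · rw [list_sum_filter, List.map_map]
    have h5 := scaled_sum (κ := κ) (μ := μ) hM0 (fun ω => if B ω ≠ 0 then 1 else 0)
    have h6 : ((idx Ω M).map ((fun x : ℝ × (ℝ × ℝ) => if x.2.1 ≠ 0 then x.1 else 0) ∘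
        fun ω => (κ * μ ω / M, (B ω, grad d (F ω) e)))).sum = κ * ∑ ω, μ ω * (if B ω ≠ 0 then 1 else 0) := by
      rw [← h5]
      congr 1
      apply List.map_congr_left
      intro ω _
      simp only [Function.comp]
      split_ifs <;> simp
    refine le_of_eq_of_le h6 ?_
    have h7 : ∑ ω, μ ω * (if B ω ≠ 0 then 1 else 0) = ∑ ω ∈ univ.filter (fun ω => B ω ≠ 0), μ ω := by
      rw [Finset.sum_filter]
      apply Finset.sum_congr rfl
      intro ω _
      split_ifs <;> simp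
    rw [h7]
    gcongr
  · rw [List.map_map]
    have := scaled_sum (κ := κ) (μ := μ) hM0 (fun ω => |grad d (F ω) e - B ω| ^ p)
    refine le_of_eq_of_le this ?_
    gcongr
  · rw [List.map_map]
    have := scaled_sum (κ := κ) (μ := μ) hM0 (fun ω => (grad d (F ω) e - B ω) ^ 2)
    refine le_of_eq_of_le this ?_
    gcongr

end Pair

theorem final_lo {h η dp Rp κ D A S : ℝ} (h0 : 0 < h) (h1 : h < 1 / 4) (hη : η = 4 * h) (hdp : 0 < dp)
    (hRp : 0 < Rp) (hκ : 0 < κ) (hD : 0 < D) (k1 : (1 - 2 * h) * κ ≤ A)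
    (g1 : (1 - h) * (D * (Rp⁻¹ * A)) ≤ S) : (1 - η) * dp ≤ dp * (Rp / (κ * D)) * S := by
  have h2 : 0 < 1 - h := by linarith
  calc (1 - η) * dp ≤ ((1 - h) * (1 - 2 * h)) * dp := by
        apply mul_le_mul_of_nonneg_right _ hdp.le
        rw [hη]; nlinarith
    _ = dp * (Rp / (κ * D)) * ((1 - h) * (D * (Rp⁻¹ * ((1 - 2 * h) * κ)))) := by
        field_simp
    _ ≤ dp * (Rp / (κ * D)) * ((1 - h) * (D * (Rp⁻¹ * A))) := by
        apply mul_le_mul_of_nonneg_left _ (by positivity)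
        apply mul_le_mul_of_nonneg_left _ h2.le
        apply mul_le_mul_of_nonneg_left _ hD.le
        apply mul_le_mul_of_nonneg_left k1 (by positivity)
    _ ≤ _ := mul_le_mul_of_nonneg_left g1 (by positivity)

theorem final_up {h η dp Rp κ D A S : ℝ} (h0 : 0 < h) (h1 : h < 1 / 4) (hη : η = 4 * h) (hdp : 0 < dp)
    (hRp : 0 < Rp) (hκ : 0 < κ) (hD : 0 < D) (k1 : A ≤ (1 + h) * κ)
    (g1 : S ≤ (1 + h) * (D * (Rp⁻¹ * A))) : dp * (Rp / (κ * D)) * S ≤ (1 + η) * dp := by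
  have h2 : 0 < 1 + h := by linarith
  calc dp * (Rp / (κ * D)) * S ≤ dp * (Rp / (κ * D)) * ((1 + h) * (D * (Rp⁻¹ * A))) :=
        mul_le_mul_of_nonneg_left g1 (by positivity)
    _ ≤ dp * (Rp / (κ * D)) * ((1 + h) * (D * (Rp⁻¹ * ((1 + h) * κ)))) := by
        apply mul_le_mul_of_nonneg_left _ (by positivity)
        apply mul_le_mul_of_nonneg_left _ h2.le
        apply mul_le_mul_of_nonneg_left _ hD.le
        apply mul_le_mul_of_nonneg_left k1 (by positivity)
    _ = ((1 + h) * (1 + h)) * dp := by field_simp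
    _ ≤ (1 + η) * dp := by
        apply mul_le_mul_of_nonneg_right _ hdp.le
        rw [hη]; nlinarith

/-- off-diagonal pairs -/
abbrev OffD (X : Type) : Type := {e : X × X // e.1 ≠ e.2}

theorem sparse_of_moment (p : ℝ) (hp1 : 1 < p) (η : ℝ) (hη : 0 < η) (hη1 : η < 1)
    (hmoment : ∀ (η : ℝ) (_ : 0 < η) (_ : η < 1),
      ∃ ε : ℝ, 0 < ε ∧ ∃ C : ℝ, 1 ≤ C ∧ ∀ (Λ : ℝ) (_ : 1 ≤ Λ) (κ : ℝ) (_ : 0 < κ)
      (_ : κ ≤ (C * Λ) ^ (-C)) (l : List (ℝ × (ℝ × ℝ))) (_ : ∀ x ∈ l, 0 ≤ x.1 ∧ x.1 ≤ 1)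
      (_ : (l.map fun x => x.1 * |x.2.1| ^ p).sum = κ)
      (_ : ((l.filter fun x => x.2.1 ≠ 0).map fun x => x.1).sum ≤ κ * Λ)
      (_ : (l.map fun x => x.1 * |x.2.2 - x.2.1| ^ p).sum ≤ κ * ε)
      (_ : (l.map fun x => x.1 * (x.2.2 - x.2.1) ^ 2).sum ≤ κ * Λ),
      (1 - η) * κ ≤ EE l (fun s => |s.2| ^ p) ∧ EE l (fun s => |s.2| ^ p) ≤ (1 + η) * κ) :
    ∃ ε : ℝ, 0 < ε ∧ ∃ C : ℝ, 1 ≤ C ∧ ∀ (X : Type) [Fintype X] [DecidableEq X]
      (_ : 2 ≤ Fintype.card X) (d : X → X → ℝ) (_ : IsDist d) (Λ : ℝ) (Ω : Type) [Fintype Ω]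
      (μ : Ω → ℝ) (B : Ω → X × X → ℝ) (F : Ω → X → ℝ)
      (_ : 1 ≤ Λ) (_ : Real.log (Fintype.card X) ≤ Λ) (_ : ∀ ω, 0 ≤ μ ω)
      (_ : ∀ x y, x ≠ y →
          (∑ ω, μ ω * |B ω (x, y)| ^ p = 1) ∧
          (∑ ω ∈ univ.filter (fun ω => B ω (x, y) ≠ 0), μ ω ≤ Λ) ∧
          (∑ ω, μ ω * |grad d (F ω) (x, y) - B ω (x, y)| ^ p ≤ ε) ∧
          (∑ ω, μ ω * (grad d (F ω) (x, y) - B ω (x, y)) ^ 2 ≤ Λ) ∧
          (∑ ω, μ ω * (grad d (F ω) (x, y)) ^ 2 ≤ Λ) ∧
          (∀ ω, |grad d (F ω) (x, y)| ≤ Λ)),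
      ∃ (D : ℕ) (y : X → Fin D → ℝ), (D : ℝ) ≤ C * Λ ^ C ∧
        ∀ x x', x ≠ x' → (1 - η) * d x x' ^ p ≤ ∑ j, |y x j - y x' j| ^ p ∧
          ∑ j, |y x j - y x' j| ^ p ≤ (1 + η) * d x x' ^ p := by
  classical
  have hp0 : 0 < p := by linarith
  set h : ℝ := η / 4 with hh
  have h0 : 0 < h := by positivity
  have h4 : h < 1 / 4 := by rw [hh]; linarith
  obtain ⟨ε, hε, C, hC, hmom⟩ := hmoment h h0 (by linarith)
  have hC0 : 0 < C := by linarith
  set K : ℝ := 16 * C ^ C / (h ^ 2 * (1 - 2 * h)) + 1 with hK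
  have h2h : 0 < 1 - 2 * h := by linarith
  have hK1 : 1 ≤ K := by
    have : 0 ≤ 16 * C ^ C / (h ^ 2 * (1 - 2 * h)) := by positivity
    linarith
  obtain ⟨c, hc6, hcA, hcB⟩ := consts p C h hp1 hC h0 K hK1
  have hc0 : 0 < c := by linarith
  set a : ℝ := 1 + 2 * p + C with ha
  refine ⟨ε, hε, max (K * c ^ p) a, le_max_of_le_right (by rw [ha]; linarith), ?_⟩
  intro X _ _ hn d hd Λ Ω _ μ B F hΛ hlog hμ hdata
  have hΛ0 : 0 < Λ := by linarith
  set κ : ℝ := (C * Λ) ^ (-C) with hκ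
  have hCΛ : 1 ≤ C * Λ := by nlinarith
  have hκ0 : 0 < κ := by positivity
  have hκ1 : κ ≤ 1 := by
    rw [hκ, Real.rpow_neg (by positivity)]
    exact inv_le_one_of_one_le₀ (Real.one_le_rpow hCΛ hC0.le)
  have hκinv : κ⁻¹ = C ^ C * Λ ^ C := by
    rw [hκ, Real.rpow_neg (by positivity), inv_inv, Real.mul_rpow hC0.le hΛ0.le]
  -- number of copies
  obtain ⟨M, hM0, hM⟩ : ∃ M : ℕ, 0 < M ∧ ∀ ω, κ * μ ω / M ≤ 1 := by
    refine ⟨⌈κ * ∑ ω, μ ω⌉₊ + 1, Nat.succ_pos _, fun ω => ?_⟩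
    rw [div_le_one (by positivity)]
    have h1 : μ ω ≤ ∑ ω, μ ω := Finset.single_le_sum (f := μ) (fun i _ => hμ i) (Finset.mem_univ ω)
    have h2 : κ * μ ω ≤ κ * ∑ ω, μ ω := mul_le_mul_of_nonneg_left h1 hκ0.le
    have h3 := Nat.le_ceil (κ * ∑ ω, μ ω)
    push_cast
    linarith
  set l := lst κ μ F M with hl
  have hlm : ∀ x ∈ l, 0 ≤ x.1 ∧ x.1 ≤ 1 := lst_mem hκ0.le hμ hM
  have hmo : ∀ e : X × X, e.1 ≠ e.2 → (1 - h) * κ ≤ EE l (fun s => |grad d s e| ^ p) ∧
      EE l (fun s => |grad d s e| ^ p) ≤ (1 + h) * κ := by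
    intro e he
    obtain ⟨d1, d2, d3, d4, d5, d6⟩ := hdata e.1 e.2 he
    exact moment_bound d hmom hκ0 le_rfl hΛ hμ hM0 hM e (fun ω => B ω e) d1 d2 d3 d4
  have hco : ∀ e : X × X, e.1 ≠ e.2 → EE l (fun s => Real.cosh (grad d s e / Λ)) ≤ Real.exp 1 := by
    intro e he
    obtain ⟨d1, d2, d3, d4, d5, d6⟩ := hdata e.1 e.2 he
    exact cosh_bound d hκ0.le hκ1 hΛ hμ hM0 hM e d5 d6
  -- the truncation level
  set R : ℝ := c * Λ ^ 2 with hR
  have hR0 : 0 < R := by positivity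
  have hRp : 0 < R ^ p := by positivity
  set Y : OffD X → (X → ℝ) → ℝ := fun e s => (min |grad d s e.1| R / R) ^ p with hY
  have hY0 : ∀ e s, 0 ≤ Y e s := by
    intro e s
    apply Real.rpow_nonneg
    exact div_nonneg (le_min (abs_nonneg _) hR0.le) hR0.le
  have hY1 : ∀ e s, Y e s ≤ 1 := by
    intro e s
    apply Real.rpow_le_one
    · exact div_nonneg (le_min (abs_nonneg _) hR0.le) hR0.le
    · rw [div_le_one hR0]; exact min_le_right _ _
    · exact hp0.le
  have hYR : ∀ e s, Y e s = (R ^ p)⁻¹ * (min |grad d s e.1| R) ^ p := by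
    intro e s
    simp only [hY]
    rw [Real.div_rpow (le_min (abs_nonneg _) hR0.le) hR0.le]
    field_simp
  have hEY : ∀ e : OffD X, EE l (Y e) = (R ^ p)⁻¹ * EE l (fun s => (min |grad d s e.1| R) ^ p) := by
    intro e
    rw [← EE_mul]
    congr 1
    funext s
    exact hYR e s
  have hup : ∀ e : OffD X, EE l (fun s => (min |grad d s e.1| R) ^ p) ≤ (1 + h) * κ := by
    intro e
    refine (EE_mono l hlm fun s => ?_).trans (hmo e.1 e.2).2
    exact Real.rpow_le_rpow (le_min (abs_nonneg _) hR0.le) (min_le_left _ _) hp0.le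
  have hlo : ∀ e : OffD X, (1 - 2 * h) * κ ≤ EE l (fun s => (min |grad d s e.1| R) ^ p) := by
    intro e
    set c1 : ℝ := 2 * (2 * p) ^ p * Λ ^ p * Real.exp (-(R / (2 * Λ))) with hc1
    have h1 : EE l (fun s => |grad d s e.1| ^ p + (-c1) * Real.cosh (grad d s e.1 / Λ)) ≤
        EE l (fun s => (min |grad d s e.1| R) ^ p) := by
      apply EE_mono l hlm
      intro s
      have := trunc_ge (p := p) (Λ := Λ) (R := R) (g := grad d s e.1) hp0 hΛ0 hR0.le
      linarith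
    rw [EE_add l (fun s => |grad d s e.1| ^ p) (fun s => (-c1) * Real.cosh (grad d s e.1 / Λ)),
      EE_mul l (-c1) (fun s => Real.cosh (grad d s e.1 / Λ))] at h1
    have h2 := (hmo e.1 e.2).1
    have h3 := hco e.1 e.2
    have h5 : c1 * Real.exp 1 ≤ h * κ := hcA Λ hΛ
    have h6 : c1 * EE l (fun s => Real.cosh (grad d s e.1 / Λ)) ≤ c1 * Real.exp 1 :=
      mul_le_mul_of_nonneg_left h3 (by positivity)
    linarith
  set m : ℝ := (R ^ p)⁻¹ * ((1 - 2 * h) * κ) with hm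
  have hm0 : 0 < m := by positivity
  have hmY : ∀ e, m ≤ EE l (Y e) := by
    intro e
    rw [hEY e]
    exact mul_le_mul_of_nonneg_left (hlo e) (by positivity)
  -- cardinalities
  obtain ⟨x0, x1, hx01⟩ : ∃ x0 x1 : X, x0 ≠ x1 := by
    have : Nontrivial X := Fintype.one_lt_card_iff_nontrivial.1 (by omega)
    exact exists_pair_ne X
  have : Nonempty (OffD X) := ⟨⟨(x0, x1), hx01⟩⟩
  set n : ℝ := (Fintype.card X : ℝ) with hnn
  have hn0 : 0 < n := by
    rw [hnn]; exact_mod_cast (by omega : 0 < Fintype.card X)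
  have hE1 : 1 ≤ (Fintype.card (OffD X) : ℝ) := by
    exact_mod_cast Fintype.card_pos
  have hE2 : (Fintype.card (OffD X) : ℝ) ≤ n ^ 2 := by
    have h1 : Fintype.card (OffD X) ≤ Fintype.card (X × X) := Fintype.card_subtype_le _
    rw [Fintype.card_prod] at h1
    rw [hnn, sq]
    exact_mod_cast h1
  have hnexp : n ^ 2 ≤ Real.exp (2 * Λ) := by
    have h1 : n = Real.exp (Real.log n) := (Real.exp_log hn0).symm
    rw [h1, ← Real.exp_nat_mul]
    apply Real.exp_le_exp.2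
    push_cast
    linarith
  have hlogE : Real.log (4 * Fintype.card (OffD X)) ≤ 4 * Λ := by
    have h1 : Real.log (4 * Fintype.card (OffD X)) ≤ Real.log (4 * n ^ 2) := by
      apply Real.log_le_log (by positivity)
      linarith
    have h1' : Real.log (4 * n ^ 2) = Real.log 4 + 2 * Real.log n := by
      rw [Real.log_mul (by norm_num) (by positivity), Real.log_pow]; push_cast; ring
    have h2 : Real.log 4 = 2 * Real.log 2 := by
      rw [show (4 : ℝ) = 2 ^ 2 by norm_num, Real.log_pow]; norm_num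
    have h3 := Real.log_two_lt_d9
    linarith
  have hlogE0 : 0 < Real.log (4 * Fintype.card (OffD X)) := Real.log_pos (by linarith)
  -- the number of samples
  set t : ℝ := 4 * Real.log (4 * Fintype.card (OffD X)) / (h ^ 2 * m) with ht
  have ht0 : 0 < t := by positivity
  set D : ℕ := ⌈t⌉₊ with hD
  have hD0 : 0 < D := Nat.ceil_pos.2 ht0
  have htD : t ≤ D := Nat.le_ceil _
  have hDK : (D : ℝ) ≤ K * c ^ p * Λ ^ a := by
    have h1 : (D : ℝ) ≤ t + 1 := (Nat.ceil_lt_add_one ht0.le).le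
    have h2 : t ≤ 16 * C ^ C / (h ^ 2 * (1 - 2 * h)) * c ^ p * Λ ^ a := by
      have h3 : t = 4 * Real.log (4 * Fintype.card (OffD X)) * (R ^ p * κ⁻¹) / (h ^ 2 * (1 - 2 * h)) := by
        rw [ht, hm]; field_simp
      have h5 : R ^ p = c ^ p * Λ ^ (2 * p) := by
        rw [hR, Real.mul_rpow hc0.le (by positivity)]
        congr 1
        rw [← Real.rpow_natCast Λ 2, ← Real.rpow_mul hΛ0.le]
        norm_num
      have h6 : Λ ^ a = Λ * Λ ^ (2 * p) * Λ ^ C := by
        rw [ha, Real.rpow_add hΛ0, Real.rpow_add hΛ0, Real.rpow_one]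
      rw [h3, h5, h6, hκinv]
      calc 4 * Real.log (4 * Fintype.card (OffD X)) * (c ^ p * Λ ^ (2 * p) * (C ^ C * Λ ^ C)) / (h ^ 2 * (1 - 2 * h))
          ≤ 4 * (4 * Λ) * (c ^ p * Λ ^ (2 * p) * (C ^ C * Λ ^ C)) / (h ^ 2 * (1 - 2 * h)) := by gcongr
        _ = _ := by ring
    have h3 : 1 ≤ c ^ p * Λ ^ a := by
      have h4 : 1 ≤ c ^ p := Real.one_le_rpow (by linarith) hp0.le
      have h5 : 1 ≤ Λ ^ a := Real.one_le_rpow hΛ (by positivity)
      nlinarith
    calc (D : ℝ) ≤ t + 1 := h1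
      _ ≤ 16 * C ^ C / (h ^ 2 * (1 - 2 * h)) * c ^ p * Λ ^ a + c ^ p * Λ ^ a := by linarith
      _ = K * c ^ p * Λ ^ a := by rw [hK]; ring
  have hDfin : (D : ℝ) ≤ max (K * c ^ p) a * Λ ^ (max (K * c ^ p) a) := by
    refine hDK.trans ?_
    apply mul_le_mul (le_max_left _ _) _ (by positivity) (by positivity)
    exact Real.rpow_le_rpow_of_exponent_le hΛ (le_max_right _ _)
  -- the exceptional function
  set b : (X → ℝ) → ℝ := fun s => ∑ e : OffD X, (Real.cosh (R / Λ))⁻¹ * Real.cosh (grad d s e.1 / Λ) with hb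
  have hb0 : ∀ s, 0 ≤ b s := by
    intro s
    apply Finset.sum_nonneg
    intro e _
    have h1 := Real.cosh_pos (R / Λ)
    have h2 := Real.cosh_pos (grad d s e.1 / Λ)
    positivity
  have hbsmall : ∀ s, b s < 1 → ∀ e : OffD X, |grad d s e.1| ≤ R := by
    intro s hs e
    by_contra hcon
    push Not at hcon
    have hcp := Real.cosh_pos (R / Λ)
    have h1 : (Real.cosh (R / Λ))⁻¹ * Real.cosh (grad d s e.1 / Λ) ≤ b s := by
      apply Finset.single_le_sum (f := fun e : OffD X => (Real.cosh (R / Λ))⁻¹ * Real.cosh (grad d s e.1 / Λ))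
        (fun i _ => ?_) (Finset.mem_univ e)
      have h2 := Real.cosh_pos (grad d s i.1 / Λ)
      positivity
    have h2 : Real.cosh (R / Λ) ≤ Real.cosh (grad d s e.1 / Λ) := by
      rw [Real.cosh_le_cosh, abs_of_pos (by positivity), abs_div, abs_of_pos hΛ0]
      gcongr
    have h3 : 1 ≤ (Real.cosh (R / Λ))⁻¹ * Real.cosh (grad d s e.1 / Λ) := by
      rw [inv_mul_eq_div, one_le_div hcp]
      exact h2
    linarith
  have hbD : EE l b ≤ 1 / (4 * D) := by
    have hcp := Real.cosh_pos (R / Λ)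
    have h1 : EE l b = ∑ e : OffD X, (Real.cosh (R / Λ))⁻¹ * EE l (fun s => Real.cosh (grad d s e.1 / Λ)) := by
      rw [hb, EE_sum l univ (fun (e : OffD X) s => (Real.cosh (R / Λ))⁻¹ * Real.cosh (grad d s e.1 / Λ))]
      apply Finset.sum_congr rfl
      intro e _
      exact EE_mul l _ _
    have h2 : EE l b ≤ ∑ e : OffD X, (Real.cosh (R / Λ))⁻¹ * Real.exp 1 := by
      rw [h1]
      apply Finset.sum_le_sum
      intro e _
      exact mul_le_mul_of_nonneg_left (hco e.1 e.2) (by positivity)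
    rw [Finset.sum_const, Finset.card_univ, nsmul_eq_mul] at h2
    have h3 : Real.exp (c * Λ) ≤ 2 * Real.cosh (R / Λ) := by
      have := exp_abs_le_two_cosh (R / Λ)
      rw [abs_of_pos (by positivity)] at this
      have h4 : R / Λ = c * Λ := by rw [hR]; field_simp
      rwa [h4] at this ⊢
    have h5 : 8 * Real.exp 1 * Real.exp (2 * Λ) * D ≤ 2 * Real.cosh (R / Λ) := (hcB Λ hΛ D hDK).trans h3
    have hDpos : (0 : ℝ) < D := by exact_mod_cast hD0
    refine h2.trans ?_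
    rw [le_div_iff₀ (by positivity)]
    have h6 : (Fintype.card (OffD X) : ℝ) ≤ Real.exp (2 * Λ) := hE2.trans hnexp
    calc (Fintype.card (OffD X) : ℝ) * ((Real.cosh (R / Λ))⁻¹ * Real.exp 1) * (4 * D)
        = (Real.cosh (R / Λ))⁻¹ * (4 * Real.exp 1 * (Fintype.card (OffD X) : ℝ) * D) := by ring
      _ ≤ (Real.cosh (R / Λ))⁻¹ * (4 * Real.exp 1 * Real.exp (2 * Λ) * D) := by gcongr
      _ ≤ (Real.cosh (R / Λ))⁻¹ * Real.cosh (R / Λ) := by
          gcongr
          linarith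
      _ = 1 := inv_mul_cancel₀ hcp.ne'
  obtain ⟨s, hs1, hs2⟩ := Crest.Agent.R232.sampling l hlm Y hY0 hY1 b hb0 h h0 (by linarith) m hm0 hmY D hD0 htD hbD
  -- conclusion
  have hDpos : (0 : ℝ) < D := by exact_mod_cast hD0
  have hκD : 0 < κ * D := by positivity
  refine ⟨D, fun x j => s j x / (κ * D) ^ (1 / p), hDfin, fun x x' hxx => ?_⟩
  have hdpos := hd.pos x x' hxx
  have hdp : 0 < d x x' ^ p := Real.rpow_pos_of_pos hdpos p
  set e : OffD X := ⟨(x, x'), hxx⟩ with he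
  have key : ∀ j, |s j x / (κ * D) ^ (1 / p) - s j x' / (κ * D) ^ (1 / p)| ^ p =
      d x x' ^ p * (R ^ p / (κ * D)) * Y e (s j) := by
    intro j
    have h1 : |grad d (s j) e.1| ≤ R := hbsmall (s j) (hs1 j) e
    rw [hYR, min_eq_left h1, ← sub_div, abs_div, Real.div_rpow (abs_nonneg _) (abs_nonneg _)]
    have h2 : |(κ * D) ^ (1 / p)| ^ p = κ * D := by
      rw [abs_of_pos (Real.rpow_pos_of_pos hκD _), ← Real.rpow_mul hκD.le]
      rw [one_div, inv_mul_cancel₀ hp0.ne', Real.rpow_one]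
    have h3 : |s j x - s j x'| ^ p = d x x' ^ p * |grad d (s j) e.1| ^ p := by
      rw [← Real.mul_rpow hdpos.le (abs_nonneg _)]
      congr 1
      show |s j x - s j x'| = d x x' * |(s j x - s j x') / d x x'|
      rw [abs_div, abs_of_pos hdpos]
      field_simp
    rw [h2, h3]
    field_simp
  simp only [key]
  rw [← Finset.mul_sum]
  obtain ⟨g1, g2⟩ := hs2 e
  rw [hEY e] at g1 g2
  have k1 := hlo e
  have k2 := hup e
  set A : ℝ := EE l (fun s => (min |grad d s e.1| R) ^ p) with hA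
  exact ⟨final_lo h0 h4 (by rw [hh]; ring) hdp hRp hκ0 hDpos k1 g1,
    final_up h0 h4 (by rw [hh]; ring) hdp hRp hκ0 hDpos k2 g2⟩

end Crest.Agent.R232.T9
private theorem rz_a6d0caa00e : type_of% @_root_.Crest.Agent.R232.T9.idx.eq_def := @_root_.Crest.Agent.R232.T9.idx.eq_def -- L231
private theorem rz_de963f4b09 : type_of% @_root_.Crest.Agent.R232.T9.idx.eq_1 := @_root_.Crest.Agent.R232.T9.idx.eq_1 -- L231
end

-- ▼ part R232/FinApprox
section

set_option autoImplicit false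
open MeasureTheory
open scoped ENNReal

namespace Crest.Agent.R232

universe u

/-- The simple function with values in `Fin n → ℝ` made of `n` simple functions. -/
noncomputable def piSF {α : Type u} [MeasurableSpace α] {n : ℕ} (f : Fin n → SimpleFunc α ℝ) :
    SimpleFunc α (Fin n → ℝ) where
  toFun a := fun i => f i a
  measurableSet_fiber' v := by
    have : (fun a => fun i => f i a) ⁻¹' {v} = ⋂ i, (f i) ⁻¹' {v i} := by
      ext a
      simp [funext_iff]
    rw [this]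
    exact MeasurableSet.iInter fun i => (f i).measurableSet_fiber (v i)
  finite_range' := by
    refine (Set.Finite.pi' (fun i => (f i).finite_range)).subset ?_
    rintro _ ⟨a, rfl⟩ i
    exact ⟨a, rfl⟩

/-- Norm of a difference of two members of the simple-function family as a finite sum. -/
theorem lintegral_piSF {α : Type u} [MeasurableSpace α] (μ : Measure α) {n : ℕ}
    (f : Fin n → SimpleFunc α ℝ) (q : ℝ) (i j : Fin n) :
    ∫⁻ a, ‖f i a - f j a‖ₑ ^ q ∂μ =
      ∑ v ∈ (piSF f).range, ‖v i - v j‖ₑ ^ q * μ ((piSF f) ⁻¹' {v}) := by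
  rw [← SimpleFunc.map_lintegral (fun v : Fin n → ℝ => ‖v i - v j‖ₑ ^ q) (piSF f),
    ← SimpleFunc.lintegral_eq_lintegral]
  rfl

theorem finApprox {p : ℝ≥0∞} [Fact (1 ≤ p)] (hptop : p ≠ ⊤) {α : Type u} [MeasurableSpace α]
    (μ : Measure α) {n : ℕ} (x : Fin n → Lp ℝ p μ) (hx : Function.Injective x)
    {ε : ℝ} (hε : 0 < ε) :
    ∃ (m : ℕ) (y : Fin n → Fin m → ℝ), ∀ i j,
      (1 - ε) * ‖x i - x j‖ ≤ (∑ w, |y i w - y j w| ^ p.toReal) ^ (1 / p.toReal) ∧
      (∑ w, |y i w - y j w| ^ p.toReal) ^ (1 / p.toReal) ≤ (1 + ε) * ‖x i - x j‖ := by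
  classical
  have hp1 : 1 ≤ p := Fact.out
  have hp0 : p ≠ 0 := (lt_of_lt_of_le one_pos hp1).ne'
  have hpr : 0 < p.toReal := ENNReal.toReal_pos hp0 hptop
  -- minimal distance
  obtain ⟨δ, hδ, hδle⟩ : ∃ δ > 0, ∀ i j, i ≠ j → 2 * δ ≤ ε * ‖x i - x j‖ := by
    have hfin : (Set.range (fun q : {q : Fin n × Fin n // q.1 ≠ q.2} =>
        ε * ‖x q.1.1 - x q.1.2‖ / 2)).Finite := Set.finite_range _
    rcases isEmpty_or_nonempty {q : Fin n × Fin n // q.1 ≠ q.2} with he | hne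
    · exact ⟨1, one_pos, fun i j hij => (he.false ⟨(i, j), hij⟩).elim⟩
    · obtain ⟨q, hq⟩ := Finite.exists_min (fun q : {q : Fin n × Fin n // q.1 ≠ q.2} =>
        ε * ‖x q.1.1 - x q.1.2‖ / 2)
      refine ⟨ε * ‖x q.1.1 - x q.1.2‖ / 2, ?_, fun i j hij => ?_⟩
      · have : 0 < ‖x q.1.1 - x q.1.2‖ := norm_pos_iff.mpr (sub_ne_zero.mpr (hx.ne q.2))
        positivity
      · have := hq ⟨(i, j), hij⟩
        simp only at this
        linarith
  -- approximate
  have happ : ∀ i, ∃ s : Lp.simpleFunc ℝ p μ, ‖x i - (s : Lp ℝ p μ)‖ < δ := by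
    intro i
    have := (Lp.simpleFunc.dense (E := ℝ) (μ := μ) hptop) (x i)
    rw [Metric.mem_closure_iff] at this
    obtain ⟨b, hb, hlt⟩ := this δ hδ
    exact ⟨⟨b, hb⟩, by rwa [dist_eq_norm] at hlt⟩
  choose s hs using happ
  let f : Fin n → SimpleFunc α ℝ := fun i => Lp.simpleFunc.toSimpleFunc (s i)
  have hfs : ∀ i, (f i : α → ℝ) =ᵐ[μ] ((s i : Lp ℝ p μ) : α → ℝ) := fun i =>
    Lp.simpleFunc.toSimpleFunc_eq_toFun (s i)
  have hfm : ∀ i, MemLp (f i) p μ := fun i => Lp.simpleFunc.memLp (s i)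
  let F := piSF f
  -- finite measure of the atoms
  have hatom : ∀ v ∈ F.range, v ≠ 0 → μ (F ⁻¹' {v}) < ⊤ := by
    intro v _ hv
    obtain ⟨i, hi⟩ : ∃ i, v i ≠ 0 := by
      by_contra hcon
      push Not at hcon
      exact hv (funext hcon)
    have h1 : F ⁻¹' {v} ⊆ (f i) ⁻¹' {v i} := by
      intro a ha
      have ha' : (fun k => f k a) = v := ha
      simp [← ha']
    have h2 : μ ((f i) ⁻¹' {v i}) < ⊤ :=
      SimpleFunc.measure_preimage_lt_top_of_memLp hp0 hptop (f i) (hfm i) (v i) hi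
    exact lt_of_le_of_lt (measure_mono h1) h2
  let e := F.range.equivFin
  refine ⟨F.range.card, fun i w =>
    ((μ (F ⁻¹' {((e.symm w : F.range) : Fin n → ℝ)})).toReal) ^ (1 / p.toReal) *
      ((e.symm w : F.range) : Fin n → ℝ) i, ?_⟩
  -- the finite sum is the norm of s i - s j
  have hkey : ∀ i j, (∑ w, |((μ (F ⁻¹' {((e.symm w : F.range) : Fin n → ℝ)})).toReal)
        ^ (1 / p.toReal) * ((e.symm w : F.range) : Fin n → ℝ) i -
      ((μ (F ⁻¹' {((e.symm w : F.range) : Fin n → ℝ)})).toReal) ^ (1 / p.toReal) *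
      ((e.symm w : F.range) : Fin n → ℝ) j| ^ p.toReal) ^ (1 / p.toReal) =
      ‖(s i : Lp ℝ p μ) - (s j : Lp ℝ p μ)‖ := by
    intro i j
    have h1 : ‖(s i : Lp ℝ p μ) - (s j : Lp ℝ p μ)‖ =
        ((∫⁻ a, ‖f i a - f j a‖ₑ ^ p.toReal ∂μ) ^ (1 / p.toReal)).toReal := by
      rw [Lp.norm_def, eLpNorm_eq_lintegral_rpow_enorm_toReal hp0 hptop]
      congr 2
      apply lintegral_congr_ae
      filter_upwards [Lp.coeFn_sub (s i : Lp ℝ p μ) (s j : Lp ℝ p μ), hfs i, hfs j]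
        with a h1 h2 h3
      rw [h1, Pi.sub_apply, h2, h3]
    rw [h1, lintegral_piSF μ f p.toReal i j, ← ENNReal.toReal_rpow]
    congr 1
    rw [ENNReal.toReal_sum]
    · rw [← Finset.sum_coe_sort F.range, ← Equiv.sum_comp e.symm]
      refine Finset.sum_congr rfl fun w _ => ?_
      rw [← mul_sub, abs_mul, Real.mul_rpow (abs_nonneg _) (abs_nonneg _), ENNReal.toReal_mul,
        abs_of_nonneg (Real.rpow_nonneg ENNReal.toReal_nonneg _),
        ← Real.rpow_mul ENNReal.toReal_nonneg, one_div, inv_mul_cancel₀ hpr.ne', Real.rpow_one,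
        mul_comm]
      congr 1
      rw [← ENNReal.toReal_rpow, toReal_enorm, Real.norm_eq_abs]
    · intro v hv
      by_cases hv0 : v = 0
      · subst hv0
        simp [hpr]
      · exact ENNReal.mul_ne_top (ENNReal.rpow_ne_top_of_nonneg hpr.le (by simp))
          (hatom v hv hv0).ne
  intro i j
  rw [hkey i j]
  by_cases hij : i = j
  · subst hij
    simp
  have hd := hδle i j hij
  have htri : |‖(s i : Lp ℝ p μ) - (s j : Lp ℝ p μ)‖ - ‖x i - x j‖| ≤ 2 * δ := by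
    refine (abs_norm_sub_norm_le _ _).trans ?_
    have : (s i : Lp ℝ p μ) - (s j : Lp ℝ p μ) - (x i - x j) =
        (x j - (s j : Lp ℝ p μ)) - (x i - (s i : Lp ℝ p μ)) := by abel
    rw [this]
    refine (norm_sub_le _ _).trans ?_
    linarith [hs i, hs j]
  rw [abs_le] at htri
  constructor
  · nlinarith [htri.1]
  · nlinarith [htri.2]

end Crest.Agent.R232
end

-- ▼ part R232/T10
section

set_option autoImplicit false

open MeasureTheory

namespace Crest.Agent.R232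

/-- T10: discretisation of finitely many points of `L^p`. -/
theorem discretize (p : ENNReal) [Fact (1 ≤ p)] (hptop : p ≠ ⊤) (D : ℝ) (hD : 1 < D) (n : ℕ)
    {α : Type*} [MeasurableSpace α] (μ : Measure α) (x : Fin n → Lp ℝ p μ)
    (hx : Function.Injective x) :
    ∃ (A : Type) (_ : Fintype A) (m : A → ℝ) (f : A → Fin n → ℝ), (∀ a, 0 ≤ m a) ∧
      ∀ i j, i ≠ j → ‖x i - x j‖ ≤ D * (∑ a, m a * |f a i - f a j| ^ p.toReal) ^ (1 / p.toReal) ∧
        (∑ a, m a * |f a i - f a j| ^ p.toReal) ^ (1 / p.toReal) ≤ D * ‖x i - x j‖ := by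
  have hD0 : 0 < D := by linarith
  have hε : 0 < 1 - 1 / D := by
    rw [sub_pos, div_lt_one hD0]; exact hD
  obtain ⟨m, y, hy⟩ := finApprox (p := p) hptop μ x hx hε
  refine ⟨Fin m, inferInstance, fun _ => 1, fun a i => y i a, fun _ => zero_le_one, ?_⟩
  intro i j _
  obtain ⟨h1, h2⟩ := hy i j
  simp only [one_mul]
  have hn : 0 ≤ ‖x i - x j‖ := norm_nonneg _
  constructor
  · have h3 : ‖x i - x j‖ = D * ((1 - (1 - 1 / D)) * ‖x i - x j‖) := by
      field_simp
      ring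
    calc ‖x i - x j‖ = D * ((1 - (1 - 1 / D)) * ‖x i - x j‖) := h3
      _ ≤ _ := by gcongr
  · refine h2.trans ?_
    have h4 : 1 + (1 - 1 / D) ≤ D := by
      have : 0 ≤ (D - 1) ^ 2 / D := by positivity
      have h5 : (D - 1) ^ 2 / D = D - 2 + 1 / D := by field_simp; ring
      linarith
    gcongr

end Crest.Agent.R232
end

-- ▼ part R232/T11

/-!
# R232, T11: final assembly of S0358 from `outer` (T6), `sparse` (T9), `discretize` (T10)

The three inputs are taken as hypotheses, so that this file does not depend on the modules proving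
them.
-/

set_option autoImplicit false

open Finset MeasureTheory
open scoped ENNReal

namespace Crest.Agent.R232

/-- statement of T6 for one exponent -/
def OuterStmt (p : ℝ) : Prop :=
  ∀ (ε : ℝ) (_ : 0 < ε),
    ∃ C : ℝ, 0 < C ∧ ∀ (X : Type) [Fintype X] [DecidableEq X] (_ : 2 ≤ Fintype.card X)
      (d : X → X → ℝ) (_ : IsDist d) (A : Type) [Fintype A] (m : A → ℝ) (_ : ∀ a, 0 ≤ m a)
      (f : A → X → ℝ) (_ : ∀ x y, x ≠ y → ∑ a, m a * |f a x - f a y| ^ p = d x y ^ p),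
      ∃ (Λ : ℝ) (Ω : Type) (_ : Fintype Ω) (μ : Ω → ℝ) (B : Ω → X × X → ℝ) (F : Ω → X → ℝ),
        1 ≤ Λ ∧ Real.log (Fintype.card X) ≤ Λ ∧
        Λ ≤ Real.exp (C * Real.log (Fintype.card X) ^ gam p) ∧
        (∀ ω, 0 ≤ μ ω) ∧
        ∀ x y, x ≠ y →
          (∑ ω, μ ω * |B ω (x, y)| ^ p = 1) ∧
          (∑ ω ∈ univ.filter (fun ω => B ω (x, y) ≠ 0), μ ω ≤ Λ) ∧
          (∑ ω, μ ω * |grad d (F ω) (x, y) - B ω (x, y)| ^ p ≤ ε) ∧
          (∑ ω, μ ω * (grad d (F ω) (x, y) - B ω (x, y)) ^ 2 ≤ Λ) ∧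
          (∑ ω, μ ω * (grad d (F ω) (x, y)) ^ 2 ≤ Λ) ∧
          (∀ ω, |grad d (F ω) (x, y)| ≤ Λ)

/-- statement of T9 for one exponent -/
def SparseStmt (p : ℝ) : Prop :=
  ∀ (η : ℝ) (_ : 0 < η) (_ : η < 1),
    ∃ ε : ℝ, 0 < ε ∧ ∃ C : ℝ, 1 ≤ C ∧ ∀ (X : Type) [Fintype X] [DecidableEq X]
      (_ : 2 ≤ Fintype.card X) (d : X → X → ℝ) (_ : IsDist d) (Λ : ℝ) (Ω : Type) [Fintype Ω]
      (μ : Ω → ℝ) (B : Ω → X × X → ℝ) (F : Ω → X → ℝ)
      (_ : 1 ≤ Λ) (_ : Real.log (Fintype.card X) ≤ Λ) (_ : ∀ ω, 0 ≤ μ ω)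
      (_ : ∀ x y, x ≠ y →
          (∑ ω, μ ω * |B ω (x, y)| ^ p = 1) ∧
          (∑ ω ∈ univ.filter (fun ω => B ω (x, y) ≠ 0), μ ω ≤ Λ) ∧
          (∑ ω, μ ω * |grad d (F ω) (x, y) - B ω (x, y)| ^ p ≤ ε) ∧
          (∑ ω, μ ω * (grad d (F ω) (x, y) - B ω (x, y)) ^ 2 ≤ Λ) ∧
          (∑ ω, μ ω * (grad d (F ω) (x, y)) ^ 2 ≤ Λ) ∧
          (∀ ω, |grad d (F ω) (x, y)| ≤ Λ)),
      ∃ (D : ℕ) (y : X → Fin D → ℝ), (D : ℝ) ≤ C * Λ ^ C ∧
        ∀ x x', x ≠ x' → (1 - η) * d x x' ^ p ≤ ∑ j, |y x j - y x' j| ^ p ∧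
          ∑ j, |y x j - y x' j| ^ p ≤ (1 + η) * d x x' ^ p

/-- statement of T10 for one exponent and measure space -/
def DiscretizeStmt {α : Type*} [MeasurableSpace α] (p : ENNReal) [Fact (1 ≤ p)] (μ : Measure α) :
    Prop :=
  ∀ (D : ℝ) (_ : 1 < D) (n : ℕ) (x : Fin n → Lp ℝ p μ) (_ : Function.Injective x),
    ∃ (A : Type) (_ : Fintype A) (m : A → ℝ) (f : A → Fin n → ℝ), (∀ a, 0 ≤ m a) ∧
      ∀ i j, i ≠ j → ‖x i - x j‖ ≤ D * (∑ a, m a * |f a i - f a j| ^ p.toReal) ^ (1 / p.toReal) ∧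
        (∑ a, m a * |f a i - f a j| ^ p.toReal) ^ (1 / p.toReal) ≤ D * ‖x i - x j‖

theorem gam_pos {p : ℝ} (hp1 : 1 < p) (hp2 : p ≠ 2) : 0 < gam p := by
  unfold gam
  split_ifs with h
  · linarith
  · have h2 : 2 < p := lt_of_le_of_ne (not_lt.1 h) (Ne.symm hp2)
    have h3 : 2 / p < 1 := by rw [div_lt_one (by linarith)]; exact h2
    linarith

/-- the finite-dimensional core: from the discretised data to a map into `ℓ_p^N`. -/
theorem core_of {p : ℝ} (hp1 : 1 < p) (hp2 : p ≠ 2) (hO : OuterStmt p) (hS : SparseStmt p)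
    (η : ℝ) (hη : 0 < η) (hη1 : η < 1) :
    ∃ C : ℝ, ∀ (n : ℕ) (_ : 2 ≤ n) (A : Type) [Fintype A] (m : A → ℝ) (_ : ∀ a, 0 ≤ m a)
      (f : A → Fin n → ℝ) (_ : ∀ i j, i ≠ j → 0 < (∑ a, m a * |f a i - f a j| ^ p)),
      ∃ (D : ℕ) (y : Fin n → Fin D → ℝ), (D : ℝ) ≤ Real.exp (C * Real.log n ^ gam p) ∧
        ∀ i j, i ≠ j →
          (1 - η) * (∑ a, m a * |f a i - f a j| ^ p) ≤ ∑ k, |y i k - y j k| ^ p ∧
          ∑ k, |y i k - y j k| ^ p ≤ (1 + η) * (∑ a, m a * |f a i - f a j| ^ p) := by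
  obtain ⟨ε, hε, C₉, hC₉, hS'⟩ := hS η hη hη1
  obtain ⟨C₆, hC₆, hO'⟩ := hO ε hε
  have hp0 : 0 < p := by linarith
  have hg := gam_pos hp1 hp2
  have hlog2 : 0 < Real.log 2 := Real.log_pos (by norm_num)
  have hlog2g : 0 < Real.log 2 ^ gam p := Real.rpow_pos_of_pos hlog2 _
  refine ⟨C₉ * C₆ + Real.log C₉ / Real.log 2 ^ gam p, ?_⟩
  intro n hn A _ m hm f hf
  let d : Fin n → Fin n → ℝ := fun i j => (∑ a, m a * |f a i - f a j| ^ p) ^ (1 / p)
  have hS0 : ∀ i j, 0 ≤ ∑ a, m a * |f a i - f a j| ^ p := fun i j =>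
    Finset.sum_nonneg fun a _ => mul_nonneg (hm a) (Real.rpow_nonneg (abs_nonneg _) _)
  have hdp : ∀ i j, d i j ^ p = ∑ a, m a * |f a i - f a j| ^ p := by
    intro i j
    show ((∑ a, m a * |f a i - f a j| ^ p) ^ (1 / p)) ^ p = _
    rw [← Real.rpow_mul (hS0 i j), one_div, inv_mul_cancel₀ hp0.ne', Real.rpow_one]
  have hd : IsDist d := by
    refine ⟨fun i j => ?_, fun i j hij => ?_⟩
    · show (∑ a, m a * |f a i - f a j| ^ p) ^ (1 / p) = (∑ a, m a * |f a j - f a i| ^ p) ^ (1 / p)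
      simp only [abs_sub_comm]
    · exact Real.rpow_pos_of_pos (hf i j hij) _
  have hcard : 2 ≤ Fintype.card (Fin n) := by simpa using hn
  obtain ⟨Λ, Ω, hΩ, μ, B, F, h1, h2, h3, h4, h5⟩ := hO' (Fin n) hcard d hd A m hm f
    (fun i j _ => (hdp i j).symm)
  obtain ⟨D, y, hD, hy⟩ := hS' (Fin n) hcard d hd Λ Ω μ B F h1 h2 h4 h5
  refine ⟨D, y, ?_, ?_⟩
  · rw [Fintype.card_fin] at h3
    have hΛ0 : 0 < Λ := by linarith
    have e1 : Λ ^ C₉ ≤ Real.exp (C₉ * C₆ * Real.log n ^ gam p) := by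
      calc Λ ^ C₉ ≤ (Real.exp (C₆ * Real.log n ^ gam p)) ^ C₉ :=
            Real.rpow_le_rpow hΛ0.le h3 (by linarith)
        _ = Real.exp (C₉ * C₆ * Real.log n ^ gam p) := by
            rw [← Real.exp_mul]; ring_nf
    have e2 : Real.log 2 ^ gam p ≤ Real.log n ^ gam p := by
      apply Real.rpow_le_rpow hlog2.le _ hg.le
      apply Real.log_le_log (by norm_num)
      exact_mod_cast hn
    have e3 : Real.log C₉ ≤ Real.log C₉ / Real.log 2 ^ gam p * Real.log n ^ gam p := by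
      rw [div_mul_eq_mul_div, le_div_iff₀ hlog2g]
      exact mul_le_mul_of_nonneg_left e2 (Real.log_nonneg hC₉)
    have e4 : C₉ ≤ Real.exp (Real.log C₉ / Real.log 2 ^ gam p * Real.log n ^ gam p) := by
      calc C₉ = Real.exp (Real.log C₉) := (Real.exp_log (by linarith)).symm
        _ ≤ _ := Real.exp_le_exp.2 e3
    calc (D : ℝ) ≤ C₉ * Λ ^ C₉ := hD
      _ ≤ Real.exp (Real.log C₉ / Real.log 2 ^ gam p * Real.log n ^ gam p) *
          Real.exp (C₉ * C₆ * Real.log n ^ gam p) :=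
          mul_le_mul e4 e1 (Real.rpow_nonneg hΛ0.le _) (Real.exp_pos _).le
      _ = _ := by rw [← Real.exp_add]; ring_nf
  · intro i j hij
    have := hy i j hij
    rw [hdp] at this
    exact this

/-- T11. -/
theorem final_of {p : ℝ≥0∞} [Fact (1 ≤ p)] (hp1 : 1 < p) (hptop : p ≠ ⊤) (hp2 : p ≠ 2)
    (hO : OuterStmt p.toReal) (hS : SparseStmt p.toReal)
    (D : ℝ) (hD : 1 < D) :
    ∃ C : ℝ, ∀ (n : ℕ), 2 ≤ n →
      ∀ {α : Type*} [MeasurableSpace α] (μ : Measure α) (_ : DiscretizeStmt p μ)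
        (x : Fin n → Lp ℝ p μ),
        Function.Injective x →
        ∃ d : ℕ, (d : ℝ) ≤ Real.exp (C * Real.log n ^ gam p.toReal) ∧
          ∃ (y : Fin n → PiLp p (fun _ : Fin d => ℝ)) (s : ℝ), 0 < s ∧
            ∀ i j, s * ‖x i - x j‖ ≤ ‖y i - y j‖ ∧ ‖y i - y j‖ ≤ D * s * ‖x i - x j‖ := by
  have hP1 : 1 < p.toReal := by
    rw [← ENNReal.toReal_one]
    exact (ENNReal.toReal_lt_toReal ENNReal.one_ne_top hptop).2 hp1
  have hP2 : p.toReal ≠ 2 := by
    intro h
    apply hp2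
    rw [← ENNReal.ofReal_toReal hptop, h]
    simp
  have hP0 : 0 < p.toReal := by linarith
  -- the auxiliary constants
  set R : ℝ := Real.sqrt D with hR
  have hR1 : 1 < R := by
    rw [hR, Real.lt_sqrt (by norm_num)]; simpa using hD
  set Q : ℝ := Real.sqrt R with hQ
  have hQ1 : 1 < Q := by
    rw [hQ, Real.lt_sqrt (by norm_num)]; simpa using hR1
  have hQ2 : Q * Q = R := Real.mul_self_sqrt (by linarith)
  have hR2 : R * R = D := Real.mul_self_sqrt (by linarith)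
  set η : ℝ := (R - 1) / (R + 1) with hηdef
  have hη : 0 < η := by
    rw [hηdef]; apply div_pos <;> linarith
  have hη1 : η < 1 := by
    rw [hηdef, div_lt_one (by linarith)]; linarith
  have hηR : 1 + η = R * (1 - η) := by
    rw [hηdef]
    have : R + 1 ≠ 0 := by linarith
    field_simp
    ring
  obtain ⟨C, hC⟩ := core_of hP1 hP2 hO hS η hη hη1
  refine ⟨C, ?_⟩
  intro n hn α _ μ hdisc x hx
  obtain ⟨A, hA, m, f, hm, hmf⟩ := hdisc Q hQ1 n x hx
  have hS0 : ∀ i j, 0 ≤ ∑ a, m a * |f a i - f a j| ^ p.toReal := fun i j =>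
    Finset.sum_nonneg fun a _ => mul_nonneg (hm a) (Real.rpow_nonneg (abs_nonneg _) _)
  have hpos : ∀ i j, i ≠ j → 0 < ∑ a, m a * |f a i - f a j| ^ p.toReal := by
    intro i j hij
    refine lt_of_le_of_ne (hS0 i j) (fun h0 => ?_)
    have h1 := (hmf i j hij).1
    rw [← h0, Real.zero_rpow (by positivity), mul_zero] at h1
    have h2 : 0 < ‖x i - x j‖ := norm_pos_iff.2 (sub_ne_zero.2 fun h => hij (hx h))
    linarith
  obtain ⟨N, y, hN, hy⟩ := hC n hn A m hm f hpos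
  refine ⟨N, hN, fun i => WithLp.toLp p (y i), (1 - η) ^ (1 / p.toReal) / Q, ?_, ?_⟩
  · exact div_pos (Real.rpow_pos_of_pos (by linarith) _) (by linarith)
  intro i j
  by_cases hij : i = j
  · subst hij; simp
  have hnorm : ‖(WithLp.toLp p (y i) : PiLp p (fun _ : Fin N => ℝ)) - WithLp.toLp p (y j)‖ =
      (∑ k, |y i k - y j k| ^ p.toReal) ^ (1 / p.toReal) := by
    rw [PiLp.norm_eq_sum hP0]
    simp [Real.norm_eq_abs]
  rw [hnorm]
  obtain ⟨h1, h2⟩ := hmf i j hij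
  obtain ⟨h3, h4⟩ := hy i j hij
  set T : ℝ := ∑ a, m a * |f a i - f a j| ^ p.toReal with hT
  have hT0 : 0 ≤ T := hS0 i j
  have hip : 0 ≤ 1 / p.toReal := by positivity
  have hη0 : 0 ≤ 1 - η := by linarith
  have k1 : (1 - η) ^ (1 / p.toReal) * T ^ (1 / p.toReal) ≤
      (∑ k, |y i k - y j k| ^ p.toReal) ^ (1 / p.toReal) := by
    rw [← Real.mul_rpow hη0 hT0]
    exact Real.rpow_le_rpow (mul_nonneg hη0 hT0) h3 hip
  have k2 : (∑ k, |y i k - y j k| ^ p.toReal) ^ (1 / p.toReal) ≤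
      (1 + η) ^ (1 / p.toReal) * T ^ (1 / p.toReal) := by
    rw [← Real.mul_rpow (by linarith) hT0]
    exact Real.rpow_le_rpow (Finset.sum_nonneg fun k _ => Real.rpow_nonneg (abs_nonneg _) _) h4 hip
  have k3 : (1 + η) ^ (1 / p.toReal) ≤ R * (1 - η) ^ (1 / p.toReal) := by
    rw [hηR, Real.mul_rpow (by linarith) hη0]
    apply mul_le_mul_of_nonneg_right _ (Real.rpow_nonneg hη0 _)
    calc R ^ (1 / p.toReal) ≤ R ^ (1 : ℝ) := by
          apply Real.rpow_le_rpow_of_exponent_le hR1.le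
          rw [div_le_one hP0]; exact hP1.le
      _ = R := Real.rpow_one R
  have hQ0 : 0 < Q := by linarith
  have hE : 0 ≤ (1 - η) ^ (1 / p.toReal) := Real.rpow_nonneg hη0 _
  constructor
  · calc (1 - η) ^ (1 / p.toReal) / Q * ‖x i - x j‖
        ≤ (1 - η) ^ (1 / p.toReal) / Q * (Q * T ^ (1 / p.toReal)) :=
          mul_le_mul_of_nonneg_left h1 (div_nonneg hE hQ0.le)
      _ = (1 - η) ^ (1 / p.toReal) * T ^ (1 / p.toReal) := by field_simp
      _ ≤ _ := k1
  · calc (∑ k, |y i k - y j k| ^ p.toReal) ^ (1 / p.toReal)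
        ≤ (1 + η) ^ (1 / p.toReal) * T ^ (1 / p.toReal) := k2
      _ ≤ (R * (1 - η) ^ (1 / p.toReal)) * (Q * ‖x i - x j‖) :=
          mul_le_mul k3 h2 (Real.rpow_nonneg hT0 _) (mul_nonneg (by linarith) hE)
      _ = D * ((1 - η) ^ (1 / p.toReal) / Q) * ‖x i - x j‖ := by
          rw [← hR2]
          have : R * (1 - η) ^ (1 / p.toReal) * (Q * ‖x i - x j‖) =
            R * (Q * Q) * ((1 - η) ^ (1 / p.toReal) / Q) * ‖x i - x j‖ := by
            field_simp
          rw [this, hQ2]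

end Crest.Agent.R232
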