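import Crest.Agent.R232.Defs
import Crest.Agent.R232.T1

-- ▼ part R232/T2Minimax
section

/-! # R232 (S0358), task T2: finite dimensional minimax (helper605) -/

set_option autoImplicit false

open Finset

namespace Crest.Agent.R232

/-- T2: finite dimensional minimax. -/
theorem exists_le_of_forall_weights {V : Type*} [AddCommGroup V] [Module ℝ V] {E : Type*}
    [Fintype E] [Nonempty E] (K : Set V) (φ : E → V → ℝ)
    (hφ : ∀ e, ConvexOn ℝ K (φ e)) (c c' : ℝ) (hc : c < c')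
    (h : ∀ W : E → ℝ, (∀ e, 0 ≤ W e) → ∑ e, W e = 1 → ∃ k ∈ K, ∑ e, W e * φ e k ≤ c) :
    ∃ k ∈ K, ∀ e, φ e k ≤ c' := by
  classical
  -- the upward closed convex open set
  set U : Set (E → ℝ) := {u | ∃ k ∈ K, ∀ e, φ e k < u e} with hU
  have hUconv : Convex ℝ U := by
    rintro u ⟨k, hk, hku⟩ u' ⟨k', hk', hku'⟩ a b ha hb hab
    refine ⟨a • k + b • k', (hφ (Classical.arbitrary E)).1 hk hk' ha hb hab, fun e => ?_⟩
    have h1 := (hφ e).2 hk hk' ha hb hab
    simp only [smul_eq_mul] at h1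
    simp only [Pi.add_apply, Pi.smul_apply, smul_eq_mul]
    have h2 := hku e
    have h3 := hku' e
    rcases eq_or_lt_of_le ha with h0 | h0
    · subst h0
      have : b = 1 := by linarith
      subst this
      linarith
    · nlinarith [mul_lt_mul_of_pos_left h2 h0, mul_le_mul_of_nonneg_left h3.le hb]
  have hUopen : IsOpen U := by
    have : U = ⋃ k ∈ K, ⋂ e, {u : E → ℝ | φ e k < u e} := by
      ext u
      simp [hU]
    rw [this]
    refine isOpen_biUnion fun k _ => isOpen_iInter_of_finite fun e => ?_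
    exact isOpen_lt continuous_const (continuous_apply e)
  by_cases hmem : (fun _ : E => c') ∈ U
  · obtain ⟨k, hk, hk'⟩ := hmem
    exact ⟨k, hk, fun e => (hk' e).le⟩
  exfalso
  obtain ⟨f, hf⟩ := geometric_hahn_banach_open_point hUconv hUopen hmem
  -- coordinates of the functional
  have hfu : ∀ u : E → ℝ, f u = ∑ e, u e * f (Pi.single e 1) := by
    intro u
    conv_lhs => rw [pi_eq_sum_univ u ]
    rw [map_sum]
    apply Finset.sum_congr rfl
    intro e _
    rw [map_smul, smul_eq_mul]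
    congr 2
    funext j
    simp [Pi.single_apply, eq_comm]
  -- `K` is not empty
  obtain ⟨k0, hk0, -⟩ : ∃ k ∈ K, ∑ e, (fun _ : E => (1 : ℝ) / Fintype.card E) e * φ e k ≤ c := by
    refine h _ (fun e => by positivity) ?_
    simp
  have hup : ∀ u ∈ U, ∀ e, ∀ t : ℝ, 0 ≤ t → u + t • Pi.single e (1 : ℝ) ∈ U := by
    rintro u ⟨k, hk, hku⟩ e t ht
    refine ⟨k, hk, fun e' => ?_⟩
    have := hku e'
    simp only [Pi.add_apply, Pi.smul_apply, smul_eq_mul]
    have h1 : (0 : ℝ) ≤ t * (Pi.single e (1 : ℝ) : E → ℝ) e' := by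
      apply mul_nonneg ht
      by_cases he : e' = e
      · subst he; simp
      · simp [he]
    linarith
  have hu0 : (fun e => φ e k0 + 1) ∈ U := ⟨k0, hk0, fun e => by linarith⟩
  have hneg : ∀ e, f (Pi.single e 1) ≤ 0 := by
    intro e
    by_contra hcon
    rw [not_le] at hcon
    set u0 : E → ℝ := fun e => φ e k0 + 1 with hu0def
    -- choose `t` big
    have key : ∀ t : ℝ, 0 ≤ t → f u0 + t * f (Pi.single e 1) < f (fun _ => c') := by
      intro t ht
      have := hf _ (hup u0 hu0 e t ht)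
      rwa [map_add, map_smul, smul_eq_mul] at this
    have h1 := key (|f (fun _ => c') - f u0| / f (Pi.single e 1)) (by positivity)
    rw [div_mul_cancel₀ _ hcon.ne'] at h1
    have := le_abs_self (f (fun _ => c') - f u0)
    linarith
  set lam : E → ℝ := fun e => - f (Pi.single e 1) with hlam
  have hlam0 : ∀ e, 0 ≤ lam e := fun e => by simp only [hlam]; linarith [hneg e]
  have hfu' : ∀ u : E → ℝ, f u = - ∑ e, lam e * u e := by
    intro u
    rw [hfu, ← Finset.sum_neg_distrib]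
    apply Finset.sum_congr rfl
    intro e _
    simp only [hlam]
    ring
  have hL : 0 < ∑ e, lam e := by
    rcases (Finset.sum_nonneg (fun e _ => hlam0 e)).lt_or_eq with h1 | h1
    · exact h1
    exfalso
    have h2 : ∀ e, lam e = 0 := by
      intro e
      exact (Finset.sum_eq_zero_iff_of_nonneg (fun e _ => hlam0 e)).1 h1.symm e (Finset.mem_univ e)
    have h3 := hf _ hu0
    rw [hfu', hfu'] at h3
    simp [h2] at h3
  obtain ⟨k, hk, hkc⟩ := h (fun e => lam e / ∑ e, lam e)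
    (fun e => div_nonneg (hlam0 e) hL.le) (by
      rw [← Finset.sum_div]
      exact div_self hL.ne')
  have hu : (fun e => φ e k + (c' - c)) ∈ U := ⟨k, hk, fun e => by linarith⟩
  have h4 := hf _ hu
  rw [hfu', hfu'] at h4
  have h5 : ∑ e, lam e * φ e k ≤ c * ∑ e, lam e := by
    have : ∑ e, lam e / (∑ e, lam e) * φ e k = (∑ e, lam e * φ e k) / ∑ e, lam e := by
      rw [Finset.sum_div]
      apply Finset.sum_congr rfl
      intro e _
      ring
    rw [this, div_le_iff₀ hL] at hkc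
    exact hkc
  have h6 : ∑ e, lam e * (φ e k + (c' - c)) = ∑ e, lam e * φ e k + (∑ e, lam e) * (c' - c) := by
    rw [Finset.sum_mul, ← Finset.sum_add_distrib]
    apply Finset.sum_congr rfl
    intro e _
    ring
  have h7 : ∑ e, lam e * c' = (∑ e, lam e) * c' := by
    rw [Finset.sum_mul]
  rw [h6, h7] at h4
  nlinarith

end Crest.Agent.R232
end

-- ▼ part R232/T3
section

set_option autoImplicit false

open Finset

namespace Crest.Agent.R232

section T3

variable {X : Type*} [Fintype X] [DecidableEq X]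

/-- symmetrised off-diagonal part -/
noncomputable def symO (W : X × X → ℝ) (e : X × X) : ℝ :=
  if e.1 = e.2 then 0 else (W (e.1, e.2) + W (e.2, e.1)) / 2

omit [Fintype X] in
theorem symO_nonneg {W : X × X → ℝ} (h : ∀ e, 0 ≤ W e) (e : X × X) : 0 ≤ symO W e := by
  unfold symO
  split_ifs
  · exact le_rfl
  · have h1 := h (e.1, e.2)
    have h2 := h (e.2, e.1)
    linarith

omit [Fintype X] in
theorem symO_swap (W : X × X → ℝ) (x y : X) : symO W (x, y) = symO W (y, x) := by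
  unfold symO
  by_cases hxy : x = y
  · subst hxy; rfl
  · rw [if_neg (by simpa using hxy), if_neg (by simpa using Ne.symm hxy)]
    simp only
    ring

omit [DecidableEq X] in
theorem sum_swap_eq (g : X × X → ℝ) : ∑ e : X × X, g (e.2, e.1) = ∑ e, g e :=
  (Equiv.prodComm X X).sum_comp g

theorem sum_symO_mul (W g : X × X → ℝ) (hs : ∀ x y, g (x, y) = g (y, x)) (hd : ∀ x, g (x, x) = 0) :
    ∑ e, symO W e * g e = ∑ e, W e * g e := by
  have h1 : ∀ e : X × X, symO W e * g e = (W e * g e + W (e.2, e.1) * g (e.2, e.1)) / 2 := by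
    rintro ⟨x, y⟩
    unfold symO
    by_cases hxy : x = y
    · subst hxy
      simp [hd]
    · rw [if_neg (by simpa using hxy)]
      simp only
      rw [hs y x]
      ring
  rw [Finset.sum_congr rfl (fun e _ => h1 e), ← Finset.sum_div, Finset.sum_add_distrib,
    sum_swap_eq (fun e => W e * g e)]
  ring

theorem sum_symO_le (W : X × X → ℝ) (h : ∀ e, 0 ≤ W e) : ∑ e, symO W e ≤ ∑ e, W e := by
  have h1 : ∀ e : X × X, symO W e ≤ (W e + W (e.2, e.1)) / 2 := by
    rintro ⟨x, y⟩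
    unfold symO
    have h1 := h (x, y)
    have h2 := h (y, x)
    split_ifs
    · simp only; linarith
    · simp only; exact le_rfl
  calc ∑ e, symO W e ≤ ∑ e : X × X, (W e + W (e.2, e.1)) / 2 := Finset.sum_le_sum fun e _ => h1 e
    _ = ∑ e, W e := by
      rw [← Finset.sum_div, Finset.sum_add_distrib, sum_swap_eq W]
      ring

/-- the constant weight off the diagonal -/
noncomputable def offC (c : ℝ) (e : X × X) : ℝ := if e.1 = e.2 then 0 else c

theorem sum_offC (c : ℝ) :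
    ∑ e : X × X, offC c e = (Fintype.card X * Fintype.card X - Fintype.card X : ℝ) * c := by
  have h1 : ∀ e : X × X, offC c e = c - (if e.1 = e.2 then c else 0) := by
    intro e
    unfold offC
    split_ifs <;> ring
  rw [Finset.sum_congr rfl (fun e _ => h1 e), Finset.sum_sub_distrib]
  have h2 : ∑ e : X × X, (if e.1 = e.2 then c else 0) = Fintype.card X * c := by
    rw [Fintype.sum_prod_type]
    simp [Finset.sum_ite_eq]
  rw [h2]
  simp only [Finset.sum_const, Finset.card_univ, Fintype.card_prod, nsmul_eq_mul]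
  push_cast
  ring

theorem apply_eq_sum (S : (X × X → ℝ) →ₗ[ℝ] (X → ℝ)) (V : X × X → ℝ) (x : X) :
    S V x = ∑ e', V e' * S (Pi.single e' 1) x := by
  have h1 : V = ∑ e', V e' • (Pi.single e' (1 : ℝ) : X × X → ℝ) := by
    funext e
    simp [Finset.sum_apply, Pi.single_apply]
  conv_lhs => rw [h1]
  rw [map_sum, Finset.sum_apply]
  refine Finset.sum_congr rfl fun e' _ => ?_
  rw [map_smul, Pi.smul_apply, smul_eq_mul]

theorem grad_apply_eq_sum (d : X → X → ℝ) (S : (X × X → ℝ) →ₗ[ℝ] (X → ℝ)) (V : X × X → ℝ)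
    (e : X × X) : grad d (S V) e = ∑ e', V e' * grad d (S (Pi.single e' 1)) e := by
  unfold grad
  rw [apply_eq_sum S V e.1, apply_eq_sum S V e.2, ← Finset.sum_sub_distrib, Finset.sum_div]
  refine Finset.sum_congr rfl fun e' _ => ?_
  ring

theorem abs_grad_apply_le (d : X → X → ℝ) (S : (X × X → ℝ) →ₗ[ℝ] (X → ℝ)) (V : X × X → ℝ)
    (e : X × X) : |grad d (S V) e| ≤ ∑ e', |V e'| * |grad d (S (Pi.single e' 1)) e| := by
  rw [grad_apply_eq_sum]
  refine (Finset.abs_sum_le_sum_abs _ _).trans (le_of_eq ?_)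
  exact Finset.sum_congr rfl fun e' _ => abs_mul _ _

/-- the convex set of admissible pairs -/
def KSet (d : X → X → ℝ) (Wout : X × X → ℝ) (L : ℝ) :
    Set (((X × X → ℝ) →ₗ[ℝ] (X → ℝ)) × (X × X → ℝ)) :=
  {k | (∀ e, 0 ≤ k.2 e) ∧ (∑ e, k.2 e ≤ 1) ∧
      (∀ (f : X → ℝ) (e : X × X), grad d (k.1 (grad d f)) e = grad d f e) ∧
      (∀ V : X × X → ℝ, ∑ e, Wout e * (grad d (k.1 V) e) ^ 2 ≤ 6 * ∑ e, k.2 e * (V e) ^ 2) ∧
      (∀ e', ∑ e, Wout e * |grad d (k.1 (Pi.single e' 1)) e| ≤ 24 * L * k.2 e')}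

omit [Fintype X] [DecidableEq X] in
theorem grad_comb (d : X → X → ℝ) (S S' : (X × X → ℝ) →ₗ[ℝ] (X → ℝ)) (a b : ℝ) (V : X × X → ℝ)
    (e : X × X) : grad d ((a • S + b • S') V) e = a * grad d (S V) e + b * grad d (S' V) e := by
  simp only [LinearMap.add_apply, LinearMap.smul_apply, grad_add, grad_smul]

theorem convex_KSet (d : X → X → ℝ) (Wout : X × X → ℝ) (h0 : ∀ e, 0 ≤ Wout e) (L : ℝ) :
    Convex ℝ (KSet d Wout L) := by
  rintro ⟨S, Wi⟩ ⟨h1, h2, h3, h4, h5⟩ ⟨S', Wi'⟩ ⟨h1', h2', h3', h4', h5'⟩ a b ha hb hab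
  simp only at h1 h2 h3 h4 h5 h1' h2' h3' h4' h5'
  refine ⟨?_, ?_, ?_, ?_, ?_⟩
  · intro e
    simp only [Prod.snd_add, Prod.smul_snd, Pi.add_apply, Pi.smul_apply, smul_eq_mul]
    exact add_nonneg (mul_nonneg ha (h1 e)) (mul_nonneg hb (h1' e))
  · simp only [Prod.snd_add, Prod.smul_snd, Pi.add_apply, Pi.smul_apply, smul_eq_mul]
    rw [Finset.sum_add_distrib, ← Finset.mul_sum, ← Finset.mul_sum]
    nlinarith
  · intro f e
    simp only [Prod.fst_add, Prod.smul_fst]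
    rw [grad_comb, h3, h3', ← add_mul, hab, one_mul]
  · intro V
    simp only [Prod.fst_add, Prod.smul_fst, Prod.snd_add, Prod.smul_snd, Pi.add_apply,
      Pi.smul_apply, smul_eq_mul]
    have hpt : ∀ e, Wout e * (grad d ((a • S + b • S') V) e) ^ 2 ≤
        a * (Wout e * (grad d (S V) e) ^ 2) + b * (Wout e * (grad d (S' V) e) ^ 2) := by
      intro e
      rw [grad_comb]
      set u := grad d (S V) e
      set u' := grad d (S' V) e
      have h6 : (a * u + b * u') ^ 2 ≤ a * u ^ 2 + b * u' ^ 2 := by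
        have h7 : a * u ^ 2 + b * u' ^ 2 - (a * u + b * u') ^ 2 = a * b * (u - u') ^ 2 := by
          have : b = 1 - a := by linarith
          rw [this]; ring
        have h8 : 0 ≤ a * b * (u - u') ^ 2 := by positivity
        linarith
      calc Wout e * (a * u + b * u') ^ 2 ≤ Wout e * (a * u ^ 2 + b * u' ^ 2) :=
            mul_le_mul_of_nonneg_left h6 (h0 e)
        _ = _ := by ring
    have hr : 6 * ∑ e, (a * Wi e + b * Wi' e) * (V e) ^ 2
        = a * (6 * ∑ e, Wi e * (V e) ^ 2) + b * (6 * ∑ e, Wi' e * (V e) ^ 2) := by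
      rw [Finset.mul_sum, Finset.mul_sum, Finset.mul_sum, Finset.mul_sum, Finset.mul_sum,
        ← Finset.sum_add_distrib]
      refine Finset.sum_congr rfl fun e _ => ?_
      ring
    rw [hr]
    calc ∑ e, Wout e * (grad d ((a • S + b • S') V) e) ^ 2
        ≤ ∑ e, (a * (Wout e * (grad d (S V) e) ^ 2) + b * (Wout e * (grad d (S' V) e) ^ 2)) :=
          Finset.sum_le_sum fun e _ => hpt e
      _ = a * ∑ e, Wout e * (grad d (S V) e) ^ 2 + b * ∑ e, Wout e * (grad d (S' V) e) ^ 2 := by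
          rw [Finset.sum_add_distrib, ← Finset.mul_sum, ← Finset.mul_sum]
      _ ≤ _ := add_le_add (mul_le_mul_of_nonneg_left (h4 V) ha) (mul_le_mul_of_nonneg_left (h4' V) hb)
  · intro e'
    simp only [Prod.fst_add, Prod.smul_fst, Prod.snd_add, Prod.smul_snd, Pi.add_apply,
      Pi.smul_apply, smul_eq_mul]
    have hpt : ∀ e, Wout e * |grad d ((a • S + b • S') (Pi.single e' 1)) e| ≤
        a * (Wout e * |grad d (S (Pi.single e' 1)) e|) +
          b * (Wout e * |grad d (S' (Pi.single e' 1)) e|) := by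
      intro e
      rw [grad_comb]
      have h6 : |a * grad d (S (Pi.single e' 1)) e + b * grad d (S' (Pi.single e' 1)) e| ≤
          a * |grad d (S (Pi.single e' 1)) e| + b * |grad d (S' (Pi.single e' 1)) e| := by
        refine (abs_add_le _ _).trans (le_of_eq ?_)
        rw [abs_mul, abs_mul, abs_of_nonneg ha, abs_of_nonneg hb]
      calc _ ≤ Wout e * (a * |grad d (S (Pi.single e' 1)) e| +
            b * |grad d (S' (Pi.single e' 1)) e|) := mul_le_mul_of_nonneg_left h6 (h0 e)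
        _ = _ := by ring
    calc ∑ e, Wout e * |grad d ((a • S + b • S') (Pi.single e' 1)) e|
        ≤ ∑ e, (a * (Wout e * |grad d (S (Pi.single e' 1)) e|) +
          b * (Wout e * |grad d (S' (Pi.single e' 1)) e|)) := Finset.sum_le_sum fun e _ => hpt e
      _ = a * ∑ e, Wout e * |grad d (S (Pi.single e' 1)) e| +
          b * ∑ e, Wout e * |grad d (S' (Pi.single e' 1)) e| := by
          rw [Finset.sum_add_distrib, ← Finset.mul_sum, ← Finset.mul_sum]
      _ ≤ a * (24 * L * Wi e') + b * (24 * L * Wi' e') :=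
          add_le_add (mul_le_mul_of_nonneg_left (h5 e') ha) (mul_le_mul_of_nonneg_left (h5' e') hb)
      _ = 24 * L * (a * Wi e' + b * Wi' e') := by ring

/-- T3: the operator theorem (from T1 and T2). -/
theorem operator_exists (hn : 2 ≤ Fintype.card X)
    (d : X → X → ℝ) (hd : IsDist d) (Wout : X × X → ℝ) (h0 : ∀ e, 0 ≤ Wout e)
    (h1 : ∑ e, Wout e = 1) :
    ∃ (S : (X × X → ℝ) →ₗ[ℝ] (X → ℝ)) (Win : X × X → ℝ), (∀ e, 0 ≤ Win e) ∧ (∑ e, Win e ≤ 1) ∧
      (∀ (f : X → ℝ) (e : X × X), grad d (S (grad d f)) e = grad d f e) ∧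
      (∀ V : X × X → ℝ, ∑ e, Wout e * (grad d (S V) e) ^ 2 ≤ 6 * ∑ e, Win e * (V e) ^ 2) ∧
      (∀ V : X × X → ℝ, ∑ e, Wout e * |grad d (S V) e| ≤
        24 * Real.log (Fintype.card X) * ∑ e, Win e * |V e|) ∧
      (∀ (V : X × X → ℝ) (M : ℝ) (_ : ∀ e', |V e'| ≤ M) (e : X × X),
        |grad d (S V) e| ≤ 13 * Real.log (Fintype.card X) * M) := by
  set n : ℝ := (Fintype.card X : ℝ) with hndef
  have hn2 : (2 : ℝ) ≤ n := by rw [hndef]; exact_mod_cast hn
  set L : ℝ := Real.log n with hL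
  have hLpos : 0 < L := Real.log_pos (by linarith)
  have : Nonempty X := Fintype.card_pos_iff.1 (by omega)
  set φ : X × X → (((X × X → ℝ) →ₗ[ℝ] (X → ℝ)) × (X × X → ℝ)) → ℝ :=
    fun e k => ∑ e', |grad d (k.1 (Pi.single e' 1)) e| with hφ
  have hconv : ∀ e, ConvexOn ℝ (KSet d Wout L) (φ e) := by
    intro e
    refine ⟨convex_KSet d Wout h0 L, ?_⟩
    intro k _ k' _ a b ha hb _
    simp only [hφ, smul_eq_mul, Prod.fst_add, Prod.smul_fst]
    rw [Finset.mul_sum, Finset.mul_sum, ← Finset.sum_add_distrib]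
    refine Finset.sum_le_sum fun e' _ => ?_
    rw [grad_comb]
    refine (abs_add_le _ _).trans (le_of_eq ?_)
    rw [abs_mul, abs_mul, abs_of_nonneg ha, abs_of_nonneg hb]
  obtain ⟨⟨S, Win⟩, ⟨hW0, hW1, hg, hA1, hA2⟩, hφS⟩ :=
    exists_le_of_forall_weights (KSet d Wout L) φ hconv (12 * L) (13 * L) (by linarith) (by
      intro W'' hW0 hW1
      -- the symmetric weight
      have hs1 : ∑ e, symO Wout e ≤ 1 := (sum_symO_le Wout h0).trans h1.le
      have hs2 : ∑ e, symO W'' e ≤ 1 := (sum_symO_le W'' hW0).trans hW1.le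
      set c : ℝ := 3 - ∑ e, symO Wout e - ∑ e, symO W'' e with hc
      have hc1 : 1 ≤ c := by linarith
      have hnn : 0 < n * n - n := by nlinarith
      set Wt : X × X → ℝ := fun e => (symO Wout e + symO W'' e + offC (c / (n * n - n)) e) / 3
        with hWt
      have hcn : 0 < c / (n * n - n) := div_pos (by linarith) hnn
      have hoff0 : ∀ e : X × X, 0 ≤ offC (c / (n * n - n)) e := by
        intro e; unfold offC; split_ifs
        · exact le_rfl
        · exact hcn.le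
      have hWt0 : ∀ e, 0 ≤ Wt e := by
        intro e
        have a1 := symO_nonneg h0 e
        have a2 := symO_nonneg hW0 e
        have a3 := hoff0 e
        simp only [hWt]
        linarith
      have hsymm : ∀ x y, Wt (x, y) = Wt (y, x) := by
        intro x y
        simp only [hWt]
        rw [symO_swap Wout x y, symO_swap W'' x y]
        have : offC (c / (n * n - n)) (x, y) = offC (c / (n * n - n)) (y, x) := by
          unfold offC
          by_cases hxy : x = y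
          · subst hxy; rfl
          · rw [if_neg (by simpa using hxy), if_neg (by simpa using Ne.symm hxy)]
        rw [this]
      have hdiag : ∀ x, Wt (x, x) = 0 := by
        intro x
        simp [hWt, symO, offC]
      have hpos : ∀ x y, x ≠ y → 0 < Wt (x, y) := by
        intro x y hxy
        have a1 := symO_nonneg h0 (x, y)
        have a2 := symO_nonneg hW0 (x, y)
        have a3 : offC (c / (n * n - n)) (x, y) = c / (n * n - n) := by
          unfold offC
          rw [if_neg (by simpa using hxy)]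
        simp only [hWt]
        rw [a3]
        linarith
      have hsum : ∑ e, Wt e = 1 := by
        simp only [hWt]
        rw [← Finset.sum_div, Finset.sum_add_distrib, Finset.sum_add_distrib, sum_offC]
        rw [← hndef, mul_div_cancel₀ c hnn.ne', hc]
        ring
      obtain ⟨S, hSg, hS2, hS1⟩ := chain_operator hn d hd Wt hsymm hdiag hpos hsum
      -- comparison
      have hle : ∀ (W : X × X → ℝ) (_ : ∀ e, symO W e ≤ 3 * Wt e) (g : X × X → ℝ)
          (_ : ∀ e, 0 ≤ g e) (_ : ∀ x y, g (x, y) = g (y, x)) (_ : ∀ x, g (x, x) = 0),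
          ∑ e, W e * g e ≤ 3 * ∑ e, Wt e * g e := by
        intro W hW g hg0 hgs hgd
        rw [← sum_symO_mul W g hgs hgd, Finset.mul_sum]
        refine Finset.sum_le_sum fun e _ => ?_
        rw [← mul_assoc]
        exact mul_le_mul_of_nonneg_right (hW e) (hg0 e)
      have hout : ∀ e, symO Wout e ≤ 3 * Wt e := by
        intro e
        have a2 := symO_nonneg hW0 e
        have a3 := hoff0 e
        simp only [hWt]
        linarith
      have hin : ∀ e, symO W'' e ≤ 3 * Wt e := by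
        intro e
        have a2 := symO_nonneg h0 e
        have a3 := hoff0 e
        simp only [hWt]
        linarith
      set Z : X × X → ℝ := fun e' => (∑ e, Wt e * |grad d (S (Pi.single e' 1)) e|) / (4 * L) with hZ
      have hZ0 : ∀ e', 0 ≤ Z e' := fun e' =>
        div_nonneg (Finset.sum_nonneg fun e _ => mul_nonneg (hWt0 e) (abs_nonneg _)) (by linarith)
      have hZ1 : ∑ e', Z e' ≤ 1 := by
        simp only [hZ]
        rw [← Finset.sum_div, Finset.sum_comm, div_le_one (by linarith)]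
        refine le_trans (le_of_eq ?_) hS1
        exact Finset.sum_congr rfl fun e _ => (Finset.mul_sum _ _ _).symm
      have habs_symm : ∀ (V : X × X → ℝ) (x y : X),
          |grad d (S V) (x, y)| = |grad d (S V) (y, x)| := by
        intro V x y
        rw [grad_swap hd (S V) x y, abs_neg]
      have habs_diag : ∀ (V : X × X → ℝ) (x : X), |grad d (S V) (x, x)| = 0 := by
        intro V x
        rw [grad_diag, abs_zero]
      refine ⟨(S, fun e => Wt e / 2 + Z e / 2), ⟨?_, ?_, hSg, ?_, ?_⟩, ?_⟩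
      · intro e
        have a1 := hWt0 e
        have a2 := hZ0 e
        simp only
        linarith
      · have hsplit : ∑ e, (Wt e / 2 + Z e / 2) = (∑ e, Wt e) / 2 + (∑ e, Z e) / 2 := by
          rw [Finset.sum_add_distrib, Finset.sum_div, Finset.sum_div]
        change ∑ e, (Wt e / 2 + Z e / 2) ≤ 1
        rw [hsplit, hsum]
        linarith
      · intro V
        simp only
        have a1 := hle Wout hout (fun e => (grad d (S V) e) ^ 2) (fun e => sq_nonneg _)
          (fun x y => by rw [grad_swap hd (S V) x y, neg_sq])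
          (fun x => by rw [grad_diag]; ring)
        have a2 := hS2 V
        have a3 : ∑ e, Wt e * (V e) ^ 2 ≤ 2 * ∑ e, (Wt e / 2 + Z e / 2) * (V e) ^ 2 := by
          rw [Finset.mul_sum]
          refine Finset.sum_le_sum fun e _ => ?_
          have := mul_nonneg (hZ0 e) (sq_nonneg (V e))
          nlinarith
        linarith
      · intro e'
        simp only
        have a1 := hle Wout hout (fun e => |grad d (S (Pi.single e' 1)) e|)
          (fun e => abs_nonneg _) (habs_symm _) (habs_diag _)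
        have a2 : ∑ e, Wt e * |grad d (S (Pi.single e' 1)) e| = 4 * L * Z e' := by
          simp only [hZ]
          rw [mul_div_cancel₀ _ (by positivity)]
        have a3 := hWt0 e'
        have a4 := hZ0 e'
        rw [a2] at a1
        have a5 : 0 ≤ L * Wt e' := mul_nonneg hLpos.le a3
        nlinarith
      · simp only [hφ]
        have a1 := hle W'' hin (fun e => ∑ e', |grad d (S (Pi.single e' 1)) e|)
          (fun e => Finset.sum_nonneg fun e' _ => abs_nonneg _)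
          (fun x y => Finset.sum_congr rfl fun e' _ => habs_symm _ x y)
          (fun x => Finset.sum_eq_zero fun e' _ => habs_diag _ x)
        refine a1.trans ?_
        linarith)
  simp only at hW0 hW1 hg hA1 hA2
  refine ⟨S, Win, hW0, hW1, hg, hA1, ?_, ?_⟩
  · intro V
    calc ∑ e, Wout e * |grad d (S V) e|
        ≤ ∑ e, Wout e * ∑ e', |V e'| * |grad d (S (Pi.single e' 1)) e| :=
          Finset.sum_le_sum fun e _ => mul_le_mul_of_nonneg_left (abs_grad_apply_le d S V e) (h0 e)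
      _ = ∑ e', |V e'| * ∑ e, Wout e * |grad d (S (Pi.single e' 1)) e| := by
          simp only [Finset.mul_sum]
          rw [Finset.sum_comm]
          refine Finset.sum_congr rfl fun e' _ => Finset.sum_congr rfl fun e _ => ?_
          ring
      _ ≤ ∑ e', |V e'| * (24 * L * Win e') :=
          Finset.sum_le_sum fun e' _ => mul_le_mul_of_nonneg_left (hA2 e') (abs_nonneg _)
      _ = 24 * L * ∑ e, Win e * |V e| := by
          rw [Finset.mul_sum]
          refine Finset.sum_congr rfl fun e' _ => ?_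
          ring
  · intro V M hM e
    calc |grad d (S V) e| ≤ ∑ e', |V e'| * |grad d (S (Pi.single e' 1)) e| :=
          abs_grad_apply_le d S V e
      _ ≤ ∑ e', M * |grad d (S (Pi.single e' 1)) e| :=
          Finset.sum_le_sum fun e' _ => mul_le_mul_of_nonneg_right (hM e') (abs_nonneg _)
      _ = M * φ e (S, Win) := by simp only [hφ]; rw [Finset.mul_sum]
      _ ≤ M * (13 * L) := by
          refine mul_le_mul_of_nonneg_left (hφS e) ?_
          exact (abs_nonneg _).trans (hM e)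
      _ = 13 * L * M := by ring

end T3

end Crest.Agent.R232
end

-- ▼ part R232/Lev5
section

/-! # R232: common part of the level estimates (T4, T5)

Abel summation for `mainF`, facts on `tent`, geometric series over finite sets of integers. -/

set_option autoImplicit false

open Finset

namespace Crest.Agent.R232.L5

open Crest.Agent.R232

/-! ### tent -/

theorem tent_eq_zero_of_nonpos {l : ℕ} {m : ℤ} (hm : m ≤ 0) : tent l m = 0 := by
  have h1 : (m : ℝ) / l ≤ 0 := div_nonpos_of_nonpos_of_nonneg (by exact_mod_cast hm) (by positivity)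
  rw [tent, max_eq_left]
  exact (min_le_left _ _).trans h1

theorem tent_eq_zero_of_ge {l : ℕ} {m : ℤ} (hm : 2 * (l : ℤ) ≤ m) : tent l m = 0 := by
  have h1 : ((2 * l - m : ℝ)) / l ≤ 0 := by
    apply div_nonpos_of_nonpos_of_nonneg _ (by positivity)
    have : (2 * (l : ℝ)) ≤ m := by exact_mod_cast hm
    linarith
  rw [tent, max_eq_left]
  exact (min_le_right _ _).trans h1

theorem tent_nonneg (l : ℕ) (m : ℤ) : 0 ≤ tent l m := le_max_left _ _

theorem abs_tent_sub_le {l : ℕ} (hl : 1 ≤ l) (m : ℤ) : |tent l (m + 1) - tent l m| ≤ 1 / l := by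
  have hl0 : (0 : ℝ) < l := by exact_mod_cast hl
  unfold tent
  refine (abs_max_sub_max_le_max _ _ _ _).trans ?_
  rw [sub_self, abs_zero, max_eq_right (abs_nonneg _)]
  refine (abs_min_sub_min_le_max _ _ _ _).trans ?_
  apply max_le
  · rw [← sub_div]
    push_cast
    rw [add_sub_cancel_left, abs_of_nonneg (by positivity)]
  · rw [← sub_div]
    push_cast
    rw [show (2 * (l : ℝ) - (m + 1) - (2 * l - m)) = -1 by ring, abs_div, abs_neg, abs_one,
      abs_of_pos hl0]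

/-! ### levels -/

theorem lev_zero_of_eq {E : Type*} {v : E → ℝ} {j : ℤ} {e : E} (h : v e = 0) : lev v j e = 0 := by
  simp [lev, h]




theorem two_zpow_le_iff {x : ℝ} (hx : 0 < x) (j : ℤ) : (2 : ℝ) ^ j ≤ x ↔ j ≤ Int.log 2 x := by
  have := Int.zpow_le_iff_le_log (R := ℝ) (b := 2) (by norm_num) (x := j) (r := x) hx
  simpa using this

/-- telescoping with a cut -/
theorem sum_range_cut (g : ℤ → ℝ) (t : ℤ) (n : ℕ) :
    ∑ m ∈ range n, (g (m + 1) - g m) * (if ((m : ℤ) + 1) ≤ t then 1 else 0) =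
      if 0 ≤ t then g (min n t) - g 0 else 0 := by
  induction n with
  | zero =>
    simp only [range_zero, sum_empty, Nat.cast_zero]
    split_ifs with h
    · rw [min_eq_left h, sub_self]
    · rfl
  | succ n ih =>
    rw [sum_range_succ, ih]
    by_cases h0 : 0 ≤ t
    · rw [if_pos h0, if_pos h0]
      by_cases h1 : ((n : ℤ) + 1) ≤ t
      · rw [if_pos h1, mul_one, min_eq_left (by omega), min_eq_left (by push_cast; omega)]
        push_cast
        ring
      · rw [if_neg h1, mul_zero, add_zero, min_eq_right (by omega),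
          min_eq_right (by push_cast; omega)]
    · rw [if_neg h0, if_neg h0, if_neg (by omega), mul_zero, add_zero]

/-- **Abel summation**: the main field is an average of level fields. -/
theorem mainF_eq_sum {E : Type*} {l : ℕ} (v : E → ℝ) (k : ℤ) (e : E) :
    mainF l v k e = (2 : ℝ) ^ k *
      ∑ m ∈ range (2 * l), (tent l (m + 1) - tent l m) * lev v (m + 1 - k) e := by
  by_cases hv : v e = 0
  · simp [mainF, lev, hv]
  · have hpos : 0 < |v e| := abs_pos.mpr hv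
    set i := Int.log 2 |v e| with hi
    have hlev : ∀ m : ℕ, lev v ((m : ℤ) + 1 - k) e =
        (if ((m : ℤ) + 1) ≤ i + k then 1 else 0) * v e := by
      intro m
      unfold lev
      have : (2 : ℝ) ^ ((m : ℤ) + 1 - k) ≤ |v e| ↔ ((m : ℤ) + 1) ≤ i + k := by
        rw [two_zpow_le_iff hpos]
        constructor <;> intro h <;> omega
      by_cases h : ((m : ℤ) + 1) ≤ i + k
      · rw [if_pos (this.mpr h), if_pos h, one_mul]
      · rw [if_neg (fun h' => h (this.mp h')), if_neg h, zero_mul]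
    have hsum := sum_range_cut (tent l) (i + k) (2 * l)
    have : ∑ m ∈ range (2 * l), (tent l (m + 1) - tent l m) * lev v (m + 1 - k) e =
        (∑ m ∈ range (2 * l), (tent l (m + 1) - tent l m) *
          (if ((m : ℤ) + 1) ≤ i + k then 1 else 0)) * v e := by
      rw [sum_mul]
      refine sum_congr rfl fun m _ => ?_
      rw [hlev m]; ring
    rw [this, hsum]
    unfold mainF
    rw [← hi, mul_assoc]
    congr 2
    split_ifs with h0
    · rw [tent_eq_zero_of_nonpos (le_refl 0), sub_zero]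
      rcases le_total ((2 * l : ℕ) : ℤ) (i + k) with h | h
      · rw [min_eq_left h, tent_eq_zero_of_ge (by push_cast at h; exact h),
          tent_eq_zero_of_ge (by push_cast; exact le_refl _)]
      · rw [min_eq_right h]
    · exact tent_eq_zero_of_nonpos (by omega)

/-- The level error `v^{≥ j} - T v^{≥ j}`. -/
noncomputable def levErr {E : Type*} (T : (E → ℝ) →ₗ[ℝ] (E → ℝ)) (v : E → ℝ) (j : ℤ) (e : E) : ℝ :=
  lev v j e - T (lev v j) e

theorem mainF_eq_smul_sum {E : Type*} {l : ℕ} (v : E → ℝ) (k : ℤ) :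
    mainF l v k = (2 : ℝ) ^ k •
      ∑ m ∈ range (2 * l), (tent l ((m : ℤ) + 1) - tent l m) • lev v ((m : ℤ) + 1 - k) := by
  ext e
  rw [mainF_eq_sum]
  simp [Finset.sum_apply]

theorem mainF_sub_eq {E : Type*} {l : ℕ} (T : (E → ℝ) →ₗ[ℝ] (E → ℝ)) (v : E → ℝ) (k : ℤ) (e : E) :
    mainF l v k e - T (mainF l v k) e = (2 : ℝ) ^ k *
      ∑ m ∈ range (2 * l), (tent l (m + 1) - tent l m) * levErr T v (m + 1 - k) e := by
  have h1 : T (mainF l v k) e = (2 : ℝ) ^ k *
      ∑ m ∈ range (2 * l), (tent l (m + 1) - tent l m) * T (lev v (m + 1 - k)) e := by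
    rw [mainF_eq_smul_sum]
    simp [Finset.sum_apply]
  rw [h1, mainF_eq_sum, ← mul_sub, ← sum_sub_distrib]
  congr 1
  refine sum_congr rfl fun m _ => ?_
  unfold levErr
  ring

theorem abs_mainF_sub_le {E : Type*} {l : ℕ} (hl : 1 ≤ l) (T : (E → ℝ) →ₗ[ℝ] (E → ℝ)) (v : E → ℝ)
    (k : ℤ) (e : E) :
    |mainF l v k e - T (mainF l v k) e| ≤ (2 : ℝ) ^ k * (1 / l *
      ∑ m ∈ range (2 * l), |levErr T v (m + 1 - k) e|) := by
  rw [mainF_sub_eq, abs_mul, abs_of_pos (by positivity : (0 : ℝ) < 2 ^ k)]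
  refine mul_le_mul_of_nonneg_left ?_ (by positivity)
  refine (abs_sum_le_sum_abs _ _).trans ?_
  rw [mul_sum]
  refine sum_le_sum fun m _ => ?_
  rw [abs_mul]
  exact mul_le_mul_of_nonneg_right (abs_tent_sub_le hl m) (abs_nonneg _)

/-- the level error through the low levels, using `T v = v` -/
theorem levErr_eq_low {E : Type*} {T : (E → ℝ) →ₗ[ℝ] (E → ℝ)} {v : E → ℝ} (hT : T v = v) (j : ℤ)
    (e : E) : levErr T v j e = -((v e - lev v j e) - T (fun e => v e - lev v j e) e) := by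
  have : (fun e => v e - lev v j e) = v - lev v j := rfl
  rw [this, map_sub, hT]
  simp only [levErr, Pi.sub_apply]
  ring

/-! ### geometric series over finite sets of integers -/

theorem sum_pow_toNat_le {q : ℝ} (hq0 : 0 ≤ q) (hq1 : q < 1) (J : Finset ℤ) (i : ℤ)
    (hJ : ∀ j ∈ J, j ≤ i) : ∑ j ∈ J, q ^ (i - j).toNat ≤ (1 - q)⁻¹ := by
  have hinj : Set.InjOn (fun j : ℤ => (i - j).toNat) (J : Set ℤ) := by
    intro a ha b hb hab
    have h1 := hJ a ha
    have h2 := hJ b hb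
    simp only at hab
    omega
  rw [← sum_image (f := fun n : ℕ => q ^ n) (g := fun j : ℤ => (i - j).toNat) (s := J) hinj]
  rw [← tsum_geometric_of_lt_one hq0 hq1]
  exact (summable_geometric_of_lt_one hq0 hq1).sum_le_tsum _ (fun n _ => pow_nonneg hq0 n)

theorem two_zpow_rpow (j : ℤ) (s : ℝ) : ((2 : ℝ) ^ j) ^ s = (2 : ℝ) ^ ((j : ℝ) * s) := by
  rw [Real.rpow_mul (by norm_num), Real.rpow_intCast]

/-- `∑_{2^j ≤ x} 2^{js} ≤ x^s / (1 - 2^{-s})` -/
theorem sum_le_of_low {s : ℝ} (hs : 0 < s) {x : ℝ} (hx : 0 < x) (J : Finset ℤ) :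
    ∑ j ∈ J with (2 : ℝ) ^ j ≤ x, ((2 : ℝ) ^ j) ^ s ≤ x ^ s * (1 - (2 : ℝ) ^ (-s))⁻¹ := by
  set i := Int.log 2 x
  have hi : (2 : ℝ) ^ i ≤ x := (two_zpow_le_iff hx i).mpr (le_refl _)
  have hq0 : (0 : ℝ) ≤ (2 : ℝ) ^ (-s) := by positivity
  have hq1 : (2 : ℝ) ^ (-s) < 1 := Real.rpow_lt_one_of_one_lt_of_neg (by norm_num) (by linarith)
  have hle : ∀ j ∈ J.filter (fun j : ℤ => (2 : ℝ) ^ j ≤ x), j ≤ i := by
    intro j hj
    exact (two_zpow_le_iff hx j).mp (mem_filter.mp hj).2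
  calc ∑ j ∈ J with (2 : ℝ) ^ j ≤ x, ((2 : ℝ) ^ j) ^ s
      ≤ ∑ j ∈ J with (2 : ℝ) ^ j ≤ x, x ^ s * ((2 : ℝ) ^ (-s)) ^ (i - j).toNat := by
        refine sum_le_sum fun j hj => ?_
        have hji := hle j hj
        have h1 : ((2 : ℝ) ^ j) ^ s = ((2 : ℝ) ^ i) ^ s * ((2 : ℝ) ^ (-s)) ^ (i - j).toNat := by
          rw [two_zpow_rpow, two_zpow_rpow, ← Real.rpow_natCast, ← Real.rpow_mul (by norm_num),
            ← Real.rpow_add (by norm_num)]
          congr 1
          have : (((i - j).toNat : ℕ) : ℝ) = (i : ℝ) - j := by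
            have h2 : (((i - j).toNat : ℕ) : ℤ) = i - j := Int.toNat_of_nonneg (by omega)
            exact_mod_cast h2
          rw [this]; ring
        rw [h1]
        refine mul_le_mul_of_nonneg_right ?_ (by positivity)
        exact Real.rpow_le_rpow (by positivity) hi hs.le
    _ = x ^ s * ∑ j ∈ J with (2 : ℝ) ^ j ≤ x, ((2 : ℝ) ^ (-s)) ^ (i - j).toNat := by
        rw [mul_sum]
    _ ≤ x ^ s * (1 - (2 : ℝ) ^ (-s))⁻¹ := by
        refine mul_le_mul_of_nonneg_left ?_ (by positivity)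
        exact sum_pow_toNat_le hq0 hq1 _ i hle

/-- `∑_{2^j > x} 2^{-js} ≤ x^{-s} / (1 - 2^{-s})` -/
theorem sum_le_of_high {s : ℝ} (hs : 0 < s) {x : ℝ} (hx : 0 < x) (J : Finset ℤ) :
    ∑ j ∈ J with ¬ (2 : ℝ) ^ j ≤ x, ((2 : ℝ) ^ j) ^ (-s) ≤ x ^ (-s) * (1 - (2 : ℝ) ^ (-s))⁻¹ := by
  set i := Int.log 2 x
  have hi : x < (2 : ℝ) ^ (i + 1) := by
    by_contra h
    push Not at h
    have := (two_zpow_le_iff hx (i + 1)).mp h
    omega
  have hq0 : (0 : ℝ) ≤ (2 : ℝ) ^ (-s) := by positivity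
  have hq1 : (2 : ℝ) ^ (-s) < 1 := Real.rpow_lt_one_of_one_lt_of_neg (by norm_num) (by linarith)
  have hle : ∀ j ∈ J.filter (fun j : ℤ => ¬ (2 : ℝ) ^ j ≤ x), i + 1 ≤ j := by
    intro j hj
    have h1 := (mem_filter.mp hj).2
    rw [two_zpow_le_iff hx j] at h1
    omega
  have hinj : Set.InjOn (fun j : ℤ => -j) ((J.filter (fun j : ℤ => ¬ (2 : ℝ) ^ j ≤ x) : Finset ℤ) : Set ℤ) :=
    fun a _ b _ h => neg_injective h
  calc ∑ j ∈ J with ¬ (2 : ℝ) ^ j ≤ x, ((2 : ℝ) ^ j) ^ (-s)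
      ≤ ∑ j ∈ J with ¬ (2 : ℝ) ^ j ≤ x, x ^ (-s) * ((2 : ℝ) ^ (-s)) ^ (j - (i + 1)).toNat := by
        refine sum_le_sum fun j hj => ?_
        have hji := hle j hj
        have h1 : ((2 : ℝ) ^ j) ^ (-s) =
            ((2 : ℝ) ^ (i + 1)) ^ (-s) * ((2 : ℝ) ^ (-s)) ^ (j - (i + 1)).toNat := by
          rw [two_zpow_rpow, two_zpow_rpow, ← Real.rpow_natCast, ← Real.rpow_mul (by norm_num),
            ← Real.rpow_add (by norm_num)]
          congr 1
          have : (((j - (i + 1)).toNat : ℕ) : ℝ) = (j : ℝ) - ((i + 1 : ℤ) : ℝ) := by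
            have h2 : (((j - (i + 1)).toNat : ℕ) : ℤ) = j - (i + 1) := Int.toNat_of_nonneg (by omega)
            exact_mod_cast h2
          rw [this]; ring
        rw [h1]
        refine mul_le_mul_of_nonneg_right ?_ (by positivity)
        exact Real.rpow_le_rpow_of_nonpos hx hi.le (by linarith)
    _ = x ^ (-s) * ∑ j ∈ J with ¬ (2 : ℝ) ^ j ≤ x, ((2 : ℝ) ^ (-s)) ^ (j - (i + 1)).toNat := by
        rw [mul_sum]
    _ = x ^ (-s) * ∑ j ∈ (J.filter (fun j : ℤ => ¬ (2 : ℝ) ^ j ≤ x)).image (fun j => -j),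
          ((2 : ℝ) ^ (-s)) ^ (-(i + 1) - j).toNat := by
        rw [sum_image hinj]
        congr 1
        refine sum_congr rfl fun j _ => ?_
        congr 2
        ring
    _ ≤ x ^ (-s) * (1 - (2 : ℝ) ^ (-s))⁻¹ := by
        refine mul_le_mul_of_nonneg_left ?_ (by positivity)
        apply sum_pow_toNat_le hq0 hq1
        intro j hj
        rw [mem_image] at hj
        obtain ⟨a, ha, rfl⟩ := hj
        have := hle a ha
        omega

end Crest.Agent.R232.L5
end

-- ▼ part R232/T5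
section

/-! # R232: T5, level estimate for `1 < p < 2` -/

set_option autoImplicit false

open Finset

namespace Crest.Agent.R232

open L5

/-- weighted AM-GM for the interpolation -/
theorem rpow_le_interp {p : ℝ} (hp1 : 1 < p) (hp : p < 2) {N a t : ℝ} (hN : 0 < N) (ha : 0 ≤ a)
    (ht : 0 < t) :
    a ^ p ≤ N ^ (2 - p) * (t ^ (p - 2) * a ^ 2) + N ^ (1 - p) * (t ^ (p - 1) * a) := by
  rcases ha.eq_or_lt with h0 | h0
  · rw [← h0, Real.zero_rpow (by linarith)]
    positivity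
  have hX : 0 < N ^ (2 - p) * (t ^ (p - 2) * a ^ 2) := by positivity
  have hY : 0 < N ^ (1 - p) * (t ^ (p - 1) * a) := by positivity
  have key := Real.geom_mean_le_arith_mean2_weighted (w₁ := p - 1) (w₂ := 2 - p)
    (p₁ := N ^ (2 - p) * (t ^ (p - 2) * a ^ 2)) (p₂ := N ^ (1 - p) * (t ^ (p - 1) * a))
    (by linarith) (by linarith) hX.le hY.le (by ring)
  have hid : (N ^ (2 - p) * (t ^ (p - 2) * a ^ 2)) ^ (p - 1) *
      (N ^ (1 - p) * (t ^ (p - 1) * a)) ^ (2 - p) = a ^ p := by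
    rw [← Real.rpow_natCast a 2]
    rw [Real.mul_rpow (by positivity) (by positivity), Real.mul_rpow (by positivity) (by positivity),
      Real.mul_rpow (by positivity) (by positivity), Real.mul_rpow (by positivity) (by positivity),
      ← Real.rpow_mul hN.le, ← Real.rpow_mul hN.le, ← Real.rpow_mul ht.le, ← Real.rpow_mul ht.le,
      ← Real.rpow_mul h0.le]
    have h1 : N ^ ((2 - p) * (p - 1)) * N ^ ((1 - p) * (2 - p)) = 1 := by
      rw [← Real.rpow_add hN]
      rw [show (2 - p) * (p - 1) + (1 - p) * (2 - p) = 0 by ring, Real.rpow_zero]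
    have h2 : t ^ ((p - 2) * (p - 1)) * t ^ ((p - 1) * (2 - p)) = 1 := by
      rw [← Real.rpow_add ht]
      rw [show (p - 2) * (p - 1) + (p - 1) * (2 - p) = 0 by ring, Real.rpow_zero]
    have h3 : a ^ (((2 : ℕ) : ℝ) * (p - 1)) * a ^ (2 - p) = a ^ p := by
      rw [← Real.rpow_add h0]
      congr 1
      push_cast
      ring
    calc N ^ ((2 - p) * (p - 1)) * (t ^ ((p - 2) * (p - 1)) * a ^ (((2 : ℕ) : ℝ) * (p - 1))) *
          (N ^ ((1 - p) * (2 - p)) * (t ^ ((p - 1) * (2 - p)) * a ^ (2 - p)))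
        = (N ^ ((2 - p) * (p - 1)) * N ^ ((1 - p) * (2 - p))) *
          (t ^ ((p - 2) * (p - 1)) * t ^ ((p - 1) * (2 - p))) *
          (a ^ (((2 : ℕ) : ℝ) * (p - 1)) * a ^ (2 - p)) := by ring
      _ = a ^ p := by rw [h1, h2, h3, one_mul, one_mul]
  rw [hid] at key
  refine key.trans ?_
  have h4 : (p - 1) * (N ^ (2 - p) * (t ^ (p - 2) * a ^ 2)) ≤
      1 * (N ^ (2 - p) * (t ^ (p - 2) * a ^ 2)) :=
    mul_le_mul_of_nonneg_right (by linarith) hX.le
  have h5 : (2 - p) * (N ^ (1 - p) * (t ^ (p - 1) * a)) ≤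
      1 * (N ^ (1 - p) * (t ^ (p - 1) * a)) :=
    mul_le_mul_of_nonneg_right (by linarith) hY.le
  linarith

/-- the finite index set of levels -/
noncomputable def levJ (l : ℕ) (K : Finset ℤ) : Finset ℤ :=
  (range (2 * l) ×ˢ K).image (fun q => (q.1 : ℤ) + 1 - q.2)

theorem mem_levJ {l : ℕ} {K : Finset ℤ} {m : ℕ} {k : ℤ} (hm : m ∈ range (2 * l)) (hk : k ∈ K) :
    (m : ℤ) + 1 - k ∈ levJ l K :=
  mem_image.mpr ⟨(m, k), mem_product.mpr ⟨hm, hk⟩, rfl⟩

/-- for fixed `m`, the map `k ↦ m + 1 - k` is injective into `J` -/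
theorem sum_shift_le {l : ℕ} {K : Finset ℤ} {m : ℕ} (hm : m ∈ range (2 * l)) (g : ℤ → ℝ)
    (hg : ∀ j, 0 ≤ g j) : ∑ k ∈ K, g ((m : ℤ) + 1 - k) ≤ ∑ j ∈ levJ l K, g j := by
  have hinj : Set.InjOn (fun k : ℤ => (m : ℤ) + 1 - k) (K : Set ℤ) := by
    intro a _ b _ h
    simp only at h
    omega
  rw [← sum_image (f := g) (g := fun k : ℤ => (m : ℤ) + 1 - k) hinj]
  apply sum_le_sum_of_subset_of_nonneg
  · intro j hj
    obtain ⟨k, hk, rfl⟩ := mem_image.mp hj
    exact mem_levJ hm hk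
  · intro j _ _
    exact hg j

/-- pointwise bound of the sum of the errors over the amplitudes -/
theorem sum_err_le {E : Type*} {p : ℝ} (hp1 : 1 < p) {l : ℕ} (hl : 1 ≤ l)
    (T : (E → ℝ) →ₗ[ℝ] (E → ℝ)) (v : E → ℝ) (K : Finset ℤ) (e : E) :
    ∑ k ∈ K, ((2 : ℝ) ^ k) ^ (-p) * |mainF l v k e - T (mainF l v k) e| ^ p ≤
      2 ^ p * ∑ j ∈ levJ l K, |levErr T v j e| ^ p := by
  have hl0 : (0 : ℝ) < l := by exact_mod_cast hl
  have hp0 : 0 < p := by linarith
  have step : ∀ k ∈ K, ((2 : ℝ) ^ k) ^ (-p) * |mainF l v k e - T (mainF l v k) e| ^ p ≤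
      (1 / l) ^ p * (2 * l : ℝ) ^ (p - 1) *
        ∑ m ∈ range (2 * l), |levErr T v ((m : ℤ) + 1 - k) e| ^ p := by
    intro k _
    have h2k : (0 : ℝ) < (2 : ℝ) ^ k := by positivity
    have hS0 : 0 ≤ ∑ m ∈ range (2 * l), |levErr T v ((m : ℤ) + 1 - k) e| :=
      sum_nonneg fun m _ => abs_nonneg _
    have h1 : |mainF l v k e - T (mainF l v k) e| ^ p ≤
        ((2 : ℝ) ^ k * (1 / l * ∑ m ∈ range (2 * l), |levErr T v ((m : ℤ) + 1 - k) e|)) ^ p :=
      Real.rpow_le_rpow (abs_nonneg _) (abs_mainF_sub_le hl T v k e) hp0.le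
    have h2 : ((2 : ℝ) ^ k * (1 / l * ∑ m ∈ range (2 * l), |levErr T v ((m : ℤ) + 1 - k) e|)) ^ p =
        ((2 : ℝ) ^ k) ^ p * ((1 / l) ^ p *
          (∑ m ∈ range (2 * l), |levErr T v ((m : ℤ) + 1 - k) e|) ^ p) := by
      rw [Real.mul_rpow h2k.le (by positivity), Real.mul_rpow (by positivity) hS0]
    have h3 : (∑ m ∈ range (2 * l), |levErr T v ((m : ℤ) + 1 - k) e|) ^ p ≤
        (2 * l : ℝ) ^ (p - 1) * ∑ m ∈ range (2 * l), |levErr T v ((m : ℤ) + 1 - k) e| ^ p := by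
      have := Real.rpow_sum_le_const_mul_sum_rpow (range (2 * l))
        (fun m : ℕ => levErr T v ((m : ℤ) + 1 - k) e) hp1.le
      rw [card_range] at this
      push_cast at this
      exact this
    calc ((2 : ℝ) ^ k) ^ (-p) * |mainF l v k e - T (mainF l v k) e| ^ p
        ≤ ((2 : ℝ) ^ k) ^ (-p) * (((2 : ℝ) ^ k) ^ p * ((1 / l) ^ p *
          (∑ m ∈ range (2 * l), |levErr T v ((m : ℤ) + 1 - k) e|) ^ p)) := by
          rw [← h2]
          exact mul_le_mul_of_nonneg_left h1 (by positivity)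
      _ = (1 / l) ^ p * (∑ m ∈ range (2 * l), |levErr T v ((m : ℤ) + 1 - k) e|) ^ p := by
          rw [← mul_assoc, ← Real.rpow_add h2k, neg_add_cancel, Real.rpow_zero, one_mul]
      _ ≤ (1 / l) ^ p * ((2 * l : ℝ) ^ (p - 1) *
            ∑ m ∈ range (2 * l), |levErr T v ((m : ℤ) + 1 - k) e| ^ p) :=
          mul_le_mul_of_nonneg_left h3 (by positivity)
      _ = _ := by ring
  calc ∑ k ∈ K, ((2 : ℝ) ^ k) ^ (-p) * |mainF l v k e - T (mainF l v k) e| ^ p
      ≤ ∑ k ∈ K, (1 / l) ^ p * (2 * l : ℝ) ^ (p - 1) *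
        ∑ m ∈ range (2 * l), |levErr T v ((m : ℤ) + 1 - k) e| ^ p := sum_le_sum step
    _ = (1 / l) ^ p * (2 * l : ℝ) ^ (p - 1) *
        ∑ m ∈ range (2 * l), ∑ k ∈ K, |levErr T v ((m : ℤ) + 1 - k) e| ^ p := by
        rw [← mul_sum, sum_comm]
    _ ≤ (1 / l) ^ p * (2 * l : ℝ) ^ (p - 1) *
        ∑ m ∈ range (2 * l), ∑ j ∈ levJ l K, |levErr T v j e| ^ p := by
        refine mul_le_mul_of_nonneg_left ?_ (by positivity)
        refine sum_le_sum fun m hm => ?_
        exact sum_shift_le hm (fun j => |levErr T v j e| ^ p)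
          (fun j => Real.rpow_nonneg (abs_nonneg _) _)
    _ = (1 / l) ^ p * ((2 * l : ℝ) ^ (p - 1) * (2 * l)) *
        ∑ j ∈ levJ l K, |levErr T v j e| ^ p := by
        rw [sum_const, card_range, nsmul_eq_mul]
        push_cast
        ring
    _ = 2 ^ p * ∑ j ∈ levJ l K, |levErr T v j e| ^ p := by
        congr 1
        have h1 : (2 * l : ℝ) ^ (p - 1) * (2 * l) = (2 * l : ℝ) ^ p := by
          rw [← Real.rpow_add_one (by positivity)]
          congr 1
          ring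
        rw [h1, ← Real.mul_rpow (by positivity) (by positivity)]
        congr 1
        field_simp

/-- pointwise low-level sum -/
theorem sum_low_sq_le {p : ℝ} (hp : p < 2) {E : Type*} (v : E → ℝ)
    (J : Finset ℤ) (e : E) (hp1 : 1 < p) :
    ∑ j ∈ J, ((2 : ℝ) ^ j) ^ (p - 2) * (v e - lev v j e) ^ 2 ≤
      (1 - (2 : ℝ) ^ (-(2 - p)))⁻¹ * |v e| ^ p := by
  have hpos : 0 ≤ (1 - (2 : ℝ) ^ (-(2 - p)))⁻¹ := by
    have : (2 : ℝ) ^ (-(2 - p)) < 1 :=
      Real.rpow_lt_one_of_one_lt_of_neg (by norm_num) (by linarith)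
    exact inv_nonneg.mpr (by linarith)
  by_cases hv : v e = 0
  · have h1 : ∀ j ∈ J, ((2 : ℝ) ^ j) ^ (p - 2) * (v e - lev v j e) ^ 2 = 0 := by
      intro j _
      rw [lev_zero_of_eq hv, hv]; simp
    rw [sum_congr rfl h1, sum_const_zero]
    positivity
  have hx : 0 < |v e| := abs_pos.mpr hv
  have h1 : ∑ j ∈ J, ((2 : ℝ) ^ j) ^ (p - 2) * (v e - lev v j e) ^ 2 =
      (∑ j ∈ J with ¬ (2 : ℝ) ^ j ≤ |v e|, ((2 : ℝ) ^ j) ^ (-(2 - p))) * |v e| ^ 2 := by
    rw [sum_filter, sum_mul]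
    refine sum_congr rfl fun j _ => ?_
    by_cases h : (2 : ℝ) ^ j ≤ |v e|
    · simp [lev, h]
    · simp [lev, h, neg_sub]
  rw [h1]
  have h2 := sum_le_of_high (s := 2 - p) (by linarith) hx J
  calc (∑ j ∈ J with ¬ (2 : ℝ) ^ j ≤ |v e|, ((2 : ℝ) ^ j) ^ (-(2 - p))) * |v e| ^ 2
      ≤ (|v e| ^ (-(2 - p)) * (1 - (2 : ℝ) ^ (-(2 - p)))⁻¹) * |v e| ^ 2 :=
        mul_le_mul_of_nonneg_right h2 (by positivity)
    _ = (1 - (2 : ℝ) ^ (-(2 - p)))⁻¹ * (|v e| ^ (-(2 - p)) * |v e| ^ 2) := by ring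
    _ = (1 - (2 : ℝ) ^ (-(2 - p)))⁻¹ * |v e| ^ p := by
        congr 1
        rw [← Real.rpow_natCast |v e| 2, ← Real.rpow_add hx]
        congr 1
        push_cast
        ring

/-- pointwise high-level sum -/
theorem sum_high_abs_le {p : ℝ} (hp1 : 1 < p) {E : Type*} (v : E → ℝ) (J : Finset ℤ) (e : E) :
    ∑ j ∈ J, ((2 : ℝ) ^ j) ^ (p - 1) * |lev v j e| ≤
      (1 - (2 : ℝ) ^ (-(p - 1)))⁻¹ * |v e| ^ p := by
  have hpos : 0 ≤ (1 - (2 : ℝ) ^ (-(p - 1)))⁻¹ := by
    have : (2 : ℝ) ^ (-(p - 1)) < 1 :=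
      Real.rpow_lt_one_of_one_lt_of_neg (by norm_num) (by linarith)
    exact inv_nonneg.mpr (by linarith)
  by_cases hv : v e = 0
  · have h1 : ∀ j ∈ J, ((2 : ℝ) ^ j) ^ (p - 1) * |lev v j e| = 0 := by
      intro j _
      rw [lev_zero_of_eq hv]; simp
    rw [sum_congr rfl h1, sum_const_zero]
    positivity
  have hx : 0 < |v e| := abs_pos.mpr hv
  have h1 : ∑ j ∈ J, ((2 : ℝ) ^ j) ^ (p - 1) * |lev v j e| =
      (∑ j ∈ J with (2 : ℝ) ^ j ≤ |v e|, ((2 : ℝ) ^ j) ^ (p - 1)) * |v e| := by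
    rw [sum_filter, sum_mul]
    refine sum_congr rfl fun j _ => ?_
    by_cases h : (2 : ℝ) ^ j ≤ |v e|
    · simp [lev, h]
    · simp [lev, h]
  rw [h1]
  have h2 := sum_le_of_low (s := p - 1) (by linarith) hx J
  calc (∑ j ∈ J with (2 : ℝ) ^ j ≤ |v e|, ((2 : ℝ) ^ j) ^ (p - 1)) * |v e|
      ≤ (|v e| ^ (p - 1) * (1 - (2 : ℝ) ^ (-(p - 1)))⁻¹) * |v e| :=
        mul_le_mul_of_nonneg_right h2 (by positivity)
    _ = (1 - (2 : ℝ) ^ (-(p - 1)))⁻¹ * (|v e| ^ (p - 1) * |v e|) := by ring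
    _ = (1 - (2 : ℝ) ^ (-(p - 1)))⁻¹ * |v e| ^ p := by
        congr 1
        rw [← Real.rpow_add_one hx.ne']
        congr 1
        ring

/-- `L²` bound of the level errors through the low levels -/
theorem levErr_sq_le {E : Type*} [Fintype E] {T : (E → ℝ) →ₗ[ℝ] (E → ℝ)} {Wout Win : E → ℝ}
    (h0 : ∀ e, 0 ≤ Wout e) (h0' : ∀ e, 0 ≤ Win e)
    (hT2 : ∀ V : E → ℝ, ∑ e, Wout e * (T V e) ^ 2 ≤ 6 * ∑ e, Win e * (V e) ^ 2)
    {v : E → ℝ} (hT : T v = v) (j : ℤ) :
    ∑ e, Wout e * (levErr T v j e) ^ 2 ≤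
      12 * ∑ e, (Wout e + Win e) * (v e - lev v j e) ^ 2 := by
  have h1 : ∀ e, Wout e * (levErr T v j e) ^ 2 ≤
      2 * (Wout e * (v e - lev v j e) ^ 2) +
        2 * (Wout e * (T (fun e => v e - lev v j e) e) ^ 2) := by
    intro e
    rw [levErr_eq_low hT, neg_sq]
    have := add_sq_le (a := v e - lev v j e) (b := -(T (fun e => v e - lev v j e) e))
    have h2 : (v e - lev v j e - T (fun e => v e - lev v j e) e) ^ 2 ≤
        2 * ((v e - lev v j e) ^ 2 + (T (fun e => v e - lev v j e) e) ^ 2) := by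
      nlinarith [sq_nonneg (v e - lev v j e + T (fun e => v e - lev v j e) e)]
    have h3 := mul_le_mul_of_nonneg_left h2 (h0 e)
    linarith
  have h4 := hT2 (fun e => v e - lev v j e)
  calc ∑ e, Wout e * (levErr T v j e) ^ 2
      ≤ ∑ e, (2 * (Wout e * (v e - lev v j e) ^ 2) +
        2 * (Wout e * (T (fun e => v e - lev v j e) e) ^ 2)) := sum_le_sum fun e _ => h1 e
    _ = 2 * ∑ e, Wout e * (v e - lev v j e) ^ 2 +
        2 * ∑ e, Wout e * (T (fun e => v e - lev v j e) e) ^ 2 := by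
        rw [sum_add_distrib, ← mul_sum, ← mul_sum]
    _ ≤ 12 * ∑ e, Wout e * (v e - lev v j e) ^ 2 +
        12 * ∑ e, Win e * (v e - lev v j e) ^ 2 := by
        have h5 : 0 ≤ ∑ e, Wout e * (v e - lev v j e) ^ 2 :=
          sum_nonneg fun e _ => mul_nonneg (h0 e) (sq_nonneg _)
        linarith
    _ = 12 * ∑ e, (Wout e + Win e) * (v e - lev v j e) ^ 2 := by
        rw [← mul_add, ← sum_add_distrib]
        congr 1
        refine sum_congr rfl fun e _ => ?_
        ring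

/-- `L¹` bound of the level errors through the high levels -/
theorem levErr_abs_le {E : Type*} [Fintype E] {T : (E → ℝ) →ₗ[ℝ] (E → ℝ)} {Wout Win : E → ℝ}
    (h0 : ∀ e, 0 ≤ Wout e) {N : ℝ} (hN : 1 ≤ N)
    (hT1 : ∀ V : E → ℝ, ∑ e, Wout e * |T V e| ≤ N * ∑ e, Win e * |V e|)
    (v : E → ℝ) (j : ℤ) :
    ∑ e, Wout e * |levErr T v j e| ≤ N * ∑ e, (Wout e + Win e) * |lev v j e| := by
  have h1 : ∀ e, Wout e * |levErr T v j e| ≤
      Wout e * |lev v j e| + Wout e * |T (lev v j) e| := by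
    intro e
    rw [← mul_add]
    exact mul_le_mul_of_nonneg_left (abs_sub _ _) (h0 e)
  have h4 := hT1 (lev v j)
  have h5 : 0 ≤ ∑ e, Wout e * |lev v j e| :=
    sum_nonneg fun e _ => mul_nonneg (h0 e) (abs_nonneg _)
  calc ∑ e, Wout e * |levErr T v j e|
      ≤ ∑ e, (Wout e * |lev v j e| + Wout e * |T (lev v j) e|) := sum_le_sum fun e _ => h1 e
    _ = ∑ e, Wout e * |lev v j e| + ∑ e, Wout e * |T (lev v j) e| := sum_add_distrib
    _ ≤ N * ∑ e, Wout e * |lev v j e| + N * ∑ e, Win e * |lev v j e| := by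
        have : 1 * ∑ e, Wout e * |lev v j e| ≤ N * ∑ e, Wout e * |lev v j e| :=
          mul_le_mul_of_nonneg_right hN h5
        linarith
    _ = N * ∑ e, (Wout e + Win e) * |lev v j e| := by
        rw [← mul_add, ← sum_add_distrib]
        congr 1
        refine sum_congr rfl fun e _ => ?_
        ring

/-- **T5**: level estimate for `1 < p < 2`. -/
theorem levels_lt_two (p : ℝ) (hp1 : 1 < p) (hp : p < 2) :
    ∃ C : ℝ, 0 < C ∧ ∀ (E : Type) [Fintype E] (T : (E → ℝ) →ₗ[ℝ] (E → ℝ)) (Wout Win : E → ℝ)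
      (N : ℝ) (_ : 1 ≤ N) (_ : ∀ e, 0 ≤ Wout e) (_ : ∀ e, 0 ≤ Win e)
      (_ : ∀ V : E → ℝ, ∑ e, Wout e * (T V e) ^ 2 ≤ 6 * ∑ e, Win e * (V e) ^ 2)
      (_ : ∀ V : E → ℝ, ∑ e, Wout e * |T V e| ≤ N * ∑ e, Win e * |V e|)
      (v : E → ℝ) (_ : T v = v) (l : ℕ) (_ : 1 ≤ l) (K : Finset ℤ),
      ∑ e, Wout e * ∑ k ∈ K, ((2 : ℝ) ^ k) ^ (-p) * |mainF l v k e - T (mainF l v k) e| ^ p ≤
        C * N ^ (2 - p) * ∑ e, (Wout e + Win e) * |v e| ^ p := by
  have hC1 : 0 < (1 - (2 : ℝ) ^ (-(2 - p)))⁻¹ := by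
    have : (2 : ℝ) ^ (-(2 - p)) < 1 :=
      Real.rpow_lt_one_of_one_lt_of_neg (by norm_num) (by linarith)
    exact inv_pos.mpr (by linarith)
  have hC2 : 0 < (1 - (2 : ℝ) ^ (-(p - 1)))⁻¹ := by
    have : (2 : ℝ) ^ (-(p - 1)) < 1 :=
      Real.rpow_lt_one_of_one_lt_of_neg (by norm_num) (by linarith)
    exact inv_pos.mpr (by linarith)
  set C1 : ℝ := (1 - (2 : ℝ) ^ (-(2 - p)))⁻¹ with hC1def
  set C2 : ℝ := (1 - (2 : ℝ) ^ (-(p - 1)))⁻¹ with hC2def
  refine ⟨2 ^ p * (12 * C1 + C2), by positivity, ?_⟩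
  intro E _ T Wout Win N hN h0 h0' hT2 hT1 v hT l hl K
  have hN0 : 0 < N := by linarith
  set J := levJ l K
  -- sum of the weighted errors
  have hA : ∑ e, Wout e * ∑ k ∈ K, ((2 : ℝ) ^ k) ^ (-p) *
      |mainF l v k e - T (mainF l v k) e| ^ p ≤
      2 ^ p * ∑ j ∈ J, ∑ e, Wout e * |levErr T v j e| ^ p := by
    calc ∑ e, Wout e * ∑ k ∈ K, ((2 : ℝ) ^ k) ^ (-p) *
          |mainF l v k e - T (mainF l v k) e| ^ p
        ≤ ∑ e, Wout e * (2 ^ p * ∑ j ∈ J, |levErr T v j e| ^ p) :=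
          sum_le_sum fun e _ => mul_le_mul_of_nonneg_left (sum_err_le hp1 hl T v K e) (h0 e)
      _ = 2 ^ p * ∑ j ∈ J, ∑ e, Wout e * |levErr T v j e| ^ p := by
          rw [sum_comm, mul_sum]
          refine sum_congr rfl fun e _ => ?_
          rw [← mul_sum]
          ring
  have hB : ∀ j ∈ J, ∑ e, Wout e * |levErr T v j e| ^ p ≤
      N ^ (2 - p) * (12 * ∑ e, (Wout e + Win e) * (((2 : ℝ) ^ j) ^ (p - 2) * (v e - lev v j e) ^ 2)) +
      N ^ (2 - p) * ∑ e, (Wout e + Win e) * (((2 : ℝ) ^ j) ^ (p - 1) * |lev v j e|) := by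
    intro j _
    have h2j : (0 : ℝ) < (2 : ℝ) ^ j := by positivity
    have h1 : ∀ e, Wout e * |levErr T v j e| ^ p ≤
        N ^ (2 - p) * (((2 : ℝ) ^ j) ^ (p - 2) * (Wout e * (levErr T v j e) ^ 2)) +
        N ^ (1 - p) * (((2 : ℝ) ^ j) ^ (p - 1) * (Wout e * |levErr T v j e|)) := by
      intro e
      have := mul_le_mul_of_nonneg_left
        (rpow_le_interp hp1 hp hN0 (abs_nonneg (levErr T v j e)) h2j) (h0 e)
      rw [sq_abs] at this
      linarith
    calc ∑ e, Wout e * |levErr T v j e| ^ p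
        ≤ ∑ e, (N ^ (2 - p) * (((2 : ℝ) ^ j) ^ (p - 2) * (Wout e * (levErr T v j e) ^ 2)) +
        N ^ (1 - p) * (((2 : ℝ) ^ j) ^ (p - 1) * (Wout e * |levErr T v j e|))) :=
          sum_le_sum fun e _ => h1 e
      _ = N ^ (2 - p) * (((2 : ℝ) ^ j) ^ (p - 2) * ∑ e, Wout e * (levErr T v j e) ^ 2) +
        N ^ (1 - p) * (((2 : ℝ) ^ j) ^ (p - 1) * ∑ e, Wout e * |levErr T v j e|) := by
          rw [sum_add_distrib, mul_sum, mul_sum, mul_sum, mul_sum]
      _ ≤ N ^ (2 - p) * (((2 : ℝ) ^ j) ^ (p - 2) *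
            (12 * ∑ e, (Wout e + Win e) * (v e - lev v j e) ^ 2)) +
          N ^ (1 - p) * (((2 : ℝ) ^ j) ^ (p - 1) *
            (N * ∑ e, (Wout e + Win e) * |lev v j e|)) := by
          refine add_le_add ?_ ?_
          · refine mul_le_mul_of_nonneg_left (mul_le_mul_of_nonneg_left ?_ (by positivity))
              (by positivity)
            exact levErr_sq_le h0 h0' hT2 hT j
          · refine mul_le_mul_of_nonneg_left (mul_le_mul_of_nonneg_left ?_ (by positivity))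
              (by positivity)
            exact levErr_abs_le h0 hN hT1 v j
      _ = _ := by
          have hNN : N ^ (1 - p) * N = N ^ (2 - p) := by
            rw [← Real.rpow_add_one hN0.ne']
            congr 1
            ring
          congr 1
          · congr 1
            rw [mul_left_comm, mul_sum]
            congr 1
            refine sum_congr rfl fun e _ => ?_
            ring
          · rw [← hNN, mul_assoc, mul_left_comm _ N, mul_sum]
            congr 2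
            refine sum_congr rfl fun e _ => ?_
            ring
  have hsum : ∀ e, 0 ≤ Wout e + Win e := fun e => add_nonneg (h0 e) (h0' e)
  have hD1 : ∑ j ∈ J, ∑ e, (Wout e + Win e) * (((2 : ℝ) ^ j) ^ (p - 2) * (v e - lev v j e) ^ 2) ≤
      C1 * ∑ e, (Wout e + Win e) * |v e| ^ p := by
    rw [sum_comm, mul_sum]
    refine sum_le_sum fun e _ => ?_
    rw [← mul_sum]
    have := mul_le_mul_of_nonneg_left (sum_low_sq_le hp v J e hp1) (hsum e)
    linarith
  have hD2 : ∑ j ∈ J, ∑ e, (Wout e + Win e) * (((2 : ℝ) ^ j) ^ (p - 1) * |lev v j e|) ≤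
      C2 * ∑ e, (Wout e + Win e) * |v e| ^ p := by
    rw [sum_comm, mul_sum]
    refine sum_le_sum fun e _ => ?_
    rw [← mul_sum]
    have := mul_le_mul_of_nonneg_left (sum_high_abs_le hp1 v J e) (hsum e)
    linarith
  have hE : ∑ j ∈ J, ∑ e, Wout e * |levErr T v j e| ^ p ≤
      (12 * C1 + C2) * N ^ (2 - p) * ∑ e, (Wout e + Win e) * |v e| ^ p := by
    calc ∑ j ∈ J, ∑ e, Wout e * |levErr T v j e| ^ p
        ≤ ∑ j ∈ J, (N ^ (2 - p) * (12 * ∑ e, (Wout e + Win e) *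
            (((2 : ℝ) ^ j) ^ (p - 2) * (v e - lev v j e) ^ 2)) +
          N ^ (2 - p) * ∑ e, (Wout e + Win e) * (((2 : ℝ) ^ j) ^ (p - 1) * |lev v j e|)) :=
          sum_le_sum hB
      _ = N ^ (2 - p) * (12 * ∑ j ∈ J, ∑ e, (Wout e + Win e) *
            (((2 : ℝ) ^ j) ^ (p - 2) * (v e - lev v j e) ^ 2)) +
          N ^ (2 - p) * ∑ j ∈ J, ∑ e, (Wout e + Win e) *
            (((2 : ℝ) ^ j) ^ (p - 1) * |lev v j e|) := by
          rw [sum_add_distrib, ← mul_sum, ← mul_sum, ← mul_sum]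
      _ ≤ N ^ (2 - p) * (12 * (C1 * ∑ e, (Wout e + Win e) * |v e| ^ p)) +
          N ^ (2 - p) * (C2 * ∑ e, (Wout e + Win e) * |v e| ^ p) := by
          refine add_le_add ?_ ?_
          · refine mul_le_mul_of_nonneg_left ?_ (by positivity)
            linarith
          · exact mul_le_mul_of_nonneg_left hD2 (by positivity)
      _ = _ := by ring
  calc _ ≤ 2 ^ p * ∑ j ∈ J, ∑ e, Wout e * |levErr T v j e| ^ p := hA
    _ ≤ 2 ^ p * ((12 * C1 + C2) * N ^ (2 - p) * ∑ e, (Wout e + Win e) * |v e| ^ p) :=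
        mul_le_mul_of_nonneg_left hE (by positivity)
    _ = _ := by ring

end Crest.Agent.R232
end

-- ▼ part R232/Lev
section

/-! # R232: dyadic levels, Abel summation for the main field (shared by T4 and T5) -/

set_option autoImplicit false

open Finset

namespace Crest.Agent.R232

/-! ## geometric sums -/

theorem two_rpow_neg_lt_one {r : ℝ} (hr : 0 < r) : (2 : ℝ) ^ (-r) < 1 :=
  Real.rpow_lt_one_of_one_lt_of_neg (by norm_num) (by linarith)

theorem one_sub_two_rpow_pos {r : ℝ} (hr : 0 < r) : 0 < 1 - (2 : ℝ) ^ (-r) := by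
  have := two_rpow_neg_lt_one hr
  linarith

theorem sum_dyadic_le (r : ℝ) (hr : 0 < r) (x : ℝ) (hx : 0 < x) (J : Finset ℤ) :
    ∑ j ∈ J with (2 : ℝ) ^ j ≤ x, ((2 : ℝ) ^ j) ^ r ≤ x ^ r / (1 - (2 : ℝ) ^ (-r)) := by
  set i : ℤ := Int.log 2 x with hi
  have hmem : ∀ j : ℤ, (2 : ℝ) ^ j ≤ x ↔ j ≤ i := fun j => by
    have := Int.zpow_le_iff_le_log (R := ℝ) (b := 2) (by norm_num) hx (x := j)
    simpa using this
  have hq0 : 0 ≤ (2 : ℝ) ^ (-r) := by positivity
  have hq1 := two_rpow_neg_lt_one hr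
  have h2i : (2 : ℝ) ^ i ≤ x := (hmem i).2 le_rfl
  have key : ∀ j ∈ J.filter (fun j => (2 : ℝ) ^ j ≤ x),
      ((2 : ℝ) ^ j) ^ r = ((2 : ℝ) ^ i) ^ r * ((2 : ℝ) ^ (-r)) ^ ((i - j).toNat) := by
    intro j hj
    have hji : j ≤ i := (hmem j).1 (mem_filter.1 hj).2
    have h1 : ((i - j).toNat : ℤ) = i - j := Int.toNat_of_nonneg (by omega)
    have h2 : (2 : ℝ) ^ j = (2 : ℝ) ^ i * ((2 : ℝ) ^ ((i - j).toNat))⁻¹ := by
      rw [← zpow_natCast, h1, ← zpow_neg, ← zpow_add₀ (by norm_num : (2 : ℝ) ≠ 0)]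
      congr 1; ring
    rw [h2, Real.mul_rpow (by positivity) (by positivity)]
    congr 1
    rw [Real.inv_rpow (by positivity), ← Real.rpow_natCast, ← Real.rpow_natCast,
      ← Real.rpow_mul (by norm_num), ← Real.rpow_mul (by norm_num), ← Real.rpow_neg (by norm_num)]
    congr 1; ring
  rw [sum_congr rfl key, ← mul_sum, div_eq_mul_inv]
  have hsum : ∑ j ∈ J.filter (fun j => (2 : ℝ) ^ j ≤ x), ((2 : ℝ) ^ (-r)) ^ ((i - j).toNat) ≤
      (1 - (2 : ℝ) ^ (-r))⁻¹ := by
    rw [← tsum_geometric_of_lt_one hq0 hq1]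
    have hinj : Set.InjOn (fun j : ℤ => (i - j).toNat)
        (J.filter (fun j => (2 : ℝ) ^ j ≤ x) : Finset ℤ) := by
      intro a ha b hb hab
      have h1 : a ≤ i := (hmem a).1 (mem_filter.1 (mem_coe.1 ha)).2
      have h2 : b ≤ i := (hmem b).1 (mem_filter.1 (mem_coe.1 hb)).2
      simp only at hab
      omega
    rw [← sum_image (f := fun n : ℕ => ((2 : ℝ) ^ (-r)) ^ n) hinj]
    exact (summable_geometric_of_lt_one hq0 hq1).sum_le_tsum _ (fun n _ => by positivity)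
  have h3 : ((2 : ℝ) ^ i) ^ r ≤ x ^ r := Real.rpow_le_rpow (by positivity) h2i hr.le
  have h4 : 0 ≤ (1 - (2 : ℝ) ^ (-r))⁻¹ := inv_nonneg.2 (one_sub_two_rpow_pos hr).le
  calc ((2 : ℝ) ^ i) ^ r * ∑ j ∈ J.filter (fun j => (2 : ℝ) ^ j ≤ x), ((2 : ℝ) ^ (-r)) ^ ((i - j).toNat)
      ≤ ((2 : ℝ) ^ i) ^ r * (1 - (2 : ℝ) ^ (-r))⁻¹ :=
        mul_le_mul_of_nonneg_left hsum (by positivity)
    _ ≤ x ^ r * (1 - (2 : ℝ) ^ (-r))⁻¹ := mul_le_mul_of_nonneg_right h3 h4

theorem sum_dyadic_gt_le (r : ℝ) (hr : 0 < r) (x : ℝ) (hx : 0 < x) (J : Finset ℤ) :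
    ∑ j ∈ J with x < (2 : ℝ) ^ j, ((2 : ℝ) ^ j) ^ (-r) ≤ x ^ (-r) / (1 - (2 : ℝ) ^ (-r)) := by
  have h := sum_dyadic_le r hr x⁻¹ (inv_pos.2 hx) (J.image (fun j => -j))
  have hx' : (x⁻¹) ^ r = x ^ (-r) := by
    rw [Real.inv_rpow hx.le, Real.rpow_neg hx.le]
  rw [hx'] at h
  refine le_trans ?_ h
  have hinj : Set.InjOn (fun j : ℤ => -j) (J.filter (fun j => x < (2 : ℝ) ^ j) : Finset ℤ) :=
    fun a _ b _ hab => neg_injective hab
  have h1 : ∑ j ∈ J.filter (fun j => x < (2 : ℝ) ^ j), ((2 : ℝ) ^ j) ^ (-r) =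
      ∑ j ∈ (J.filter (fun j => x < (2 : ℝ) ^ j)).image (fun j => -j), ((2 : ℝ) ^ j) ^ r := by
    rw [sum_image hinj]
    refine sum_congr rfl fun j _ => ?_
    rw [zpow_neg, Real.inv_rpow (by positivity), Real.rpow_neg (by positivity)]
  rw [h1]
  refine sum_le_sum_of_subset_of_nonneg ?_ (fun _ _ _ => by positivity)
  intro j hj
  obtain ⟨a, ha, rfl⟩ := mem_image.1 hj
  obtain ⟨haJ, hax⟩ := mem_filter.1 ha
  refine mem_filter.2 ⟨mem_image_of_mem _ haJ, ?_⟩
  rw [zpow_neg]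
  exact inv_anti₀ hx hax.le

/-! ## levels -/

section levels

variable {E : Type*}

/-- the part of `v` of size `< 2 ^ j` -/
noncomputable def low (v : E → ℝ) (j : ℤ) (e : E) : ℝ := v e - lev v j e

theorem low_apply (v : E → ℝ) (j : ℤ) (e : E) :
    low v j e = if |v e| < (2 : ℝ) ^ j then v e else 0 := by
  unfold low lev
  by_cases h : (2 : ℝ) ^ j ≤ |v e|
  · rw [if_pos h, if_neg (not_lt.2 h)]; ring
  · rw [if_neg h, if_pos (not_le.1 h)]; ring

theorem abs_low_le (v : E → ℝ) (j : ℤ) (e : E) : |low v j e| ≤ (2 : ℝ) ^ j := by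
  rw [low_apply]
  split_ifs with h
  · exact h.le
  · rw [abs_zero]; positivity



theorem lev_add_low (v : E → ℝ) (j : ℤ) : lev v j + low v j = v := by
  ext e; simp [low]

/-- level error -/
noncomputable def levErr (T : (E → ℝ) →ₗ[ℝ] (E → ℝ)) (v : E → ℝ) (j : ℤ) (e : E) : ℝ :=
  lev v j e - T (lev v j) e

theorem levErr_eq (T : (E → ℝ) →ₗ[ℝ] (E → ℝ)) (v : E → ℝ) (hT : T v = v) (j : ℤ) (e : E) :
    levErr T v j e = -(low v j e - T (low v j) e) := by
  have h1 : T (lev v j) + T (low v j) = v := by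
    rw [← map_add, lev_add_low, hT]
  have h2 := congrFun h1 e
  have h3 := congrFun (lev_add_low v j) e
  simp only [Pi.add_apply] at h2 h3
  unfold levErr
  linarith

/-! ## Abel summation -/

theorem tent_zero (l : ℕ) : tent l 0 = 0 := by
  unfold tent
  simp

theorem tent_of_nonpos (l : ℕ) (m : ℤ) (hm : m ≤ 0) : tent l m = 0 := by
  unfold tent
  have hm' : (m : ℝ) ≤ 0 := by exact_mod_cast hm
  have : (m : ℝ) / l ≤ 0 := div_nonpos_of_nonpos_of_nonneg hm' (by positivity)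
  exact max_eq_left ((min_le_left _ _).trans this)

theorem tent_of_ge (l : ℕ) (m : ℤ) (hm : 2 * (l : ℤ) ≤ m) : tent l m = 0 := by
  unfold tent
  have hm' : (2 * (l : ℝ)) ≤ m := by exact_mod_cast hm
  have : (2 * (l : ℝ) - m) / l ≤ 0 :=
    div_nonpos_of_nonpos_of_nonneg (by linarith) (by positivity)
  exact max_eq_left ((min_le_right _ _).trans this)

theorem tent_aux (a b h : ℝ) (hh : 0 ≤ h) :
    |max 0 (min (a + h) (b - h)) - max 0 (min a b)| ≤ h := by
  rw [abs_le]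
  constructor
  · rcases le_total (min a b) 0 with h1 | h1
    · rw [max_eq_left h1]
      have := le_max_left 0 (min (a + h) (b - h))
      linarith
    · rw [max_eq_right h1]
      have h2 : min a b - h ≤ min (a + h) (b - h) := by
        refine le_min ?_ ?_
        · have := min_le_left a b; linarith
        · have := min_le_right a b; linarith
      have := le_max_right 0 (min (a + h) (b - h))
      linarith
  · have h2 : min (a + h) (b - h) ≤ min a b + h := by
      rcases le_total a b with hab | hab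
      · rw [min_eq_left hab]; exact min_le_left _ _
      · rw [min_eq_right hab]
        have := min_le_right (a + h) (b - h); linarith
    have h3 : max 0 (min (a + h) (b - h)) ≤ max 0 (min a b) + h := by
      refine max_le ?_ ?_
      · have := le_max_left 0 (min a b); linarith
      · have := le_max_right 0 (min a b); linarith
    linarith

theorem abs_tent_sub_le (l : ℕ) (m : ℤ) : |tent l (m + 1) - tent l m| ≤ 1 / l := by
  have h := tent_aux ((m : ℝ) / l) ((2 * l - m : ℝ) / l) (1 / l) (by positivity)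
  unfold tent
  convert h using 5
  · push_cast; ring
  · push_cast; ring

theorem sum_tent (l : ℕ) (t : ℤ) (ht : 0 ≤ t) (n : ℕ) :
    ∑ m ∈ range n, (if (m : ℤ) + 1 ≤ t then tent l ((m : ℤ) + 1) - tent l m else 0) =
      tent l (min t n) := by
  induction n with
  | zero => simp [min_eq_right ht, tent_zero]
  | succ n ih =>
    rw [sum_range_succ, ih]
    by_cases h : (n : ℤ) + 1 ≤ t
    · rw [if_pos h, min_eq_right (by omega : (n : ℤ) ≤ t),
        min_eq_right (by push_cast; omega : ((n + 1 : ℕ) : ℤ) ≤ t)]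
      push_cast
      ring
    · rw [if_neg h, min_eq_left (by omega : t ≤ (n : ℤ)),
        min_eq_left (by push_cast; omega : t ≤ ((n + 1 : ℕ) : ℤ)), add_zero]

theorem sum_tent' (l : ℕ) (t : ℤ) :
    ∑ m ∈ range (2 * l), (if (m : ℤ) + 1 ≤ t then tent l ((m : ℤ) + 1) - tent l m else 0) =
      tent l t := by
  rcases le_total 0 t with ht | ht
  · rw [sum_tent l t ht]
    rcases le_total t (2 * l : ℕ) with h | h
    · rw [min_eq_left h]
    · rw [min_eq_right h, tent_of_ge l _ (by push_cast; rfl), tent_of_ge l t (by push_cast at h; omega)]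
  · rw [tent_of_nonpos l t ht]
    refine sum_eq_zero fun m _ => ?_
    rw [if_neg (by omega)]

theorem lev_eq (v : E → ℝ) (j : ℤ) (e : E) :
    lev v j e = if j ≤ Int.log 2 |v e| then v e else 0 := by
  unfold lev
  rcases eq_or_ne (v e) 0 with h | h
  · simp [h]
  · have := Int.zpow_le_iff_le_log (R := ℝ) (b := 2) (by norm_num) (abs_pos.2 h) (x := j)
    have h2 : (2 : ℝ) ^ j ≤ |v e| ↔ j ≤ Int.log 2 |v e| := by simpa using this
    simp only [h2]

theorem mainF_abel (l : ℕ) (v : E → ℝ) (k : ℤ) :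
    mainF l v k = ∑ m ∈ range (2 * l),
      ((2 : ℝ) ^ k * (tent l ((m : ℤ) + 1) - tent l m)) • lev v ((m : ℤ) + 1 - k) := by
  ext e
  rw [Finset.sum_apply]
  simp only [Pi.smul_apply, smul_eq_mul, mainF]
  rw [← sum_tent' l (Int.log 2 |v e| + k), mul_assoc, sum_mul, mul_sum]
  refine sum_congr rfl fun m _ => ?_
  rw [lev_eq]
  have : ((m : ℤ) + 1 - k ≤ Int.log 2 |v e|) ↔ ((m : ℤ) + 1 ≤ Int.log 2 |v e| + k) := by omega
  simp only [this]
  split_ifs <;> ring

theorem mainF_sub (T : (E → ℝ) →ₗ[ℝ] (E → ℝ)) (l : ℕ) (v : E → ℝ) (k : ℤ) (e : E) :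
    mainF l v k e - T (mainF l v k) e = ∑ m ∈ range (2 * l),
      ((2 : ℝ) ^ k * (tent l ((m : ℤ) + 1) - tent l m)) * levErr T v ((m : ℤ) + 1 - k) e := by
  rw [mainF_abel, map_sum, Finset.sum_apply, Finset.sum_apply, ← sum_sub_distrib]
  refine sum_congr rfl fun m _ => ?_
  rw [map_smul, Pi.smul_apply, Pi.smul_apply, smul_eq_mul, smul_eq_mul, levErr]
  ring

theorem abel_bound₀ (T : (E → ℝ) →ₗ[ℝ] (E → ℝ)) (l : ℕ) (v : E → ℝ) (k : ℤ) (e : E) :
    |mainF l v k e - T (mainF l v k) e| ≤ (2 : ℝ) ^ k * ((l : ℝ)⁻¹ *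
      ∑ m ∈ range (2 * l), |levErr T v ((m : ℤ) + 1 - k) e|) := by
  rw [mainF_sub, mul_sum, mul_sum]
  refine (abs_sum_le_sum_abs _ _).trans (sum_le_sum fun m _ => ?_)
  rw [abs_mul, abs_mul, abs_of_pos (by positivity : (0 : ℝ) < 2 ^ k), mul_assoc]
  refine mul_le_mul_of_nonneg_left ?_ (by positivity)
  refine mul_le_mul_of_nonneg_right ?_ (abs_nonneg _)
  simpa using abs_tent_sub_le l m

theorem abel_bound (T : (E → ℝ) →ₗ[ℝ] (E → ℝ)) (l : ℕ) (v : E → ℝ) (k : ℤ) (e : E) (p : ℝ)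
    (hp : 0 < p) :
    ((2 : ℝ) ^ k) ^ (-p) * |mainF l v k e - T (mainF l v k) e| ^ p ≤ (l : ℝ) ^ (-p) *
      (∑ m ∈ range (2 * l), |levErr T v ((m : ℤ) + 1 - k) e|) ^ p := by
  have h := Real.rpow_le_rpow (abs_nonneg _) (abel_bound₀ T l v k e) hp.le
  have hs : 0 ≤ ∑ m ∈ range (2 * l), |levErr T v ((m : ℤ) + 1 - k) e| :=
    sum_nonneg fun _ _ => abs_nonneg _
  rw [Real.mul_rpow (by positivity) (by positivity), Real.mul_rpow (by positivity) hs] at h
  have h2 : ((2 : ℝ) ^ k) ^ (-p) * ((2 : ℝ) ^ k) ^ p = 1 := by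
    rw [← Real.rpow_add (by positivity)]; simp
  have h3 : ((l : ℝ)⁻¹) ^ p = (l : ℝ) ^ (-p) := by
    rw [Real.inv_rpow (by positivity), Real.rpow_neg (by positivity)]
  calc ((2 : ℝ) ^ k) ^ (-p) * |mainF l v k e - T (mainF l v k) e| ^ p
      ≤ ((2 : ℝ) ^ k) ^ (-p) * (((2 : ℝ) ^ k) ^ p * (((l : ℝ)⁻¹) ^ p *
          (∑ m ∈ range (2 * l), |levErr T v ((m : ℤ) + 1 - k) e|) ^ p)) :=
        mul_le_mul_of_nonneg_left h (by positivity)
    _ = _ := by rw [← mul_assoc, h2, one_mul, h3]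

end levels

end Crest.Agent.R232
end

-- ▼ part R232/T4
section

/-! # R232 T4: level estimate for `p > 2` -/

set_option autoImplicit false

open Finset

namespace Crest.Agent.R232

theorem pointwise_gt_two (p : ℝ) (hp : 2 < p) (A : ℝ) (hA : 0 < A) (J : Finset ℤ) (a : ℤ → ℝ)
    (h0 : ∀ j, 0 ≤ a j) (h1 : ∀ j, a j ≤ A * 2 ^ j) :
    (∑ j ∈ J, a j) ^ p ≤ 4 ^ (p - 1) / (1 - (2 : ℝ) ^ (-(p - 2))) * A ^ (p - 2) *
      ∑ j ∈ J, (a j) ^ 2 * ((2 : ℝ) ^ j) ^ (p - 2) := by
  have hc : 0 < 1 - (2 : ℝ) ^ (-(p - 2)) := one_sub_two_rpow_pos (by linarith)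
  set c : ℝ := 1 - (2 : ℝ) ^ (-(p - 2)) with hcdef
  set H : ℝ := ∑ j ∈ J, a j with hH
  set Q : ℝ := ∑ j ∈ J, (a j) ^ 2 * ((2 : ℝ) ^ j) ^ (p - 2) with hQ
  have hQ0 : 0 ≤ Q := sum_nonneg fun j _ => by positivity
  have hH0 : 0 ≤ H := sum_nonneg fun j _ => h0 j
  rcases hH0.eq_or_lt with hHz | hHpos
  · rw [← hHz, Real.zero_rpow (by linarith)]
    positivity
  set x : ℝ := H / (4 * A) with hx
  have hxpos : 0 < x := by positivity
  -- small levels
  have hS1 : ∑ j ∈ J with (2 : ℝ) ^ j ≤ x, a j ≤ H / 2 := by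
    have h2 := sum_dyadic_le 1 one_pos x hxpos J
    simp only [Real.rpow_one] at h2
    have h3 : x / (1 - (2 : ℝ) ^ (-1 : ℝ)) = 2 * x := by
      rw [Real.rpow_neg_one]; norm_num; ring
    rw [h3] at h2
    calc ∑ j ∈ J with (2 : ℝ) ^ j ≤ x, a j ≤ ∑ j ∈ J with (2 : ℝ) ^ j ≤ x, A * 2 ^ j :=
          sum_le_sum fun j _ => h1 j
      _ = A * ∑ j ∈ J with (2 : ℝ) ^ j ≤ x, (2 : ℝ) ^ j := by rw [mul_sum]
      _ ≤ A * (2 * x) := mul_le_mul_of_nonneg_left h2 hA.le
      _ = H / 2 := by rw [hx]; field_simp; ring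
  have hsplit : ∑ j ∈ J with (2 : ℝ) ^ j ≤ x, a j + ∑ j ∈ J with x < (2 : ℝ) ^ j, a j = H := by
    rw [hH, ← sum_filter_add_sum_filter_not J (fun j => (2 : ℝ) ^ j ≤ x)]
    simp only [not_le]
  have hS2 : H / 2 ≤ ∑ j ∈ J with x < (2 : ℝ) ^ j, a j := by linarith
  have hCS : (∑ j ∈ J with x < (2 : ℝ) ^ j, a j) ^ 2 ≤
      (∑ j ∈ J with x < (2 : ℝ) ^ j, (a j) ^ 2 * ((2 : ℝ) ^ j) ^ (p - 2)) *
        ∑ j ∈ J with x < (2 : ℝ) ^ j, ((2 : ℝ) ^ j) ^ (-(p - 2)) := by
    refine sum_sq_le_sum_mul_sum_of_sq_eq_mul _ (fun j _ => by positivity)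
      (fun j _ => by positivity) (fun j _ => ?_)
    rw [mul_assoc, ← Real.rpow_add (by positivity)]
    simp
  have hQ1 : ∑ j ∈ J with x < (2 : ℝ) ^ j, (a j) ^ 2 * ((2 : ℝ) ^ j) ^ (p - 2) ≤ Q :=
    sum_le_sum_of_subset_of_nonneg (filter_subset _ _) (fun _ _ _ => by positivity)
  have hG := sum_dyadic_gt_le (p - 2) (by linarith) x hxpos J
  rw [← hcdef] at hG
  have hmain : H ^ 2 / 4 ≤ Q * (x ^ (-(p - 2)) / c) := by
    calc H ^ 2 / 4 = (H / 2) ^ 2 := by ring
      _ ≤ (∑ j ∈ J with x < (2 : ℝ) ^ j, a j) ^ 2 := by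
          exact pow_le_pow_left₀ (by positivity) hS2 2
      _ ≤ _ := hCS
      _ ≤ Q * (x ^ (-(p - 2)) / c) :=
          mul_le_mul hQ1 hG (sum_nonneg fun _ _ => by positivity) hQ0
  have hHp : H ^ p = H ^ 2 * H ^ (p - 2) := by
    rw [← Real.rpow_natCast H 2, ← Real.rpow_add hHpos]
    congr 1; push_cast; ring
  have hxp : x ^ (-(p - 2)) * H ^ (p - 2) = (4 * A) ^ (p - 2) := by
    rw [Real.rpow_neg hxpos.le, hx, Real.div_rpow hH0 (by positivity)]
    field_simp
  have h4 : (4 : ℝ) * 4 ^ (p - 2) = 4 ^ (p - 1) := by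
    nth_rewrite 1 [← Real.rpow_one (4 : ℝ)]
    rw [← Real.rpow_add (by norm_num)]
    congr 1; ring
  calc H ^ p = 4 * (H ^ 2 / 4) * H ^ (p - 2) := by rw [hHp]; ring
    _ ≤ 4 * (Q * (x ^ (-(p - 2)) / c)) * H ^ (p - 2) := by
        refine mul_le_mul_of_nonneg_right ?_ (by positivity)
        linarith
    _ = 4 / c * Q * (x ^ (-(p - 2)) * H ^ (p - 2)) := by ring
    _ = 4 / c * Q * (4 * A) ^ (p - 2) := by rw [hxp]
    _ = 4 ^ (p - 1) / c * A ^ (p - 2) * Q := by
        rw [Real.mul_rpow (by norm_num) hA.le, ← h4]; ring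

/-- the finite set of levels occurring in the windows -/
noncomputable def winJ (l : ℕ) (K : Finset ℤ) : Finset ℤ :=
  (range (2 * l) ×ˢ K).image (fun q : ℕ × ℤ => (q.1 : ℤ) + 1 - q.2)

theorem window_le_fst (l : ℕ) (K : Finset ℤ) (a : ℤ → ℝ) (h0 : ∀ j, 0 ≤ a j) (k : ℤ)
    (hk : k ∈ K) : ∑ m ∈ range (2 * l), a ((m : ℤ) + 1 - k) ≤ ∑ j ∈ winJ l K, a j := by
  have hinj : Set.InjOn (fun m : ℕ => (m : ℤ) + 1 - k) (range (2 * l) : Finset ℕ) := by
    intro x _ y _ hxy
    simp only at hxy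
    omega
  rw [← sum_image (f := a) hinj]
  refine sum_le_sum_of_subset_of_nonneg ?_ (fun j _ _ => h0 j)
  intro j hj
  obtain ⟨m, hm, rfl⟩ := mem_image.1 hj
  exact mem_image.2 ⟨(m, k), mem_product.2 ⟨hm, hk⟩, rfl⟩

theorem window_le_snd (l : ℕ) (K : Finset ℤ) (a : ℤ → ℝ) (h0 : ∀ j, 0 ≤ a j) (m : ℕ)
    (hm : m ∈ range (2 * l)) : ∑ k ∈ K, a ((m : ℤ) + 1 - k) ≤ ∑ j ∈ winJ l K, a j := by
  have hinj : Set.InjOn (fun k : ℤ => (m : ℤ) + 1 - k) (K : Set ℤ) := by
    intro x _ y _ hxy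
    simp only at hxy
    omega
  rw [← sum_image (f := a) hinj]
  refine sum_le_sum_of_subset_of_nonneg ?_ (fun j _ _ => h0 j)
  intro j hj
  obtain ⟨k, hk, rfl⟩ := mem_image.1 hj
  exact mem_image.2 ⟨(m, k), mem_product.2 ⟨hm, hk⟩, rfl⟩

theorem sum_windows (l : ℕ) (K : Finset ℤ) (a : ℤ → ℝ) (h0 : ∀ j, 0 ≤ a j) (p : ℝ)
    (hp : 1 < p) :
    ∑ k ∈ K, (∑ m ∈ range (2 * l), a ((m : ℤ) + 1 - k)) ^ p ≤
      2 * l * (∑ j ∈ winJ l K, a j) ^ p := by
  set H : ℝ := ∑ j ∈ winJ l K, a j with hH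
  have hH0 : 0 ≤ H := sum_nonneg fun j _ => h0 j
  have hs : ∀ y : ℝ, 0 ≤ y → y ^ p = y ^ (p - 1) * y := fun y hy => by
    have := Real.rpow_add_one' hy (y := p - 1) (by linarith)
    rwa [sub_add_cancel] at this
  have h1 : ∀ k ∈ K, (∑ m ∈ range (2 * l), a ((m : ℤ) + 1 - k)) ^ p ≤
      H ^ (p - 1) * ∑ m ∈ range (2 * l), a ((m : ℤ) + 1 - k) := by
    intro k hk
    have hk0 : 0 ≤ ∑ m ∈ range (2 * l), a ((m : ℤ) + 1 - k) := sum_nonneg fun m _ => h0 _
    rw [hs _ hk0]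
    refine mul_le_mul_of_nonneg_right ?_ hk0
    exact Real.rpow_le_rpow hk0 (window_le_fst l K a h0 k hk) (by linarith)
  calc ∑ k ∈ K, (∑ m ∈ range (2 * l), a ((m : ℤ) + 1 - k)) ^ p
      ≤ ∑ k ∈ K, H ^ (p - 1) * ∑ m ∈ range (2 * l), a ((m : ℤ) + 1 - k) := sum_le_sum h1
    _ = H ^ (p - 1) * ∑ m ∈ range (2 * l), ∑ k ∈ K, a ((m : ℤ) + 1 - k) := by
        rw [← mul_sum, sum_comm]
    _ ≤ H ^ (p - 1) * ∑ m ∈ range (2 * l), H := by
        refine mul_le_mul_of_nonneg_left ?_ (by positivity)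
        exact sum_le_sum fun m hm => window_le_snd l K a h0 m hm
    _ = 2 * l * H ^ p := by
        rw [sum_const, card_range, nsmul_eq_mul, hs H hH0]; push_cast; ring

theorem sum_sq_levErr_le {E : Type*} [Fintype E] (T : (E → ℝ) →ₗ[ℝ] (E → ℝ)) (Wout Win : E → ℝ)
    (hWout : ∀ e, 0 ≤ Wout e) (hWin : ∀ e, 0 ≤ Win e)
    (h2 : ∀ V : E → ℝ, ∑ e, Wout e * (T V e) ^ 2 ≤ 6 * ∑ e, Win e * (V e) ^ 2)
    (u : E → ℝ) :
    ∑ e, Wout e * (u e - T u e) ^ 2 ≤ 12 * ∑ e, (Wout e + Win e) * (u e) ^ 2 := by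
  calc ∑ e, Wout e * (u e - T u e) ^ 2
      ≤ ∑ e, (2 * (Wout e * (u e) ^ 2) + 2 * (Wout e * (T u e) ^ 2)) := by
        refine sum_le_sum fun e _ => ?_
        nlinarith [hWout e, mul_nonneg (hWout e) (sq_nonneg (u e + T u e))]
    _ = 2 * ∑ e, Wout e * (u e) ^ 2 + 2 * ∑ e, Wout e * (T u e) ^ 2 := by
        rw [sum_add_distrib, ← mul_sum, ← mul_sum]
    _ ≤ 2 * ∑ e, Wout e * (u e) ^ 2 + 2 * (6 * ∑ e, Win e * (u e) ^ 2) := by
        have := h2 u; linarith
    _ ≤ 12 * ∑ e, (Wout e + Win e) * (u e) ^ 2 := by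
        have hs : ∑ e, (Wout e + Win e) * (u e) ^ 2 =
            ∑ e, Wout e * (u e) ^ 2 + ∑ e, Win e * (u e) ^ 2 := by
          rw [← sum_add_distrib]; exact sum_congr rfl fun e _ => by ring
        have h3 : 0 ≤ ∑ e, Wout e * (u e) ^ 2 :=
          sum_nonneg fun e _ => mul_nonneg (hWout e) (sq_nonneg _)
        rw [hs]; linarith

/-- T4: level estimate for `p > 2`. -/
theorem levels_gt_two (p : ℝ) (hp : 2 < p) :
    ∃ C : ℝ, 0 < C ∧ ∀ (E : Type) [Fintype E] (T : (E → ℝ) →ₗ[ℝ] (E → ℝ)) (Wout Win : E → ℝ)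
      (N : ℝ) (_ : 1 ≤ N) (_ : ∀ e, 0 ≤ Wout e) (_ : ∀ e, 0 ≤ Win e)
      (_ : ∀ V : E → ℝ, ∑ e, Wout e * (T V e) ^ 2 ≤ 6 * ∑ e, Win e * (V e) ^ 2)
      (_ : ∀ (V : E → ℝ) (M : ℝ) (_ : ∀ e', |V e'| ≤ M) (e : E), |T V e| ≤ N * M)
      (v : E → ℝ) (_ : T v = v) (l : ℕ) (_ : 1 ≤ l) (K : Finset ℤ),
      ∑ e, Wout e * ∑ k ∈ K, ((2 : ℝ) ^ k) ^ (-p) * |mainF l v k e - T (mainF l v k) e| ^ p ≤
        C * N ^ (p - 2) * (l : ℝ) ^ (1 - p) * ∑ e, (Wout e + Win e) * |v e| ^ p := by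
  have hc : 0 < 1 - (2 : ℝ) ^ (-(p - 2)) := one_sub_two_rpow_pos (by linarith)
  set c : ℝ := 1 - (2 : ℝ) ^ (-(p - 2)) with hcdef
  refine ⟨2 * (4 ^ (p - 1) / c * 2 ^ (p - 2)) * 12 / c, by positivity, ?_⟩
  intro E _ T Wout Win N hN hWout hWin hL2 hLinf v hTv l hl K
  have hl0 : (0 : ℝ) < l := by exact_mod_cast hl
  have hN0 : 0 < N := by linarith
  set J := winJ l K with hJ
  -- pointwise bound
  have hpt : ∀ e, ∑ k ∈ K, ((2 : ℝ) ^ k) ^ (-p) * |mainF l v k e - T (mainF l v k) e| ^ p ≤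
      (l : ℝ) ^ (-p) * (2 * l * (4 ^ (p - 1) / c * (2 * N) ^ (p - 2) *
        ∑ j ∈ J, (levErr T v j e) ^ 2 * ((2 : ℝ) ^ j) ^ (p - 2))) := by
    intro e
    have hE : ∀ j, |levErr T v j e| ≤ (2 * N) * 2 ^ j := by
      intro j
      rw [levErr_eq T v hTv, abs_neg]
      have h1 := abs_low_le v j e
      have h2 := hLinf (low v j) (2 ^ j) (abs_low_le v j) e
      have h3 := abs_sub (low v j e) (T (low v j) e)
      have h4 : (0 : ℝ) < 2 ^ j := by positivity
      nlinarith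
    calc ∑ k ∈ K, ((2 : ℝ) ^ k) ^ (-p) * |mainF l v k e - T (mainF l v k) e| ^ p
        ≤ ∑ k ∈ K, (l : ℝ) ^ (-p) *
            (∑ m ∈ range (2 * l), |levErr T v ((m : ℤ) + 1 - k) e|) ^ p :=
          sum_le_sum fun k _ => abel_bound T l v k e p (by linarith)
      _ = (l : ℝ) ^ (-p) * ∑ k ∈ K,
            (∑ m ∈ range (2 * l), |levErr T v ((m : ℤ) + 1 - k) e|) ^ p := by rw [mul_sum]
      _ ≤ (l : ℝ) ^ (-p) * (2 * l * (∑ j ∈ J, |levErr T v j e|) ^ p) := by
          refine mul_le_mul_of_nonneg_left ?_ (by positivity)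
          exact sum_windows l K (fun j => |levErr T v j e|) (fun j => abs_nonneg _) p
            (by linarith)
      _ ≤ _ := by
          refine mul_le_mul_of_nonneg_left ?_ (by positivity)
          refine mul_le_mul_of_nonneg_left ?_ (by positivity)
          have := pointwise_gt_two p hp (2 * N) (by positivity) J (fun j => |levErr T v j e|)
            (fun j => abs_nonneg _) hE
          simpa only [sq_abs] using this
  have hgeo : ∀ e, ∑ j ∈ J, (lev v j e) ^ 2 * ((2 : ℝ) ^ j) ^ (p - 2) ≤ |v e| ^ p / c := by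
    intro e
    rcases eq_or_ne (v e) 0 with hv | hv
    · have : ∀ j, lev v j e = 0 := fun j => by unfold lev; simp [hv]
      simp only [this]
      rw [hv, abs_zero, Real.zero_rpow (by linarith)]
      simp
    have hv' : 0 < |v e| := abs_pos.2 hv
    have h1 : ∑ j ∈ J, (lev v j e) ^ 2 * ((2 : ℝ) ^ j) ^ (p - 2) =
        |v e| ^ 2 * ∑ j ∈ J with (2 : ℝ) ^ j ≤ |v e|, ((2 : ℝ) ^ j) ^ (p - 2) := by
      rw [sum_filter, mul_sum]
      refine sum_congr rfl fun j _ => ?_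
      unfold lev
      split_ifs
      · rw [sq_abs]
      · ring
    rw [h1]
    have h2 := sum_dyadic_le (p - 2) (by linarith) |v e| hv' J
    have h3 : |v e| ^ p = |v e| ^ 2 * |v e| ^ (p - 2) := by
      rw [← Real.rpow_natCast (|v e|) 2, ← Real.rpow_add hv']
      congr 1; push_cast; ring
    calc |v e| ^ 2 * ∑ j ∈ J with (2 : ℝ) ^ j ≤ |v e|, ((2 : ℝ) ^ j) ^ (p - 2)
        ≤ |v e| ^ 2 * (|v e| ^ (p - 2) / (1 - (2 : ℝ) ^ (-(p - 2)))) :=
          mul_le_mul_of_nonneg_left h2 (by positivity)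
      _ = |v e| ^ p / c := by rw [h3]; ring
  have hlp : (l : ℝ) ^ (-p) * l = (l : ℝ) ^ (1 - p) := by
    nth_rewrite 2 [← Real.rpow_one (l : ℝ)]
    rw [← Real.rpow_add hl0]
    congr 1; ring
  set D : ℝ := (l : ℝ) ^ (-p) * (2 * l * (4 ^ (p - 1) / c * (2 * N) ^ (p - 2))) with hD
  have hD0 : 0 ≤ D := by positivity
  calc ∑ e, Wout e * ∑ k ∈ K, ((2 : ℝ) ^ k) ^ (-p) * |mainF l v k e - T (mainF l v k) e| ^ p
      ≤ ∑ e, Wout e * (D * ∑ j ∈ J, (levErr T v j e) ^ 2 * ((2 : ℝ) ^ j) ^ (p - 2)) := by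
        refine sum_le_sum fun e _ => mul_le_mul_of_nonneg_left ?_ (hWout e)
        refine (hpt e).trans (le_of_eq ?_)
        rw [hD]; ring
    _ = D * ∑ j ∈ J, ((2 : ℝ) ^ j) ^ (p - 2) * ∑ e, Wout e * (levErr T v j e) ^ 2 := by
        simp only [mul_sum]
        rw [sum_comm]
        refine sum_congr rfl fun j _ => sum_congr rfl fun e _ => ?_
        ring
    _ ≤ D * ∑ j ∈ J, ((2 : ℝ) ^ j) ^ (p - 2) *
          (12 * ∑ e, (Wout e + Win e) * (lev v j e) ^ 2) := by
        refine mul_le_mul_of_nonneg_left ?_ hD0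
        refine sum_le_sum fun j _ => mul_le_mul_of_nonneg_left ?_ (by positivity)
        exact sum_sq_levErr_le T Wout Win hWout hWin hL2 (lev v j)
    _ = D * (12 * ∑ e, (Wout e + Win e) *
          ∑ j ∈ J, (lev v j e) ^ 2 * ((2 : ℝ) ^ j) ^ (p - 2)) := by
        simp only [mul_sum]
        rw [sum_comm]
        refine sum_congr rfl fun e _ => sum_congr rfl fun j _ => ?_
        ring
    _ ≤ D * (12 * ∑ e, (Wout e + Win e) * (|v e| ^ p / c)) := by
        refine mul_le_mul_of_nonneg_left ?_ hD0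
        refine mul_le_mul_of_nonneg_left ?_ (by norm_num)
        exact sum_le_sum fun e _ =>
          mul_le_mul_of_nonneg_left (hgeo e) (add_nonneg (hWout e) (hWin e))
    _ = 2 * (4 ^ (p - 1) / c * 2 ^ (p - 2)) * 12 / c * N ^ (p - 2) * (l : ℝ) ^ (1 - p) *
          ∑ e, (Wout e + Win e) * |v e| ^ p := by
        rw [← hlp, hD, Real.mul_rpow (by norm_num) hN0.le]
        have : ∑ e, (Wout e + Win e) * (|v e| ^ p / c) =
            (∑ e, (Wout e + Win e) * |v e| ^ p) / c := by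
          rw [sum_div]; exact sum_congr rfl fun e _ => by ring
        rw [this]; ring

end Crest.Agent.R232
end

-- ▼ part R232/T6

/-! T6 (outer minimax) of the proof of S0358. -/

set_option autoImplicit false
set_option maxHeartbeats 1000000

open Finset

namespace Crest.Agent.R232.T6

open Crest.Agent.R232

/-! ### tent facts -/

lemma tent_nonneg (l : ℕ) (m : ℤ) : 0 ≤ tent l m := le_max_left _ _

lemma tent_eq_zero_left {l : ℕ} {m : ℤ} (h : m ≤ 0) : tent l m = 0 := by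
  unfold tent
  apply max_eq_left
  apply (min_le_left _ _).trans
  apply div_nonpos_of_nonpos_of_nonneg
  · exact_mod_cast h
  · positivity

lemma tent_eq_zero_right {l : ℕ} {m : ℤ} (h : 2 * (l : ℤ) ≤ m) : tent l m = 0 := by
  unfold tent
  apply max_eq_left
  apply (min_le_right _ _).trans
  apply div_nonpos_of_nonpos_of_nonneg
  · have : (2 * (l : ℝ)) ≤ (m : ℝ) := by exact_mod_cast h
    linarith
  · positivity

lemma mem_Ioo_of_tent_ne {l : ℕ} {m : ℤ} (h : tent l m ≠ 0) : m ∈ Ioo (0 : ℤ) (2 * l) := by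
  rw [mem_Ioo]
  constructor
  · by_contra hc
    exact h (tent_eq_zero_left (not_lt.mp hc))
  · by_contra hc
    exact h (tent_eq_zero_right (not_lt.mp hc))

lemma tent_le_one {l : ℕ} (hl : 1 ≤ l) (m : ℤ) : tent l m ≤ 1 := by
  unfold tent
  have hl' : (0 : ℝ) < l := by exact_mod_cast hl
  apply max_le zero_le_one
  rcases le_total (m : ℝ) l with h | h
  · apply (min_le_left _ _).trans
    rw [div_le_one hl']; exact h
  · apply (min_le_right _ _).trans
    rw [div_le_one hl']; linarith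

lemma half_le_tent {l : ℕ} (hl : 1 ≤ l) {m : ℤ} (h1 : (l : ℤ) ≤ 2 * m) (h2 : 2 * m ≤ 3 * (l : ℤ)) :
    1 / 2 ≤ tent l m := by
  unfold tent
  have hl' : (0 : ℝ) < l := by exact_mod_cast hl
  have h1' : (l : ℝ) ≤ 2 * m := by exact_mod_cast h1
  have h2' : 2 * (m : ℝ) ≤ 3 * l := by exact_mod_cast h2
  apply le_max_of_le_right
  apply le_min
  · rw [le_div_iff₀ hl']; linarith
  · rw [le_div_iff₀ hl']; linarith

/-- the normalisation constant `∑ tent^p` -/
noncomputable def cc (p : ℝ) (l : ℕ) : ℝ := ∑ j ∈ Ioo (0 : ℤ) (2 * l), tent l j ^ p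

lemma cc_lower {p : ℝ} (hp : 0 ≤ p) {l : ℕ} (hl : 1 ≤ l) : (l : ℝ) * (1 / 2) ^ p ≤ cc p l := by
  unfold cc
  set a : ℤ := ((l : ℤ) + 1) / 2 with ha
  have ha1 : (l : ℤ) ≤ 2 * a := by omega
  have ha2 : 2 * a ≤ (l : ℤ) + 1 := by omega
  have hl' : (1 : ℤ) ≤ l := by exact_mod_cast hl
  have hsub : Ico a (a + l) ⊆ Ioo (0 : ℤ) (2 * l) := by
    intro j hj
    rw [mem_Ico] at hj
    rw [mem_Ioo]
    omega
  calc (l : ℝ) * (1 / 2) ^ p = ∑ j ∈ Ico a (a + l), ((1 : ℝ) / 2) ^ p := by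
        rw [sum_const, Int.card_Ico]
        simp
    _ ≤ ∑ j ∈ Ico a (a + l), tent l j ^ p := by
        apply sum_le_sum
        intro j hj
        rw [mem_Ico] at hj
        apply Real.rpow_le_rpow (by norm_num) _ hp
        apply half_le_tent hl <;> omega
    _ ≤ ∑ j ∈ Ioo (0 : ℤ) (2 * l), tent l j ^ p := by
        apply sum_le_sum_of_subset_of_nonneg hsub
        intro j _ _
        exact Real.rpow_nonneg (tent_nonneg _ _) _

lemma cc_lower' {p : ℝ} (hp : 0 ≤ p) {l : ℕ} (hl : 1 ≤ l) : (l : ℝ) ≤ 2 ^ p * cc p l := by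
  have h1 := cc_lower hp hl
  have h2 : (0 : ℝ) < (2 : ℝ) ^ p := Real.rpow_pos_of_pos (by norm_num) _
  have h3 : (2 : ℝ) ^ p * (1 / 2) ^ p = 1 := by
    rw [← Real.mul_rpow (by norm_num) (by norm_num)]
    norm_num
  have h4 := mul_le_mul_of_nonneg_left h1 h2.le
  calc (l : ℝ) = l * ((2 : ℝ) ^ p * (1 / 2) ^ p) := by rw [h3, mul_one]
    _ = (2 : ℝ) ^ p * (l * (1 / 2) ^ p) := by ring
    _ ≤ (2 : ℝ) ^ p * cc p l := h4

lemma cc_pos {p : ℝ} (hp : 0 ≤ p) {l : ℕ} (hl : 1 ≤ l) : 0 < cc p l := by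
  refine lt_of_lt_of_le ?_ (cc_lower hp hl)
  have hl' : (0 : ℝ) < l := by exact_mod_cast hl
  positivity

lemma sum_tent_shift {p : ℝ} (hp : 0 < p) (l : ℕ) (i : ℤ) (K : Finset ℤ)
    (hK : Ioo (-i) (2 * l - i) ⊆ K) : ∑ k ∈ K, tent l (i + k) ^ p = cc p l := by
  rw [← sum_subset hK]
  · unfold cc
    apply sum_nbij' (fun k => i + k) (fun j => j - i)
    · intro k hk
      rw [mem_Ioo] at hk ⊢
      omega
    · intro j hj
      rw [mem_Ioo] at hj ⊢
      omega
    · intro k _; ring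
    · intro j _; ring
    · intro k _; rfl
  · intro k _ hk
    have : tent l (i + k) = 0 := by
      by_contra h
      have := mem_Ioo_of_tent_ne h
      rw [mem_Ioo] at this
      apply hk
      rw [mem_Ioo]
      omega
    rw [this, Real.zero_rpow hp.ne']

/-! ### main field facts -/

variable {E : Type*}

lemma abs_mainF (l : ℕ) (v : E → ℝ) (k : ℤ) (e : E) :
    |mainF l v k e| = (2 : ℝ) ^ k * tent l (Int.log 2 |v e| + k) * |v e| := by
  unfold mainF
  rw [abs_mul, abs_mul, abs_of_nonneg (tent_nonneg _ _), abs_of_pos (zpow_pos (by norm_num) _)]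

lemma weight_mainF_rpow (p : ℝ) (l : ℕ) (v : E → ℝ) (k : ℤ) (e : E) :
    ((2 : ℝ) ^ k) ^ (-p) * |mainF l v k e| ^ p = tent l (Int.log 2 |v e| + k) ^ p * |v e| ^ p := by
  rw [abs_mainF]
  have h2 : (0 : ℝ) < (2 : ℝ) ^ k := zpow_pos (by norm_num) _
  rw [mul_assoc, Real.mul_rpow h2.le (mul_nonneg (tent_nonneg _ _) (abs_nonneg _)), ← mul_assoc,
    ← Real.rpow_add h2, neg_add_cancel, Real.rpow_zero, one_mul,
    Real.mul_rpow (tent_nonneg _ _) (abs_nonneg _)]

lemma mainF_ne_zero {l : ℕ} {v : E → ℝ} {k : ℤ} {e : E} (h : mainF l v k e ≠ 0) :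
    v e ≠ 0 ∧ 0 < Int.log 2 |v e| + k ∧ Int.log 2 |v e| + k < 2 * l := by
  unfold mainF at h
  have h1 : v e ≠ 0 := right_ne_zero_of_mul h
  have h2 : tent l (Int.log 2 |v e| + k) ≠ 0 := right_ne_zero_of_mul (left_ne_zero_of_mul h)
  have := mem_Ioo_of_tent_ne h2
  rw [mem_Ioo] at this
  exact ⟨h1, this.1, this.2⟩

lemma abs_mainF_le {l : ℕ} (hl : 1 ≤ l) (v : E → ℝ) (k : ℤ) (e : E) :
    |mainF l v k e| ≤ 4 ^ l := by
  by_cases h : mainF l v k e = 0
  · rw [h, abs_zero]; positivity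
  obtain ⟨h1, h2, h3⟩ := mainF_ne_zero h
  rw [abs_mainF]
  have hk : (0 : ℝ) < (2 : ℝ) ^ k := zpow_pos (by norm_num) _
  have hv : |v e| < (2 : ℝ) ^ (Int.log 2 |v e| + 1) := by
    have := Int.lt_zpow_succ_log_self (b := 2) (by norm_num) (|v e|)
    exact_mod_cast this
  calc (2 : ℝ) ^ k * tent l (Int.log 2 |v e| + k) * |v e|
      ≤ (2 : ℝ) ^ k * 1 * (2 : ℝ) ^ (Int.log 2 |v e| + 1) := by
        apply mul_le_mul _ hv.le (abs_nonneg _) (by positivity)
        exact mul_le_mul_of_nonneg_left (tent_le_one hl _) hk.le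
    _ = (2 : ℝ) ^ (k + (Int.log 2 |v e| + 1)) := by
        rw [mul_one, ← zpow_add₀ (by norm_num)]
    _ ≤ (2 : ℝ) ^ ((2 * l : ℕ) : ℤ) := by
        apply zpow_le_zpow_right₀ (by norm_num)
        push_cast
        omega
    _ = 4 ^ l := by
        rw [zpow_natCast, pow_mul]
        norm_num

lemma activity_le {p : ℝ} (hp : 0 ≤ p) {l : ℕ} (v : E → ℝ) (e : E) (K : Finset ℤ) :
    ∑ k ∈ K.filter (fun k => mainF l v k e ≠ 0), ((2 : ℝ) ^ k) ^ (-p) ≤ 2 * l * |v e| ^ p := by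
  set i := Int.log 2 |v e| with hi
  have hsub : K.filter (fun k => mainF l v k e ≠ 0) ⊆ Ioo (-i) (2 * l - i) := by
    intro k hk
    rw [mem_filter] at hk
    obtain ⟨h1, h2, h3⟩ := mainF_ne_zero hk.2
    rw [mem_Ioo]
    omega
  have hcard : ((K.filter (fun k => mainF l v k e ≠ 0)).card : ℝ) ≤ 2 * l := by
    have h1 := card_le_card hsub
    rw [Int.card_Ioo] at h1
    have h2 : (K.filter (fun k => mainF l v k e ≠ 0)).card ≤ 2 * l := by omega
    exact_mod_cast h2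
  calc ∑ k ∈ K.filter (fun k => mainF l v k e ≠ 0), ((2 : ℝ) ^ k) ^ (-p)
      ≤ ∑ k ∈ K.filter (fun k => mainF l v k e ≠ 0), |v e| ^ p := by
        apply sum_le_sum
        intro k hk
        rw [mem_filter] at hk
        obtain ⟨h1, h2, h3⟩ := mainF_ne_zero hk.2
        rw [Real.rpow_neg (zpow_pos (by norm_num) _).le, ← Real.inv_rpow (zpow_pos (by norm_num) _).le]
        apply Real.rpow_le_rpow (by positivity) _ hp
        have h4 : (2 : ℝ) ^ i ≤ |v e| := by
          have := Int.zpow_log_le_self (b := 2) (by norm_num) (abs_pos.mpr h1)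
          exact_mod_cast this
        refine le_trans ?_ h4
        rw [← zpow_neg]
        apply zpow_le_zpow_right₀ (by norm_num)
        omega
    _ = ((K.filter (fun k => mainF l v k e ≠ 0)).card : ℝ) * |v e| ^ p := by
        rw [sum_const, nsmul_eq_mul]
    _ ≤ 2 * l * |v e| ^ p := mul_le_mul_of_nonneg_right hcard (Real.rpow_nonneg (abs_nonneg _) _)


/-! ### the level estimates, unified -/

/-- the growth function of the level estimate -/
noncomputable def Gf (p N l : ℝ) : ℝ := if p < 2 then N ^ (2 - p) else N ^ (p - 2) * l ^ (1 - p)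

lemma Gf_nonneg (p : ℝ) {N l : ℝ} (hN : 0 ≤ N) (hl : 0 ≤ l) : 0 ≤ Gf p N l := by
  unfold Gf
  split_ifs
  · exact Real.rpow_nonneg hN _
  · exact mul_nonneg (Real.rpow_nonneg hN _) (Real.rpow_nonneg hl _)

/-- the conclusion of T4/T5 as a predicate on the constant -/
def LevelBound (p CL : ℝ) : Prop :=
  ∀ (E : Type) [Fintype E] (T : (E → ℝ) →ₗ[ℝ] (E → ℝ)) (Wout Win : E → ℝ)
      (N : ℝ) (_ : 1 ≤ N) (_ : ∀ e, 0 ≤ Wout e) (_ : ∀ e, 0 ≤ Win e)
      (_ : ∀ V : E → ℝ, ∑ e, Wout e * (T V e) ^ 2 ≤ 6 * ∑ e, Win e * (V e) ^ 2)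
      (_ : ∀ V : E → ℝ, ∑ e, Wout e * |T V e| ≤ N * ∑ e, Win e * |V e|)
      (_ : ∀ (V : E → ℝ) (M : ℝ) (_ : ∀ e', |V e'| ≤ M) (e : E), |T V e| ≤ N * M)
      (v : E → ℝ) (_ : T v = v) (l : ℕ) (_ : 1 ≤ l) (K : Finset ℤ),
      ∑ e, Wout e * ∑ k ∈ K, ((2 : ℝ) ^ k) ^ (-p) * |mainF l v k e - T (mainF l v k) e| ^ p ≤
        CL * Gf p N l * ∑ e, (Wout e + Win e) * |v e| ^ p

theorem levels (p : ℝ) (hp1 : 1 < p) (hp2 : p ≠ 2) : ∃ CL : ℝ, 0 < CL ∧ LevelBound p CL := by
  rcases lt_or_gt_of_ne hp2 with h | h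
  · obtain ⟨C, hC, hC'⟩ := levels_lt_two p hp1 h
    refine ⟨C, hC, ?_⟩
    intro E _ T Wout Win N hN h0 h0' hL2 hL1 _ v hv l hl K
    have := hC' E T Wout Win N hN h0 h0' hL2 hL1 v hv l hl K
    unfold Gf
    rw [if_pos h]
    exact this
  · obtain ⟨C, hC, hC'⟩ := levels_gt_two p h
    refine ⟨C, hC, ?_⟩
    intro E _ T Wout Win N hN h0 h0' hL2 _ hsup v hv l hl K
    have := hC' E T Wout Win N hN h0 h0' hL2 hsup v hv l hl K
    unfold Gf
    rw [if_neg (not_lt.mpr h.le), ← mul_assoc]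
    exact this

lemma Gf_le {p : ℝ} (hp1 : 1 < p) {C1 N l : ℝ} (hC1 : 1 ≤ C1) (hN : 0 < N)
    (hl : C1 * N ^ gam p ≤ l) : Gf p N l / l ≤ 1 / C1 := by
  have hC1' : 0 < C1 := by linarith
  have hl0 : 0 < l := lt_of_lt_of_le (mul_pos hC1' (Real.rpow_pos_of_pos hN _)) hl
  unfold Gf
  unfold gam at hl
  split_ifs at hl ⊢ with h
  · rw [div_le_div_iff₀ hl0 hC1']
    linarith
  · set x : ℝ := N ^ (1 - 2 / p) / l with hx
    have hx0 : 0 ≤ x := by positivity
    have hx1 : x ≤ 1 / C1 := by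
      rw [hx, div_le_div_iff₀ hl0 hC1']
      linarith
    have hp0 : p ≠ 0 := by linarith
    have key : N ^ (p - 2) * l ^ (1 - p) / l = x ^ p := by
      rw [hx, Real.div_rpow (Real.rpow_nonneg hN.le _) hl0.le, ← Real.rpow_mul hN.le]
      have h1 : (1 - 2 / p) * p = p - 2 := by field_simp
      rw [h1, Real.rpow_sub hl0, Real.rpow_one]
      field_simp
    rw [key]
    calc x ^ p ≤ x ^ (1 : ℝ) := by
          apply Real.rpow_le_rpow_of_exponent_ge' hx0 _ zero_le_one hp1.le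
          exact hx1.trans (by rw [div_le_one hC1']; exact hC1)
      _ = x := Real.rpow_one x
      _ ≤ 1 / C1 := hx1

/-! ### convexity -/

lemma convex_point {p : ℝ} (hp : 1 ≤ p) (a b u w : ℝ) (ha : 0 ≤ a) (hb : 0 ≤ b) (hab : a + b = 1) :
    |a * u + b * w| ^ p ≤ a * |u| ^ p + b * |w| ^ p := by
  have h1 : |a * u + b * w| ≤ a * |u| + b * |w| := by
    calc |a * u + b * w| ≤ |a * u| + |b * w| := abs_add_le _ _
      _ = a * |u| + b * |w| := by rw [abs_mul, abs_mul, abs_of_nonneg ha, abs_of_nonneg hb]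
  calc |a * u + b * w| ^ p ≤ (a * |u| + b * |w|) ^ p :=
        Real.rpow_le_rpow (abs_nonneg _) h1 (by linarith)
    _ ≤ a * |u| ^ p + b * |w| ^ p := by
        have := (convexOn_rpow hp).2 (Set.mem_Ici.mpr (abs_nonneg u)) (Set.mem_Ici.mpr (abs_nonneg w))
          ha hb hab
        simpa [smul_eq_mul] using this

/-- gradient as a linear map -/
noncomputable def gradL {X : Type*} (d : X → X → ℝ) : (X → ℝ) →ₗ[ℝ] (X × X → ℝ) where
  toFun f := fun e => grad d f e
  map_add' f g := by ext e; exact grad_add d f g e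
  map_smul' c f := by ext e; simp only [grad_smul, Pi.smul_apply, smul_eq_mul, RingHom.id_apply]


lemma exists_K {A E : Type} [Fintype A] [Fintype E] (l : ℕ) (i : A → E → ℤ) :
    ∃ K : Finset ℤ, ∀ a e, Ioo (-(i a e)) (2 * (l : ℤ) - i a e) ⊆ K := by
  classical
  refine ⟨(univ : Finset (A × E)).biUnion
    (fun ae => Ioo (-(i ae.1 ae.2)) (2 * (l : ℤ) - i ae.1 ae.2)), ?_⟩
  intro a e k hk
  rw [mem_biUnion]
  exact ⟨(a, e), mem_univ _, hk⟩

/-- the core of T6, for a fixed window length `2 l` -/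
theorem core (p : ℝ) (hp1 : 1 < p) (ε : ℝ) (hε : 0 < ε) (CL : ℝ) (hCL : 0 < CL)
    (hlev : LevelBound p CL) (X : Type) [Fintype X] [DecidableEq X] (hn : 2 ≤ Fintype.card X)
    (d : X → X → ℝ) (hd : IsDist d) (A : Type) [Fintype A] (m : A → ℝ) (hm : ∀ a, 0 ≤ m a)
    (f : A → X → ℝ) (hf : ∀ x y, x ≠ y → ∑ a, m a * |f a x - f a y| ^ p = d x y ^ p)
    (l : ℕ) (hl : 1 ≤ l)
    (hlarge : 2 * 2 ^ p * CL * (Gf p (24 * Real.log (Fintype.card X)) l / l) ≤ ε / 4) :
    ∃ (Ω : Type) (_ : Fintype Ω) (μ : Ω → ℝ) (B : Ω → X × X → ℝ) (F : Ω → X → ℝ),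
      (∀ ω, 0 ≤ μ ω) ∧ ∀ x y, x ≠ y →
        (∑ ω, μ ω * |B ω (x, y)| ^ p = 1) ∧
        (∑ ω ∈ univ.filter (fun ω => B ω (x, y) ≠ 0), μ ω ≤ 2 * 2 ^ p) ∧
        (∑ ω, μ ω * |grad d (F ω) (x, y) - B ω (x, y)| ^ p ≤ ε) ∧
        (∑ ω, μ ω * (B ω (x, y)) ^ 2 ≤ 2 * 2 ^ p * 16 ^ l) ∧
        (∑ ω, μ ω * (grad d (F ω) (x, y)) ^ 2 ≤ 48 * 2 ^ p * 16 ^ l) ∧
        (∀ ω, |grad d (F ω) (x, y)| ≤ 13 * Real.log (Fintype.card X) * 4 ^ l) := by
  classical
  have hp0 : (0 : ℝ) < p := by linarith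
  have hl' : (0 : ℝ) < l := by exact_mod_cast hl
  set Lg : ℝ := Real.log (Fintype.card X) with hLg
  have hcard2 : (2 : ℝ) ≤ Fintype.card X := by exact_mod_cast hn
  have hLg2 : Real.log 2 ≤ Lg := Real.log_le_log (by norm_num) hcard2
  have hlog2 : (0.69 : ℝ) < Real.log 2 := by have := Real.log_two_gt_d9; linarith
  have hLg0 : 0 < Lg := by linarith
  have hN1 : 1 ≤ 24 * Lg := by linarith
  have : Nonempty X := Fintype.card_pos_iff.mp (by omega)
  -- the gradients of the coordinates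
  set v : A → X × X → ℝ := fun a e => grad d (f a) e with hv
  have hv1 : ∀ x y, x ≠ y → ∑ a, m a * |v a (x, y)| ^ p = 1 := by
    intro x y hxy
    have hdp : 0 < d x y := hd.pos x y hxy
    have hdp' : (0 : ℝ) < d x y ^ p := Real.rpow_pos_of_pos hdp _
    have : ∀ a, m a * |v a (x, y)| ^ p = (m a * |f a x - f a y| ^ p) / d x y ^ p := by
      intro a
      simp only [hv, grad]
      rw [abs_div, abs_of_pos hdp, Real.div_rpow (abs_nonneg _) hdp.le, mul_div_assoc]
    rw [sum_congr rfl (fun a _ => this a), ← sum_div, hf x y hxy, div_self hdp'.ne']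
  have hvle : ∀ e, ∑ a, m a * |v a e| ^ p ≤ 1 := by
    rintro ⟨x, y⟩
    by_cases hxy : x = y
    · subst hxy
      have : ∀ a, m a * |v a (x, x)| ^ p = 0 := by
        intro a
        simp only [hv, grad_diag, abs_zero]
        rw [Real.zero_rpow hp0.ne', mul_zero]
      rw [sum_congr rfl (fun a _ => this a)]
      simp
    · exact (hv1 x y hxy).le
  -- the amplitude indices
  obtain ⟨K, hKsub⟩ := exists_K l (fun (a : A) (e : X × X) => Int.log 2 |v a e|)
  set c : ℝ := cc p l with hc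
  have hc0 : 0 < c := cc_pos hp0.le hl
  have hcl : (l : ℝ) ≤ 2 ^ p * c := cc_lower' hp0.le hl
  set wt : A → ℤ → ℝ := fun a k => m a * ((2 : ℝ) ^ k) ^ (-p) / c with hwt
  have hwt0 : ∀ a k, 0 ≤ wt a k := by
    intro a k
    exact div_nonneg (mul_nonneg (hm a) (Real.rpow_nonneg (zpow_pos (by norm_num) _).le _)) hc0.le
  let Ω : Type := A × {k // k ∈ K}
  have sumΩ : ∀ G : A → ℤ → ℝ, ∑ ω : Ω, G ω.1 ω.2 = ∑ a, ∑ k ∈ K, G a k := by
    intro G
    rw [Fintype.sum_prod_type]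
    apply sum_congr rfl
    intro a _
    exact Finset.sum_coe_sort K (fun k => G a k)
  let μ : Ω → ℝ := fun ω => wt ω.1 ω.2
  let B : Ω → X × X → ℝ := fun ω => mainF l (v ω.1) ω.2
  have hμ0 : ∀ ω, 0 ≤ μ ω := fun ω => hwt0 _ _
  have hB4 : ∀ ω e, |B ω e| ≤ 4 ^ l := fun ω e => abs_mainF_le hl _ _ _
  -- (1) p-mass
  have h1 : ∀ e, ∑ ω, μ ω * |B ω e| ^ p = ∑ a, m a * |v a e| ^ p := by
    intro e
    rw [sumΩ (fun a k => wt a k * |mainF l (v a) k e| ^ p)]
    apply sum_congr rfl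
    intro a _
    have : ∀ k ∈ K, wt a k * |mainF l (v a) k e| ^ p =
        m a / c * |v a e| ^ p * tent l (Int.log 2 |v a e| + k) ^ p := by
      intro k _
      have := weight_mainF_rpow p l (v a) k e
      calc wt a k * |mainF l (v a) k e| ^ p
          = m a / c * (((2 : ℝ) ^ k) ^ (-p) * |mainF l (v a) k e| ^ p) := by
            simp only [hwt]; ring
        _ = _ := by rw [this]; ring
    rw [sum_congr rfl this, ← mul_sum, sum_tent_shift hp0 l _ K (hKsub a e), ← hc]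
    field_simp
  -- (2) activity
  have h2 : ∀ e, ∑ ω ∈ univ.filter (fun ω => B ω e ≠ 0), μ ω ≤ 2 * 2 ^ p := by
    intro e
    rw [sum_filter]
    have hrw := sumΩ (fun a k => if mainF l (v a) k e ≠ 0 then wt a k else 0)
    calc ∑ ω : Ω, (if B ω e ≠ 0 then μ ω else 0)
        = ∑ a, ∑ k ∈ K, (if mainF l (v a) k e ≠ 0 then wt a k else 0) := hrw
      _ ≤ ∑ a, (2 * l / c) * (m a * |v a e| ^ p) := by
          apply sum_le_sum
          intro a _
          rw [← sum_filter]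
          have hact := activity_le (l := l) hp0.le (v a) e K
          calc ∑ k ∈ K.filter (fun k => mainF l (v a) k e ≠ 0), wt a k
              = m a / c * ∑ k ∈ K.filter (fun k => mainF l (v a) k e ≠ 0), ((2 : ℝ) ^ k) ^ (-p) := by
                rw [mul_sum]
                apply sum_congr rfl
                intro k _
                simp only [hwt]; ring
            _ ≤ m a / c * (2 * l * |v a e| ^ p) :=
                mul_le_mul_of_nonneg_left hact (div_nonneg (hm a) hc0.le)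
            _ = (2 * l / c) * (m a * |v a e| ^ p) := by ring
      _ = (2 * l / c) * ∑ a, m a * |v a e| ^ p := by rw [mul_sum]
      _ ≤ (2 * l / c) * 1 := mul_le_mul_of_nonneg_left (hvle e) (by positivity)
      _ ≤ 2 * 2 ^ p := by
          rw [mul_one, div_le_iff₀ hc0]
          nlinarith [hcl]
  -- (4) second moment of the main field
  have h4 : ∀ e, ∑ ω, μ ω * (B ω e) ^ 2 ≤ 2 * 2 ^ p * 16 ^ l := by
    intro e
    calc ∑ ω, μ ω * (B ω e) ^ 2 ≤ ∑ ω, (if B ω e ≠ 0 then μ ω else 0) * 16 ^ l := by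
          apply sum_le_sum
          intro ω _
          by_cases h : B ω e = 0
          · rw [if_neg (not_not.mpr h), h]; simp
          · rw [if_pos h]
            apply mul_le_mul_of_nonneg_left _ (hμ0 ω)
            have h16 : (16 : ℝ) ^ l = (4 ^ l) ^ 2 := by
              rw [← pow_mul, mul_comm, pow_mul]; norm_num
            rw [h16, ← sq_abs]
            exact pow_le_pow_left₀ (abs_nonneg _) (hB4 ω e) 2
      _ = (∑ ω ∈ univ.filter (fun ω => B ω e ≠ 0), μ ω) * 16 ^ l := by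
          rw [sum_filter, sum_mul]
      _ ≤ 2 * 2 ^ p * 16 ^ l := mul_le_mul_of_nonneg_right (h2 e) (by positivity)
  -- minimax
  set R : ℝ := 48 * 2 ^ p * 16 ^ l with hR
  have hR0 : 0 < R := by positivity
  set M0 : ℝ := 13 * Lg * 4 ^ l with hM0
  let Ks : Set (Ω → X → ℝ) := {F | ∀ ω e, |grad d (F ω) e| ≤ M0}
  let φ : X × X → (Ω → X → ℝ) → ℝ := fun e F =>
    (∑ ω, μ ω * |grad d (F ω) e - B ω e| ^ p) / ε + (∑ ω, μ ω * (grad d (F ω) e) ^ 2) / R
  have hgc : ∀ (a b : ℝ) (F G : Ω → X → ℝ) (ω : Ω) (e : X × X),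
      grad d ((a • F + b • G) ω) e = a * grad d (F ω) e + b * grad d (G ω) e := by
    intro a b F G ω e
    have : (a • F + b • G) ω = a • F ω + b • G ω := rfl
    rw [this, grad_add, grad_smul, grad_smul]
  have hKs : Convex ℝ Ks := by
    intro F hF G hG a b ha hb hab ω e
    rw [hgc]
    calc |a * grad d (F ω) e + b * grad d (G ω) e|
        ≤ |a * grad d (F ω) e| + |b * grad d (G ω) e| := abs_add_le _ _
      _ = a * |grad d (F ω) e| + b * |grad d (G ω) e| := by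
          rw [abs_mul, abs_mul, abs_of_nonneg ha, abs_of_nonneg hb]
      _ ≤ a * M0 + b * M0 :=
          add_le_add (mul_le_mul_of_nonneg_left (hF ω e) ha) (mul_le_mul_of_nonneg_left (hG ω e) hb)
      _ = M0 := by rw [← add_mul, hab, one_mul]
  have hφ : ∀ e, ConvexOn ℝ Ks (φ e) := by
    intro e
    refine ⟨hKs, ?_⟩
    intro F _ G _ a b ha hb hab
    simp only [φ, smul_eq_mul]
    have hb1 : ∑ ω, μ ω * |grad d ((a • F + b • G) ω) e - B ω e| ^ p ≤
        a * ∑ ω, μ ω * |grad d (F ω) e - B ω e| ^ p +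
          b * ∑ ω, μ ω * |grad d (G ω) e - B ω e| ^ p := by
      rw [mul_sum, mul_sum, ← sum_add_distrib]
      apply sum_le_sum
      intro ω _
      rw [hgc]
      have h := convex_point hp1.le a b (grad d (F ω) e - B ω e) (grad d (G ω) e - B ω e) ha hb hab
      have h' : a * (grad d (F ω) e - B ω e) + b * (grad d (G ω) e - B ω e) =
          a * grad d (F ω) e + b * grad d (G ω) e - B ω e := by
        have : B ω e = (a + b) * B ω e := by rw [hab, one_mul]
        rw [this]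
        have : (a + b) * B ω e = B ω e := by rw [hab, one_mul]
        rw [this]
        linear_combination (-(B ω e)) * hab
      rw [h'] at h
      calc μ ω * |a * grad d (F ω) e + b * grad d (G ω) e - B ω e| ^ p
          ≤ μ ω * (a * |grad d (F ω) e - B ω e| ^ p + b * |grad d (G ω) e - B ω e| ^ p) :=
            mul_le_mul_of_nonneg_left h (hμ0 ω)
        _ = _ := by ring
    have hb2 : ∑ ω, μ ω * (grad d ((a • F + b • G) ω) e) ^ 2 ≤
        a * ∑ ω, μ ω * (grad d (F ω) e) ^ 2 + b * ∑ ω, μ ω * (grad d (G ω) e) ^ 2 := by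
      rw [mul_sum, mul_sum, ← sum_add_distrib]
      apply sum_le_sum
      intro ω _
      rw [hgc]
      have hb' : b = 1 - a := by linarith
      have : (a * grad d (F ω) e + b * grad d (G ω) e) ^ 2 ≤
          a * (grad d (F ω) e) ^ 2 + b * (grad d (G ω) e) ^ 2 := by
        have h0 : 0 ≤ a * b * (grad d (F ω) e - grad d (G ω) e) ^ 2 := by positivity
        have h1 : a * (grad d (F ω) e) ^ 2 + b * (grad d (G ω) e) ^ 2 -
          (a * grad d (F ω) e + b * grad d (G ω) e) ^ 2 =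
            a * b * (grad d (F ω) e - grad d (G ω) e) ^ 2 := by
          rw [hb']; ring
        linarith
      calc μ ω * (a * grad d (F ω) e + b * grad d (G ω) e) ^ 2
          ≤ μ ω * (a * (grad d (F ω) e) ^ 2 + b * (grad d (G ω) e) ^ 2) :=
            mul_le_mul_of_nonneg_left this (hμ0 ω)
        _ = _ := by ring
    calc (∑ ω, μ ω * |grad d ((a • F + b • G) ω) e - B ω e| ^ p) / ε +
          (∑ ω, μ ω * (grad d ((a • F + b • G) ω) e) ^ 2) / R
        ≤ (a * ∑ ω, μ ω * |grad d (F ω) e - B ω e| ^ p +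
            b * ∑ ω, μ ω * |grad d (G ω) e - B ω e| ^ p) / ε +
          (a * ∑ ω, μ ω * (grad d (F ω) e) ^ 2 + b * ∑ ω, μ ω * (grad d (G ω) e) ^ 2) / R :=
          add_le_add (div_le_div_of_nonneg_right hb1 hε.le) (div_le_div_of_nonneg_right hb2 hR0.le)
      _ = _ := by ring
  have havg : ∀ W : X × X → ℝ, (∀ e, 0 ≤ W e) → ∑ e, W e = 1 →
      ∃ F ∈ Ks, ∑ e, W e * φ e F ≤ 1 / 2 := by
    intro Wout hW0 hW1
    obtain ⟨S, Win, hWin0, hWin1, hSgrad, hS2, hS1, hSsup⟩ :=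
      operator_exists hn d hd Wout hW0 hW1
    let T : (X × X → ℝ) →ₗ[ℝ] (X × X → ℝ) := (gradL d).comp S
    have hT : ∀ V e, T V e = grad d (S V) e := fun V e => rfl
    have hTv : ∀ a, T (v a) = v a := by
      intro a
      ext e
      rw [hT]
      exact hSgrad (f a) e
    have hlevT := hlev (X × X) T Wout Win (24 * Lg) hN1 hW0 hWin0 hS2 hS1
      (by
        intro V M hM e
        have hM0 : 0 ≤ M := (abs_nonneg _).trans (hM e)
        refine (hSsup V M hM e).trans ?_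
        apply mul_le_mul_of_nonneg_right _ hM0
        linarith)
    refine ⟨fun ω => S (B ω), ?_, ?_⟩
    · intro ω e
      exact hSsup (B ω) (4 ^ l) (hB4 ω) e
    · -- first part
      have hfirst : ∑ e, Wout e * ∑ ω, μ ω * |grad d (S (B ω)) e - B ω e| ^ p ≤ ε / 4 := by
        have hrw : ∀ e, ∑ ω, μ ω * |grad d (S (B ω)) e - B ω e| ^ p =
            ∑ a, ∑ k ∈ K, wt a k * |T (mainF l (v a) k) e - mainF l (v a) k e| ^ p := by
          intro e
          exact sumΩ (fun a k => wt a k * |T (mainF l (v a) k) e - mainF l (v a) k e| ^ p)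
        calc ∑ e, Wout e * ∑ ω, μ ω * |grad d (S (B ω)) e - B ω e| ^ p
            = ∑ a, m a / c * ∑ e, Wout e * ∑ k ∈ K, ((2 : ℝ) ^ k) ^ (-p) *
                |mainF l (v a) k e - T (mainF l (v a) k) e| ^ p := by
              simp_rw [hrw, mul_sum]
              rw [sum_comm]
              apply sum_congr rfl
              intro a _
              apply sum_congr rfl
              intro e _
              apply sum_congr rfl
              intro k _
              rw [abs_sub_comm]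
              simp only [hwt]
              ring
          _ ≤ ∑ a, m a / c * (CL * Gf p (24 * Lg) l * ∑ e, (Wout e + Win e) * |v a e| ^ p) := by
              apply sum_le_sum
              intro a _
              exact mul_le_mul_of_nonneg_left (hlevT (v a) (hTv a) l hl K)
                (div_nonneg (hm a) hc0.le)
          _ = (CL * Gf p (24 * Lg) l / c) *
                ∑ e, (Wout e + Win e) * ∑ a, m a * |v a e| ^ p := by
              simp_rw [mul_sum]
              rw [sum_comm]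
              apply sum_congr rfl
              intro e _
              apply sum_congr rfl
              intro a _
              ring
          _ ≤ (CL * Gf p (24 * Lg) l / c) * ∑ e, (Wout e + Win e) * 1 := by
              apply mul_le_mul_of_nonneg_left
              · apply sum_le_sum
                intro e _
                exact mul_le_mul_of_nonneg_left (hvle e) (add_nonneg (hW0 e) (hWin0 e))
              · exact div_nonneg (mul_nonneg hCL.le (Gf_nonneg p (by linarith) hl'.le)) hc0.le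
          _ ≤ (CL * Gf p (24 * Lg) l / c) * 2 := by
              apply mul_le_mul_of_nonneg_left
              · simp only [mul_one]
                rw [sum_add_distrib]
                linarith
              · exact div_nonneg (mul_nonneg hCL.le (Gf_nonneg p (by linarith) hl'.le)) hc0.le
          _ ≤ 2 * 2 ^ p * CL * (Gf p (24 * Lg) l / l) := by
              have hG := Gf_nonneg p (N := 24 * Lg) (l := (l : ℝ)) (by linarith) hl'.le
              rw [div_mul_eq_mul_div, div_le_iff₀ hc0]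
              have h5 : 2 * 2 ^ p * CL * (Gf p (24 * Lg) l / l) * c =
                  (2 * CL * Gf p (24 * Lg) l) * ((2 ^ p * c) / l) := by ring
              rw [h5]
              have h6 : 1 ≤ (2 ^ p * c) / l := by rw [le_div_iff₀ hl']; linarith
              have h7 : 0 ≤ 2 * CL * Gf p (24 * Lg) l := by positivity
              nlinarith
          _ ≤ ε / 4 := hlarge
      have hsecond : ∑ e, Wout e * ∑ ω, μ ω * (grad d (S (B ω)) e) ^ 2 ≤ R / 4 := by
        calc ∑ e, Wout e * ∑ ω, μ ω * (grad d (S (B ω)) e) ^ 2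
            = ∑ ω, μ ω * ∑ e, Wout e * (grad d (S (B ω)) e) ^ 2 := by
              simp_rw [mul_sum]
              rw [sum_comm]
              apply sum_congr rfl
              intro ω _
              apply sum_congr rfl
              intro e _
              ring
          _ ≤ ∑ ω, μ ω * (6 * ∑ e, Win e * (B ω e) ^ 2) := by
              apply sum_le_sum
              intro ω _
              exact mul_le_mul_of_nonneg_left (hS2 (B ω)) (hμ0 ω)
          _ = 6 * ∑ e, Win e * ∑ ω, μ ω * (B ω e) ^ 2 := by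
              simp_rw [mul_sum]
              rw [sum_comm]
              apply sum_congr rfl
              intro e _
              apply sum_congr rfl
              intro ω _
              ring
          _ ≤ 6 * ∑ e, Win e * (2 * 2 ^ p * 16 ^ l) := by
              apply mul_le_mul_of_nonneg_left _ (by norm_num)
              apply sum_le_sum
              intro e _
              exact mul_le_mul_of_nonneg_left (h4 e) (hWin0 e)
          _ = 6 * ((∑ e, Win e) * (2 * 2 ^ p * 16 ^ l)) := by rw [sum_mul]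
          _ ≤ 6 * (1 * (2 * 2 ^ p * 16 ^ l)) := by
              apply mul_le_mul_of_nonneg_left _ (by norm_num)
              exact mul_le_mul_of_nonneg_right hWin1 (by positivity)
          _ = R / 4 := by rw [hR]; ring
      calc ∑ e, Wout e * φ e (fun ω => S (B ω))
          = (∑ e, Wout e * ∑ ω, μ ω * |grad d (S (B ω)) e - B ω e| ^ p) / ε +
              (∑ e, Wout e * ∑ ω, μ ω * (grad d (S (B ω)) e) ^ 2) / R := by
            rw [sum_div, sum_div, ← sum_add_distrib]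
            apply sum_congr rfl
            intro e _
            simp only [φ]
            ring
        _ ≤ (ε / 4) / ε + (R / 4) / R :=
            add_le_add (div_le_div_of_nonneg_right hfirst hε.le)
              (div_le_div_of_nonneg_right hsecond hR0.le)
        _ = 1 / 2 := by field_simp; norm_num
  obtain ⟨F, hFK, hF⟩ := exists_le_of_forall_weights Ks φ hφ (1 / 2) 1 (by norm_num) havg
  refine ⟨Ω, inferInstance, μ, B, F, hμ0, ?_⟩
  intro x y hxy
  have hnn1 : 0 ≤ ∑ ω, μ ω * |grad d (F ω) (x, y) - B ω (x, y)| ^ p :=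
    sum_nonneg fun ω _ => mul_nonneg (hμ0 ω) (Real.rpow_nonneg (abs_nonneg _) _)
  have hnn2 : 0 ≤ ∑ ω, μ ω * (grad d (F ω) (x, y)) ^ 2 :=
    sum_nonneg fun ω _ => mul_nonneg (hμ0 ω) (sq_nonneg _)
  have hFe := hF (x, y)
  simp only [φ] at hFe
  refine ⟨?_, h2 (x, y), ?_, h4 (x, y), ?_, fun ω => hFK ω (x, y)⟩
  · rw [h1 (x, y)]; exact hv1 x y hxy
  · have h3 : (∑ ω, μ ω * |grad d (F ω) (x, y) - B ω (x, y)| ^ p) / ε ≤ 1 := by
      have : 0 ≤ (∑ ω, μ ω * (grad d (F ω) (x, y)) ^ 2) / R := div_nonneg hnn2 hR0.le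
      linarith
    rwa [div_le_one hε] at h3
  · have h3 : (∑ ω, μ ω * (grad d (F ω) (x, y)) ^ 2) / R ≤ 1 := by
      have : 0 ≤ (∑ ω, μ ω * |grad d (F ω) (x, y) - B ω (x, y)| ^ p) / ε := div_nonneg hnn1 hε.le
      linarith
    rwa [div_le_one hR0] at h3

lemma gam_pos {p : ℝ} (hp1 : 1 < p) (hp2 : p ≠ 2) : 0 < gam p := by
  unfold gam
  split_ifs with h
  · linarith
  · have h2 : 2 < p := lt_of_le_of_ne (not_lt.mp h) (Ne.symm hp2)
    have : 2 / p < 1 := by rw [div_lt_one (by linarith)]; exact h2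
    linarith

lemma gam_lt_one {p : ℝ} (hp1 : 1 < p) : gam p < 1 := by
  unfold gam
  split_ifs with h
  · linarith
  · have : 0 < 2 / p := by positivity
    linarith

/-- T6 -/
theorem outer (p : ℝ) (hp1 : 1 < p) (hp2 : p ≠ 2) (ε : ℝ) (hε : 0 < ε) :
    ∃ C : ℝ, 0 < C ∧ ∀ (X : Type) [Fintype X] [DecidableEq X] (_ : 2 ≤ Fintype.card X)
      (d : X → X → ℝ) (_ : IsDist d) (A : Type) [Fintype A] (m : A → ℝ) (_ : ∀ a, 0 ≤ m a)
      (f : A → X → ℝ) (_ : ∀ x y, x ≠ y → ∑ a, m a * |f a x - f a y| ^ p = d x y ^ p),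
      ∃ (Λ : ℝ) (Ω : Type) (_ : Fintype Ω) (μ : Ω → ℝ) (B : Ω → X × X → ℝ) (F : Ω → X → ℝ),
        1 ≤ Λ ∧ Real.log (Fintype.card X) ≤ Λ ∧
        Λ ≤ Real.exp (C * Real.log (Fintype.card X) ^ gam p) ∧
        (∀ ω, 0 ≤ μ ω) ∧
        ∀ x y, x ≠ y →
          (∑ ω, μ ω * |B ω (x, y)| ^ p = 1) ∧
          (∑ ω ∈ univ.filter (fun ω => B ω (x, y) ≠ 0), μ ω ≤ Λ) ∧
          (∑ ω, μ ω * |grad d (F ω) (x, y) - B ω (x, y)| ^ p ≤ ε) ∧
          (∑ ω, μ ω * (grad d (F ω) (x, y) - B ω (x, y)) ^ 2 ≤ Λ) ∧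
          (∑ ω, μ ω * (grad d (F ω) (x, y)) ^ 2 ≤ Λ) ∧
          (∀ ω, |grad d (F ω) (x, y)| ≤ Λ) := by
  obtain ⟨CL, hCL, hlev⟩ := levels p hp1 hp2
  have hγ0 := gam_pos hp1 hp2
  have hγ1 := gam_lt_one hp1
  set γ := gam p with hγ
  have h2p : (1 : ℝ) ≤ (2 : ℝ) ^ p := Real.one_le_rpow (by norm_num) (by linarith)
  set C1 : ℝ := max 1 (8 * 2 ^ p * CL / ε) with hC1
  have hC1one : 1 ≤ C1 := le_max_left _ _
  have hC1big : 8 * 2 ^ p * CL / ε ≤ C1 := le_max_right _ _
  have hlog2 : (0 : ℝ) < Real.log 2 := Real.log_pos (by norm_num)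
  set c0 : ℝ := (Real.log 2 ^ γ)⁻¹ with hc0
  have hc00 : 0 < c0 := inv_pos.mpr (Real.rpow_pos_of_pos hlog2 _)
  have hl100 : 0 < Real.log 100 := Real.log_pos (by norm_num)
  have hl16 : 0 < Real.log 16 := Real.log_pos (by norm_num)
  set CC : ℝ := (Real.log 100 + p * Real.log 2) * c0 + (C1 * 24 ^ γ + c0) * Real.log 16 +
    (c0 + 1) / γ with hCC
  have hCC0 : 0 < CC := by positivity
  refine ⟨CC, hCC0, ?_⟩
  intro X _ _ hn d hd A _ m hm f hf
  have hcard2 : (2 : ℝ) ≤ Fintype.card X := by exact_mod_cast hn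
  set t : ℝ := Real.log (Fintype.card X) with ht
  have ht2 : Real.log 2 ≤ t := Real.log_le_log (by norm_num) hcard2
  have ht0 : 0 < t := by linarith
  set q : ℝ := t ^ γ with hq
  have hq0 : 0 < q := Real.rpow_pos_of_pos ht0 _
  have hcq : 1 ≤ c0 * q := by
    rw [hc0, inv_mul_eq_div, le_div_iff₀ (Real.rpow_pos_of_pos hlog2 _), one_mul]
    exact Real.rpow_le_rpow hlog2.le ht2 hγ0.le
  have hN0 : 0 < 24 * t := by linarith
  have hNγ : (24 * t) ^ γ = 24 ^ γ * q := Real.mul_rpow (by norm_num) ht0.le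
  have hNγ0 : 0 < (24 * t) ^ γ := Real.rpow_pos_of_pos hN0 _
  set l : ℕ := ⌈C1 * (24 * t) ^ γ⌉₊ with hl
  have hlge : C1 * (24 * t) ^ γ ≤ l := Nat.le_ceil _
  have hlle : (l : ℝ) ≤ C1 * (24 ^ γ * q) + 1 := by
    rw [← hNγ]
    exact (Nat.ceil_lt_add_one (by positivity)).le
  have hl1 : 1 ≤ l := Nat.one_le_ceil_iff.mpr (by positivity)
  have hlarge : 2 * 2 ^ p * CL * (Gf p (24 * t) l / l) ≤ ε / 4 := by
    have h1 := Gf_le hp1 hC1one hN0 hlge
    have hK : 0 ≤ 2 * 2 ^ p * CL := by positivity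
    refine (mul_le_mul_of_nonneg_left h1 hK).trans ?_
    have hC10 : 0 < C1 := by linarith
    rw [mul_one_div, div_le_div_iff₀ hC10 (by norm_num)]
    have := (div_le_iff₀ hε).mp hC1big
    linarith
  obtain ⟨Ω, hΩ, μ, B, F, hμ, hall⟩ :=
    core p hp1 ε hε CL hCL hlev X hn d hd A m hm f hf l hl1 hlarge
  have h16 : (1 : ℝ) ≤ 16 ^ l := one_le_pow₀ (by norm_num)
  have h4le : (4 : ℝ) ^ l ≤ 16 ^ l := pow_le_pow_left₀ (by norm_num) (by norm_num) l
  set Q : ℝ := 2 ^ p * 16 ^ l with hQ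
  have hQ1 : 1 ≤ Q := by nlinarith
  have hQ2 : (16 : ℝ) ^ l ≤ Q := by nlinarith
  have hQ3 : (2 : ℝ) ^ p ≤ Q := by nlinarith
  set Λ : ℝ := 100 * Q * (1 + t) with hΛ
  have hΛQ : 100 * Q ≤ Λ := by rw [hΛ]; nlinarith
  refine ⟨Λ, Ω, hΩ, μ, B, F, by linarith, ?_, ?_, hμ, ?_⟩
  · rw [hΛ]; nlinarith
  · -- size of Λ
    have hQ0 : 0 < Q := by linarith
    have hΛ0 : 0 < Λ := by positivity
    rw [← Real.log_le_iff_le_exp hΛ0]
    have hlogΛ : Real.log Λ = Real.log 100 + (p * Real.log 2 + l * Real.log 16) +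
        Real.log (1 + t) := by
      rw [hΛ, Real.log_mul (by positivity) (by positivity), Real.log_mul (by norm_num) hQ0.ne', hQ,
        Real.log_mul (by positivity) (by positivity), Real.log_rpow (by norm_num), Real.log_pow]
    have hlog1 : Real.log (1 + t) ≤ (c0 + 1) / γ * q := by
      have h1 := Real.log_le_rpow_div (x := 1 + t) (by positivity) hγ0
      have h2 : (1 + t) ^ γ ≤ 1 ^ γ + t ^ γ :=
        Real.rpow_add_le_add_rpow zero_le_one ht0.le hγ0.le hγ1.le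
      rw [Real.one_rpow, ← hq] at h2
      calc Real.log (1 + t) ≤ (1 + t) ^ γ / γ := h1
        _ ≤ (1 + q) / γ := div_le_div_of_nonneg_right h2 hγ0.le
        _ ≤ (c0 * q + q) / γ := div_le_div_of_nonneg_right (by linarith) hγ0.le
        _ = (c0 + 1) / γ * q := by ring
    have hpart1 : Real.log 100 + p * Real.log 2 ≤ (Real.log 100 + p * Real.log 2) * c0 * q := by
      have : 0 ≤ Real.log 100 + p * Real.log 2 := by positivity
      rw [mul_assoc]
      exact le_mul_of_one_le_right this hcq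
    have hpart2 : (l : ℝ) * Real.log 16 ≤ (C1 * 24 ^ γ + c0) * Real.log 16 * q := by
      calc (l : ℝ) * Real.log 16 ≤ (C1 * (24 ^ γ * q) + c0 * q) * Real.log 16 :=
            mul_le_mul_of_nonneg_right (by linarith) hl16.le
        _ = _ := by ring
    rw [hlogΛ, hCC]
    nlinarith
  · intro x y hxy
    obtain ⟨ha, hb, hc, hd', he, hf'⟩ := hall x y hxy
    refine ⟨ha, ?_, hc, ?_, ?_, ?_⟩
    · linarith
    · calc ∑ ω, μ ω * (grad d (F ω) (x, y) - B ω (x, y)) ^ 2
          ≤ ∑ ω, (2 * (μ ω * (grad d (F ω) (x, y)) ^ 2) + 2 * (μ ω * (B ω (x, y)) ^ 2)) := by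
            apply sum_le_sum
            intro ω _
            have h1 : (grad d (F ω) (x, y) - B ω (x, y)) ^ 2 ≤
                2 * (grad d (F ω) (x, y)) ^ 2 + 2 * (B ω (x, y)) ^ 2 := by
              nlinarith [sq_nonneg (grad d (F ω) (x, y) + B ω (x, y))]
            have := mul_le_mul_of_nonneg_left h1 (hμ ω)
            linarith
        _ = 2 * ∑ ω, μ ω * (grad d (F ω) (x, y)) ^ 2 + 2 * ∑ ω, μ ω * (B ω (x, y)) ^ 2 := by
            rw [sum_add_distrib, mul_sum, mul_sum]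
        _ ≤ 2 * (48 * 2 ^ p * 16 ^ l) + 2 * (2 * 2 ^ p * 16 ^ l) := by linarith
        _ = 100 * Q := by rw [hQ]; ring
        _ ≤ Λ := hΛQ
    · calc ∑ ω, μ ω * (grad d (F ω) (x, y)) ^ 2 ≤ 48 * 2 ^ p * 16 ^ l := he
        _ = 48 * Q := by rw [hQ]; ring
        _ ≤ Λ := by linarith
    · intro ω
      calc |grad d (F ω) (x, y)| ≤ 13 * t * 4 ^ l := hf' ω
        _ ≤ 13 * t * Q := mul_le_mul_of_nonneg_left (h4le.trans hQ2) (by positivity)
        _ ≤ Λ := by rw [hΛ]; nlinarith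

end Crest.Agent.R232.T6
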